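import Vale.Agent.P022T.Defs

/-!
# P022T, row CE: the order of the inertia group
-/

set_option linter.all false

open NumberField

noncomputable section

namespace Vale.Agent.P022T

namespace Ce

variable {K : Type} [Field K] [NumberField K] [IsGalois ℚ K]

/-- the order of the inertia group is the exponent of `P` in `2` -/
theorem card_eq (P : Ideal (𝓞 K)) (hP : P.IsPrime) (h2 : (2 : 𝓞 K) ∈ P) :
    Nat.card (P.inertia (Ga K)) = w P 2 := by
  have m : (Ideal.span {(2 : ℤ)}).IsMaximal :=
    PrincipalIdealRing.isMaximal_of_irreducible Int.prime_two.irreducible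
  have lo : P.LiesOver (Ideal.span {(2 : ℤ)}) := ⟨m.eq_of_le (Ideal.comap_ne_top _ hP.ne_top) (by
    rw [Ideal.span_singleton_le_iff_mem, Ideal.under, Ideal.mem_comap, map_ofNat]
    exact h2)⟩
  have e : (Ideal.span {(2 : ℤ)}).map (algebraMap ℤ (𝓞 K)) = Ideal.span {2} := by
    rw [Ideal.map_span, Set.image_singleton, map_ofNat]
  have : Finite (ℤ ⧸ Ideal.span {(2 : ℤ)}) :=
    Ideal.finiteQuotientOfFreeOfNeBot _ (by simp)
  rw [Ideal.card_inertia_eq_ramificationIdxIn (G := Ga K) (Ideal.span {(2 : ℤ)}) P,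
    Ideal.ramificationIdxIn_eq_ramificationIdx (Ideal.span {(2 : ℤ)}) P (Ga K),
    Ideal.IsDedekindDomain.ramificationIdx_eq_multiplicity (Ideal.span {(2 : ℤ)}) P
      (by rw [e]; simp), e, w]

theorem card_I1 (P : Ideal (𝓞 K)) : (I1 P).card + 1 = Nat.card (P.inertia (Ga K)) := by
  classical
  have e : insert 1 (I1 P) = Finset.univ.filter fun s => s ∈ P.inertia (Ga K) := by
    ext s
    simp only [I1, Finset.mem_insert, Finset.mem_filter, Finset.mem_univ, true_and]
    refine ⟨?_, fun h => ?_⟩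
    · rintro (rfl | h)
      · exact Subgroup.one_mem _
      · exact h.1
    · by_cases c : s = 1
      · exact Or.inl c
      · exact Or.inr ⟨h, c⟩
  rw [← Finset.card_insert_of_notMem (a := 1) (by simp [I1]), e, Nat.card_eq_fintype_card,
    Fintype.card_subtype]

theorem card_succ (P : Ideal (𝓞 K)) (hP : P.IsPrime) (h2 : (2 : 𝓞 K) ∈ P) :
    (I1 P).card + 1 = w P 2 := (card_I1 P).trans (card_eq P hP h2)

end Ce

/-- **row CE** -/
theorem ce : CE := fun K _ _ _ P hP _ h2 => by
  have := Ce.card_succ P hP h2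
  omega

end Vale.Agent.P022T
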