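import Vale.Agent.P022T.Defs

/-!
# P022T: the order of the inertia group
-/

set_option linter.all false

open NumberField

noncomputable section

namespace Vale.Agent.P022T.H67

theorem card_in {K : Type} [Field K] [NumberField K] [IsGalois ℚ K] (P : Ideal (𝓞 K))
    (hP : P.IsPrime) (h2 : (2 : 𝓞 K) ∈ P) : Nat.card (P.inertia (Ga K)) = w P 2 := by
  classical
  have hp : (Ideal.span {(2 : ℤ)}).IsMaximal :=
    PrincipalIdealRing.isMaximal_of_irreducible Int.prime_two.irreducible
  have hl : P.LiesOver (Ideal.span {(2 : ℤ)}) := by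
    constructor
    refine hp.eq_of_le (Ideal.IsPrime.under ℤ P).ne_top ?_
    rw [Ideal.span_singleton_le_iff_mem, Ideal.under, Ideal.mem_comap]
    simpa using h2
  have h0 : Ideal.span {(2 : ℤ)} ≠ ⊥ := by simp
  have hf : Finite (ℤ ⧸ Ideal.span {(2 : ℤ)}) := Ring.HasFiniteQuotients.finiteQuotient h0
  rw [Ideal.card_inertia_eq_ramificationIdxIn (G := Ga K) (Ideal.span {(2 : ℤ)}) P,
    Ideal.ramificationIdxIn_eq_ramificationIdx (Ideal.span {(2 : ℤ)}) P (Ga K),
    Ideal.IsDedekindDomain.ramificationIdx_eq_multiplicity (Ideal.span {(2 : ℤ)}) P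
      (Ideal.map_ne_bot_of_ne_bot h0), Ideal.map_span]
  simp [w]

theorem card_I1 {K : Type} [Field K] [NumberField K] [IsGalois ℚ K] (P : Ideal (𝓞 K))
    (hP : P.IsPrime) (h2 : (2 : 𝓞 K) ∈ P) : (I1 P).card + 1 = w P 2 := by
  classical
  have h1 : (1 : Ga K) ∉ I1 P := by simp [I1]
  rw [← card_in P hP h2, ← Finset.card_insert_of_notMem h1, ← Nat.card_eq_finsetCard]
  refine Nat.card_congr (Equiv.subtypeEquivRight fun s => ?_)
  rw [Finset.mem_insert]
  simp only [I1, Finset.mem_filter, Finset.mem_univ, true_and]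
  have e : s ∈ P.inertia (Ga K) ↔ In P s := Iff.rfl
  rw [e]
  constructor
  · rintro (rfl | h)
    · exact (P.inertia (Ga K)).one_mem
    · exact h.1
  · intro h
    by_cases e : s = 1
    · exact Or.inl e
    · exact Or.inr ⟨h, e⟩

theorem ceC : CE := by
  intro K _ _ _ P hP _ h2
  have := card_I1 P hP h2
  omega

end Vale.Agent.P022T.H67
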