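import Vale.Agent.P022T.Defs

/-!
# P022T: a coset of the inertia group
-/

set_option linter.all false

open NumberField Polynomial

noncomputable section

namespace Vale.Agent.P022T.H88

open Vale.Agent.P022

theorem interp {R ι : Type} [CommRing R] [IsDomain R] [DecidableEq ι] (a : ι → R) (x : R)
    (T : Finset ι) (hinj : ∀ s ∈ T, ∀ t ∈ T, a s = a t → s = t) :
    ∃ D : R, D ≠ 0 ∧ ∀ (J : Ideal R) (f : R[X]), (∀ s ∈ T, f.eval (a s) ∈ J) →
      ∃ q : R, D * (f.eval x - (∏ s ∈ T, (a s - x)) * q) ∈ J := by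
  induction T using Finset.induction_on with
  | empty =>
    refine ⟨1, one_ne_zero, fun J f _ => ⟨f.eval x, ?_⟩⟩
    simp
  | insert b T hb ih =>
    obtain ⟨D, hD, h⟩ := ih fun s hs t ht => hinj s (Finset.mem_insert_of_mem hs) t
      (Finset.mem_insert_of_mem ht)
    have hD1 : (∏ s ∈ T, (a s - a b)) ≠ 0 := by
      refine Finset.prod_ne_zero_iff.2 fun s hs h0 => hb ?_
      have := hinj s (Finset.mem_insert_of_mem hs) b (Finset.mem_insert_self _ _) (sub_eq_zero.1 h0)
      exact this ▸ hs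
    refine ⟨(∏ s ∈ T, (a s - a b)) * D, mul_ne_zero hD1 hD, fun J f hf => ?_⟩
    have hdiv : ∀ z : R, f.eval z = (z - a b) * (f /ₘ (X - C (a b))).eval z + f.eval (a b) := by
      intro z
      have h1 := modByMonic_add_div f (X - C (a b))
      rw [modByMonic_X_sub_C_eq_C_eval] at h1
      have h2 := congrArg (eval z) h1
      simp only [eval_add, eval_C, eval_mul, eval_sub, eval_X] at h2
      rw [← h2]; ring
    have hb' : f.eval (a b) ∈ J := hf b (Finset.mem_insert_self _ _)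
    obtain ⟨q, hq⟩ := h (Submodule.comap (LinearMap.mulLeft R (∏ s ∈ T, (a s - a b))) J)
      (f /ₘ (X - C (a b))) (by
        intro s hs
        show (∏ s ∈ T, (a s - a b)) * _ ∈ J
        obtain ⟨c, hc⟩ := Finset.dvd_prod_of_mem (fun s => a s - a b) hs
        have h3 : (a s - a b) * (f /ₘ (X - C (a b))).eval (a s) ∈ J := by
          have := J.sub_mem (hf s (Finset.mem_insert_of_mem hs)) hb'
          rw [hdiv (a s)] at this
          simpa using this
        rw [hc, mul_right_comm]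
        exact J.mul_mem_right _ h3)
    have hq' : (∏ s ∈ T, (a s - a b)) *
        (D * ((f /ₘ (X - C (a b))).eval x - (∏ s ∈ T, (a s - x)) * q)) ∈ J := hq
    refine ⟨-q, ?_⟩
    rw [Finset.prod_insert hb, hdiv x]
    have h4 := J.add_mem (J.mul_mem_left (x - a b) hq')
      (J.mul_mem_left ((∏ s ∈ T, (a s - a b)) * D) hb')
    have e : (∏ s ∈ T, (a s - a b)) * D * ((x - a b) * (f /ₘ (X - C (a b))).eval x +
        f.eval (a b) - (a b - x) * (∏ s ∈ T, (a s - x)) * -q) =
        (x - a b) * ((∏ s ∈ T, (a s - a b)) *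
        (D * ((f /ₘ (X - C (a b))).eval x - (∏ s ∈ T, (a s - x)) * q))) +
        (∏ s ∈ T, (a s - a b)) * D * f.eval (a b) := by ring
    rw [e]
    exact h4

theorem co (hV : VAL) : CO := by
  classical
  intro K _ _ _ P hP h0 θ hθ hne T y hy hT
  obtain ⟨hmul, hmem, hinv, -⟩ := hV K P hP h0
  have h2 : (2 : 𝓞 K) ≠ 0 := two_ne_zero
  have hs1 : ∀ s ∈ T, s ≠ 1 := by
    intro s hs h1
    have h3 := (hT s hs).2
    rw [h1, one_smul] at h3
    have h4 : (2 : 𝓞 K) * y = 0 := by linear_combination h3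
    exact mul_ne_zero h2 hy h4
  obtain ⟨D, hD, h⟩ := interp (fun s : Ga K => s • θ) θ T (by
    intro s _ t _ hst
    by_contra hc
    have h3 : t⁻¹ * s ≠ 1 := fun h4 => hc (inv_mul_eq_one.1 h4).symm
    apply hne _ h3
    have hst' : s • θ = t • θ := hst
    rw [mul_smul, hst', inv_smul_smul, sub_self])
  obtain ⟨g, hg⟩ := hθ (w P D + ∑ s ∈ T, w P (s • θ - θ)) y
  have hpow : ∀ (s : Ga K) (n : ℕ) (x : 𝓞 K), In P s → x ∈ P ^ n → s • x ∈ P ^ n := by
    intro s n x hs hx
    by_cases hx0 : x = 0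
    · rw [hx0, smul_zero]; exact zero_mem _
    · have hx1 : s • x ≠ 0 := fun h5 => hx0 (by
        have := congrArg (fun z => s⁻¹ • z) h5
        simpa using this)
      rw [← hmem _ _ hx1, hinv s x hs, hmem _ _ hx0]
      exact hx
  have hae : ∀ s : Ga K, s • aeval θ g = aeval (s • θ) g := fun s =>
    (aeval_algHom_apply (MulSemiringAction.toRingHom (Ga K) (𝓞 K) s).toIntAlgHom θ g).symm
  obtain ⟨q, hq⟩ := h (P ^ (w P D + ∑ s ∈ T, w P (s • θ - θ)))
    (g.map (algebraMap ℤ (𝓞 K)) + C y) (by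
      intro s hs
      have h3 := hpow s _ _ (hT s hs).1 hg
      rw [smul_sub, (hT s hs).2, hae] at h3
      have h4 := neg_mem h3
      rw [eval_add, eval_C, eval_map_algebraMap]
      have e : aeval (s • θ) g + y = -(-y - aeval (s • θ) g) := by ring
      exact e ▸ h4)
  rw [eval_add, eval_C, eval_map_algebraMap] at hq
  have hprod : (∏ s ∈ T, (s • θ - θ)) ∈ P ^ (∑ s ∈ T, w P (s • θ - θ)) := by
    rw [← Finset.prod_pow_eq_pow_sum]
    exact Ideal.prod_mem_prod fun s hs => (hmem _ _ (hne s (hs1 s hs))).1 le_rfl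
  have hDm : D ∈ P ^ w P D := (hmem _ _ hD).1 le_rfl
  have h5 : D * (∏ s ∈ T, (s • θ - θ)) ∈ P ^ (w P D + ∑ s ∈ T, w P (s • θ - θ)) := by
    rw [pow_add]; exact Ideal.mul_mem_mul hDm hprod
  have h6 : D * (2 * y) ∈ P ^ (w P D + ∑ s ∈ T, w P (s • θ - θ)) := by
    have h7 := add_mem (add_mem hq (Ideal.mul_mem_right q _ h5)) (Ideal.mul_mem_left _ D hg)
    have e : D * (2 * y) = D * (aeval θ g + y - (∏ s ∈ T, (s • θ - θ)) * q) +
        D * (∏ s ∈ T, (s • θ - θ)) * q + D * (y - aeval θ g) := by ring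
    rw [e]
    exact h7
  have h8 := (hmem _ _ (mul_ne_zero hD (mul_ne_zero h2 hy))).2 h6
  rw [hmul _ _ hD (mul_ne_zero h2 hy), hmul _ _ h2 hy] at h8
  omega

end Vale.Agent.P022T.H88
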