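import Vale.Agent.P022E.St

/-!
# P022T: residual representations which are unramified outside two (statements)
-/

set_option linter.all false

open NumberField Polynomial

noncomputable section

namespace Vale.Agent.P022T

open Vale.Agent.P022

/-- the Galois group over the rationals -/
abbrev Ga (K : Type) [Field K] [NumberField K] : Type := K ≃ₐ[ℚ] K

section
variable {K : Type} [Field K] [NumberField K]

/-- the exponent of `P` in `x` -/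
def w (P : Ideal (𝓞 K)) (x : 𝓞 K) : ℕ := multiplicity P (Ideal.span {x})

/-- `s` lies in the inertia group of `P` -/
def In (P : Ideal (𝓞 K)) (s : Ga K) : Prop := ∀ x : 𝓞 K, s • x - x ∈ P

/-- the polynomials in `θ` are dense at `P` -/
def Ap (P : Ideal (𝓞 K)) (θ : 𝓞 K) : Prop :=
  ∀ (N : ℕ) (x : 𝓞 K), ∃ g : ℤ[X], x - aeval θ g ∈ P ^ N

open Classical in
/-- the non-trivial elements of the inertia group -/
def I1 (P : Ideal (𝓞 K)) : Finset (Ga K) := Finset.univ.filter fun s => In P s ∧ s ≠ 1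

end

/-- the common context -/
def Al (Φ : ∀ (K : Type) [Field K] [NumberField K] [IsGalois ℚ K], Ideal (𝓞 K) → Prop) : Prop :=
  ∀ (K : Type) [Field K] [NumberField K] [IsGalois ℚ K] (P : Ideal (𝓞 K)), P.IsPrime → P ≠ ⊥ →
    Φ K P

/-- the exponent -/
def VAL : Prop := Al fun K _ _ _ P =>
  (∀ x y, x ≠ 0 → y ≠ 0 → w P (x * y) = w P x + w P y) ∧
  (∀ x n, x ≠ 0 → (n ≤ w P x ↔ x ∈ P ^ n)) ∧
  (∀ (s : Ga K) x, In P s → w P (s • x) = w P x) ∧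
  ∀ x a, x ≠ 0 → a ≠ 0 → w P a ≤ w P x → ∃ c z, c ∉ P ∧ c * x = a * z

/-- a good generator -/
def TH : Prop := Al fun K _ _ _ P => ∃ θ, Ap P θ ∧ ∀ s : Ga K, ¬ In P s → s • θ - θ ∉ P

/-- the different -/
def DF : Prop := Al fun K _ _ _ P => ∀ θ, Ap P θ → (∀ s : Ga K, ¬ In P s → s • θ - θ ∉ P) →
  (∀ s : Ga K, s ≠ 1 → s • θ - θ ≠ 0) ∧
    multiplicity P (differentIdeal ℤ (𝓞 K)) ≤ ∑ s ∈ I1 P, w P (s • θ - θ)

/-- a coset of the inertia group -/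
def CO : Prop := Al fun K _ _ _ P => ∀ θ, Ap P θ → (∀ s : Ga K, s ≠ 1 → s • θ - θ ≠ 0) →
  ∀ (T : Finset (Ga K)) (y : 𝓞 K), y ≠ 0 → (∀ s ∈ T, In P s ∧ s • y = -y) →
    ∑ s ∈ T, w P (s • θ - θ) ≤ w P 2 + w P y

/-- the wild case -/
def WL : Prop := Al fun K _ _ _ P => (2 : 𝓞 K) ∈ P → ∀ θ, Ap P θ →
  (∀ s : Ga K, s ≠ 1 → s • θ - θ ≠ 0) → (∀ s : Ga K, In P s → s * s = 1) →
  2 * ((I1 P).card + 1) * ∑ s ∈ I1 P, w P (s • θ - θ) ≤ (5 * (I1 P).card + 1) * w P 2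

/-- tame or wild -/
def TM : Prop := Al fun K _ _ _ P => (2 : 𝓞 K) ∈ P → ∀ (k : Type) [Field k] [CharP k 2]
  (ι : Ga K →* GL (Fin 2) k), Function.Injective ι → ∀ θ, Ap P θ →
  (∀ s : Ga K, s ≠ 1 → s • θ - θ ≠ 0) →
  (∀ s : Ga K, In P s → s * s = 1) ∨ ∀ s ∈ I1 P, w P (s • θ - θ) ≤ 1

/-- the order of the inertia group -/
def CE : Prop := Al fun K _ _ _ P => (2 : 𝓞 K) ∈ P → (I1 P).card ≤ w P 2

/-- many Sylow groups -/
def GT : Prop := ∀ (G : Type) [Group G] [Finite G] (k : Type) [Field k] [CharP k 2]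
  (ι : G →* GL (Fin 2) k), Function.Injective ι → ¬ Group.IsSolvable G →
  6 ≤ Nat.card G ∧ ∀ S : Subgroup G, (∀ s ∈ S, s * s = 1) →
    Nat.card S * (Nat.card S + 1) ≤ Nat.card G

/-- the bound of Minkowski -/
def MK : Prop := ∀ (K : Type) [Field K] [NumberField K] (t : ℕ), 2 ≤ t →
  t * (t + 1) ≤ Module.finrank ℚ K → Module.finrank ℚ K < (t + 1) * (t + 2) →
  2 ^ (Module.finrank ℚ K * (5 * t - 4)) < (discr K).natAbs ^ (2 * t)

/-- from the primes to the discriminant -/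
def GB : Prop := ∀ (K : Type) [Field K] [NumberField K] (a b : ℕ),
  (∀ P : Ideal (𝓞 K), P.IsPrime → P ≠ ⊥ →
    b * multiplicity P (differentIdeal ℤ (𝓞 K)) ≤ a * w P 2) →
  (discr K).natAbs ^ b ≤ 2 ^ (Module.finrank ℚ K * a)

/-- the theorem for a finite extension -/
def T0 : Prop := ∀ (K : Type) [Field K] [NumberField K] [IsGalois ℚ K] (k : Type) [Field k]
  [CharP k 2] (ι : Ga K →* GL (Fin 2) k), Function.Injective ι →
  (∀ P : Ideal (𝓞 K), P.IsPrime → P ≠ ⊥ → (2 : 𝓞 K) ∉ P → ∀ s, In P s → s = 1) →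
  Group.IsSolvable (Ga K)

/-- the theorem -/
def TATE : Prop := ∀ (k : Type) [Field k] [CharP k 2]
  (ρ : (AlgebraicClosure ℚ ≃ₐ[ℚ] AlgebraicClosure ℚ) →* GL (Fin 2) k),
  IsOpen {g | ρ g = 1} → (∀ p : ℕ, p.Prime → p ≠ 2 → St.UnrAt ρ p) → Group.IsSolvable ρ.range

/-- the reduction of a stable lattice -/
def RES : Prop := ∀ (E : Type) [NontriviallyNormedField E] [NormedAlgebra ℚ_[2] E]
  [FiniteDimensional ℚ_[2] E]
  (r : (AlgebraicClosure ℚ ≃ₐ[ℚ] AlgebraicClosure ℚ) →* GL (Fin 2) E), Continuous r →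
  ∃ (k : Type) (_ : Field k) (_ : CharP k 2) (_ : Finite k)
    (ρ : (AlgebraicClosure ℚ ≃ₐ[ℚ] AlgebraicClosure ℚ) →* GL (Fin 2) k), St.IsRes r ρ ∧
    IsOpen {g | ρ g = 1} ∧ ∀ g, r g = 1 → ρ g = 1

end Vale.Agent.P022T
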