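import Vale.Agent.P022T.Defs

/-!
# P022T: the different
-/

set_option linter.all false

open NumberField Polynomial

noncomputable section

namespace Vale.Agent.P022T

namespace Df

variable {K : Type} [Field K] [NumberField K] {P : Ideal (𝓞 K)}

theorem in_pow {s : Ga K} (h : In P s) (N : ℕ) (x : 𝓞 K) (hx : x ∈ P ^ N) : s • x ∈ P ^ N := by
  have e : P.map (MulSemiringAction.toRingHom (Ga K) (𝓞 K) s) ≤ P :=
    Ideal.map_le_iff_le_comap.2 fun y hy => by
      have := P.add_mem (h y) hy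
      rw [sub_add_cancel] at this
      exact this
  have := Ideal.mem_map_of_mem (MulSemiringAction.toRingHom (Ga K) (𝓞 K) s) hx
  rw [Ideal.map_pow] at this
  exact Ideal.pow_right_mono e N this

theorem ne (hP : P.IsPrime) {θ : 𝓞 K} (hA : Ap P θ) (h : ∀ s : Ga K, ¬ In P s → s • θ - θ ∉ P)
    (s : Ga K) (hs : s ≠ 1) : s • θ - θ ≠ 0 := by
  intro e
  have hi : In P s := by
    by_contra k
    exact h s k (e ▸ P.zero_mem)
  have e1 : s • θ = θ := sub_eq_zero.1 e
  have e2 : ∀ x : 𝓞 K, s • x = x := fun x => by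
    have : s • x - x ∈ ⨅ N : ℕ, P ^ N := Ideal.mem_iInf.2 fun N => by
      obtain ⟨g, hg⟩ := hA N x
      have k1 := in_pow hi N _ hg
      have k2 : s • aeval θ g = aeval θ g := by
        have := aeval_algHom_apply (MulSemiringAction.toRingHom (Ga K) (𝓞 K) s).toIntAlgHom θ g
        change aeval (s • θ) g = s • aeval θ g at this
        rw [← this, e1]
      rw [smul_sub, k2] at k1
      have := Ideal.sub_mem _ k1 hg
      rwa [sub_sub_sub_cancel_right] at this
    rw [Ideal.iInf_pow_eq_bot_of_isDomain P hP.ne_top] at this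
    exact sub_eq_zero.1 this
  refine hs (AlgEquiv.ext fun x => ?_)
  obtain ⟨a, b, -, rfl⟩ := IsFractionRing.div_surjective (A := 𝓞 K) x
  have k : ∀ y : 𝓞 K, s (algebraMap (𝓞 K) K y) = algebraMap (𝓞 K) K y := fun y =>
    congrArg (algebraMap (𝓞 K) K) (e2 y)
  rw [map_div₀, k, k]
  rfl

open Classical in
theorem mem [IsGalois ℚ K] {θ : 𝓞 K} (h : ∀ s : Ga K, s ≠ 1 → s • θ - θ ≠ 0) :
    ∏ s ∈ Finset.univ.erase (1 : Ga K), (θ - s • θ) ∈ differentIdeal ℤ (𝓞 K) := by
  have h1 : IntermediateField.adjoin ℚ {algebraMap (𝓞 K) K θ} = ⊤ := by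
    rw [← IsGalois.fixedField_fixingSubgroup (IntermediateField.adjoin ℚ _)]
    have : (IntermediateField.adjoin ℚ {algebraMap (𝓞 K) K θ}).fixingSubgroup = ⊥ := by
      refine eq_bot_iff.2 fun s hs => ?_
      by_contra k
      refine h s k (sub_eq_zero.2 (IsFractionRing.injective (𝓞 K) K ?_))
      exact (IntermediateField.mem_fixingSubgroup_iff _ _).1 hs _
        (IntermediateField.mem_adjoin_simple_self _ _)
    rw [this, IntermediateField.fixedField_bot]
  have h2 : Algebra.adjoin ℚ {algebraMap (𝓞 K) K θ} = ⊤ := by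
    rw [← IntermediateField.adjoin_simple_toSubalgebra_of_isAlgebraic
      (Algebra.IsAlgebraic.isAlgebraic _), h1]
    rfl
  have h3 := aeval_derivative_mem_differentIdeal ℤ ℚ K θ h2
  obtain ⟨g, hg⟩ := (mem_lifts _).1 (Algebra.IsInvariant.charpoly_mem_lifts ℤ (𝓞 K) (Ga K) θ)
  have h4 : aeval θ g = 0 := by
    rw [← eval_map_algebraMap, hg, MulSemiringAction.eval_charpoly]
  obtain ⟨q, hq⟩ := minpoly.isIntegrallyClosed_dvd (Algebra.IsIntegral.isIntegral θ) h4
  have h5 : aeval θ (derivative g) ∈ differentIdeal ℤ (𝓞 K) := by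
    rw [hq, derivative_mul, map_add, map_mul, map_mul, minpoly.aeval, zero_mul, add_zero]
    exact Ideal.mul_mem_right _ _ h3
  rw [← eval_map_algebraMap, ← derivative_map, hg, MulSemiringAction.charpoly_eq,
    ← Finset.mul_prod_erase _ _ (Finset.mem_univ (1 : Ga K)), derivative_mul, one_smul] at h5
  simpa [eval_prod] using h5

theorem w_prod (hP : P.IsPrime) (v1 : ∀ x y, x ≠ 0 → y ≠ 0 → w P (x * y) = w P x + w P y)
    {ι : Type} (T : Finset ι) (f : ι → 𝓞 K) (h : ∀ i ∈ T, f i ≠ 0) :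
    w P (∏ i ∈ T, f i) = ∑ i ∈ T, w P (f i) := by
  classical
  induction T using Finset.induction_on with
  | empty =>
    have := v1 1 1 one_ne_zero one_ne_zero
    rw [mul_one] at this
    rw [Finset.prod_empty, Finset.sum_empty]
    omega
  | insert a T ha ih =>
    rw [Finset.prod_insert ha, Finset.sum_insert ha, v1 _ _ (h a (Finset.mem_insert_self _ _))
      (Finset.prod_ne_zero_iff.2 fun i hi => h i (Finset.mem_insert_of_mem hi)),
      ih fun i hi => h i (Finset.mem_insert_of_mem hi)]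

end Df

theorem dfC (hV : VAL) : DF := by
  classical
  intro K _ _ _ P hP h0 θ hA h
  obtain ⟨v1, v2, -, -⟩ := hV K P hP h0
  have n1 := Df.ne hP hA h
  refine ⟨n1, ?_⟩
  have n2 : ∀ s ∈ Finset.univ.erase (1 : Ga K), θ - s • θ ≠ 0 := fun s hs k =>
    n1 s (Finset.ne_of_mem_erase hs) (by rw [← neg_sub, k, neg_zero])
  have m := Df.mem n1
  have k1 : multiplicity P (differentIdeal ℤ (𝓞 K)) ≤
      w P (∏ s ∈ Finset.univ.erase (1 : Ga K), (θ - s • θ)) :=
    (v2 _ _ (Finset.prod_ne_zero_iff.2 n2)).2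
      (Ideal.le_of_dvd (pow_multiplicity_dvd P _) m)
  rw [Df.w_prod hP v1 _ _ n2] at k1
  refine k1.trans (le_of_eq ?_)
  have e : ∀ s : Ga K, w P (θ - s • θ) = w P (s • θ - θ) := fun s => by
    rw [w, w, ← neg_sub, Ideal.span_singleton_neg]
  simp only [e]
  refine (Finset.sum_subset (fun s hs => ?_) fun s hs k => ?_).symm
  · exact Finset.mem_erase.2 ⟨(Finset.mem_filter.1 hs).2.2, Finset.mem_univ _⟩
  · have s1 := Finset.ne_of_mem_erase hs
    have s2 : ¬ In P s := fun i => k (Finset.mem_filter.2 ⟨Finset.mem_univ _, i, s1⟩)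
    by_contra c
    exact h s s2 (by simpa using (v2 _ 1 (n1 s s1)).1 (by omega))

end Vale.Agent.P022T
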