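import Vale.Agent.P022T.Defs

/-!
# P022T, row DF: the exponent of the different
-/

set_option linter.all false

open NumberField Polynomial

noncomputable section

namespace Vale.Agent.P022T.H29

variable {K : Type} [Field K] [NumberField K]

theorem coe_smul (s : Ga K) (x : 𝓞 K) : ((s • x : 𝓞 K) : K) = s x := rfl

theorem pow_mem {P : Ideal (𝓞 K)} {s : Ga K} (h : In P s) (N : ℕ) {x : 𝓞 K} (hx : x ∈ P ^ N) :
    s • x ∈ P ^ N := by
  have k : P.map (MulSemiringAction.toRingHom (Ga K) (𝓞 K) s) ≤ P :=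
    Ideal.map_le_iff_le_comap.2 fun y hy => by
      have := P.add_mem (h y) hy
      rwa [sub_add_cancel] at this
  have := Ideal.mem_map_of_mem (MulSemiringAction.toRingHom (Ga K) (𝓞 K) s) hx
  rw [Ideal.map_pow] at this
  exact Ideal.pow_right_mono k N this

theorem smul_aeval (s : Ga K) (θ : 𝓞 K) (g : ℤ[X]) : s • aeval θ g = aeval (s • θ) g :=
  (aeval_algHom_apply (MulSemiringAction.toRingHom (Ga K) (𝓞 K) s).toIntAlgHom θ g).symm

theorem ne0 {P : Ideal (𝓞 K)} (hP : P.IsPrime) {θ : 𝓞 K} (hA : Ap P θ)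
    (h : ∀ s : Ga K, ¬ In P s → s • θ - θ ∉ P) (s : Ga K) (hs : s ≠ 1) : s • θ - θ ≠ 0 := by
  intro e
  have hi : In P s := by
    by_contra c
    exact h s c (e ▸ P.zero_mem)
  have k : ∀ x : 𝓞 K, s • x = x := fun x => by
    have : s • x - x ∈ ⨅ N : ℕ, P ^ N := Ideal.mem_iInf.2 fun N => by
      obtain ⟨g, hg⟩ := hA N x
      have h1 := pow_mem hi N hg
      rw [smul_sub, smul_aeval, sub_eq_zero.1 e] at h1
      have := (P ^ N).sub_mem h1 hg
      rwa [sub_sub_sub_cancel_right] at this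
    rwa [Ideal.iInf_pow_eq_bot_of_isDomain P hP.ne_top, Ideal.mem_bot, sub_eq_zero] at this
  refine hs (AlgEquiv.ext fun x => ?_)
  obtain ⟨a, b, -, rfl⟩ := IsFractionRing.div_surjective (𝓞 K) x
  have ka : s (algebraMap (𝓞 K) K a) = algebraMap (𝓞 K) K a := congrArg (fun y : 𝓞 K => (y : K)) (k a)
  have kb : s (algebraMap (𝓞 K) K b) = algebraMap (𝓞 K) K b := congrArg (fun y : 𝓞 K => (y : K)) (k b)
  rw [map_div₀, ka, kb]
  rfl

open Classical in
theorem prod_mem [IsGalois ℚ K] {θ : 𝓞 K} (h : ∀ s : Ga K, s ≠ 1 → s • θ - θ ≠ 0) :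
    ∏ s ∈ (Finset.univ : Finset (Ga K)).erase 1, (θ - s • θ) ∈ differentIdeal ℤ (𝓞 K) := by
  have inj : Function.Injective fun s : Ga K => s • θ := fun a b e => by
    by_contra c
    refine h (b⁻¹ * a) (fun k => c (inv_mul_eq_one.1 k).symm) ?_
    rw [mul_smul, show a • θ = b • θ from e, inv_smul_smul, sub_self]
  have hi : IsIntegral ℤ θ := Algebra.IsIntegral.isIntegral θ
  have hm : ((minpoly ℤ θ).map (algebraMap ℤ (𝓞 K))).Monic := (minpoly.monic hi).map _
  have e1 : minpoly ℚ (algebraMap (𝓞 K) K θ) = (minpoly ℤ θ).map (algebraMap ℤ ℚ) :=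
    minpoly.isIntegrallyClosed_eq_field_fractions ℚ K hi
  have d1 : (minpoly ℚ (algebraMap (𝓞 K) K θ)).natDegree = (minpoly ℤ θ).natDegree := by
    rw [e1, (minpoly.monic hi).natDegree_map]
  have d2 := minpoly.natDegree_le (A := ℚ) (algebraMap (𝓞 K) K θ)
  have d3 : (Lagrange.nodal Finset.univ fun s : Ga K => s • θ).natDegree = Module.finrank ℚ K := by
    rw [Lagrange.natDegree_nodal, Finset.card_univ, ← Nat.card_eq_fintype_card,
      IsGalois.card_aut_eq_finrank]
  have dv : (Lagrange.nodal Finset.univ fun s : Ga K => s • θ) ∣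
      (minpoly ℤ θ).map (algebraMap ℤ (𝓞 K)) := by
    have := (Multiset.prod_X_sub_C_dvd_iff_le_roots hm.ne_zero
      (Finset.univ.val.map fun s : Ga K => s • θ)).2 ((Multiset.le_iff_subset
        (Finset.univ.nodup.map inj)).2 fun y hy => by
          obtain ⟨s, -, rfl⟩ := Multiset.mem_map.1 hy
          rw [mem_roots hm.ne_zero, IsRoot.def, eval_map_algebraMap, ← smul_aeval, minpoly.aeval,
            smul_zero])
    rwa [Multiset.map_map] at this
  have eq := eq_of_monic_of_dvd_of_natDegree_le Lagrange.nodal_monic hm dv (by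
    rw [d3, (minpoly.monic hi).natDegree_map, ← d1]; exact d2)
  have d4 : (minpoly ℚ (algebraMap (𝓞 K) K θ)).natDegree = Module.finrank ℚ K := by
    rw [d1, ← d3, ← eq, (minpoly.monic hi).natDegree_map]
  have top : Algebra.adjoin ℚ {algebraMap (𝓞 K) K θ} = ⊤ := by
    rw [← IntermediateField.adjoin_simple_toSubalgebra_of_isAlgebraic
      (Algebra.IsAlgebraic.isAlgebraic _),
      (Field.primitive_element_iff_minpoly_natDegree_eq ℚ _).2 d4]
    rfl
  have k := aeval_derivative_mem_differentIdeal ℤ ℚ K θ top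
  rw [← eval_map_algebraMap, ← derivative_map, eq] at k
  have k2 := Lagrange.eval_nodal_derivative_eval_node_eq (s := Finset.univ)
    (v := fun s : Ga K => s • θ) (Finset.mem_univ 1)
  simp only [one_smul] at k2
  rwa [k2, Lagrange.eval_nodal] at k

open Classical in
/-- **row DF** -/
theorem dfC : DF := by
  intro K _ _ _ P hP h0 θ hA h
  have n0 := ne0 hP hA h
  refine ⟨n0, ?_⟩
  have pr : Prime P := Ideal.prime_of_isPrime h0 hP
  have hD : differentIdeal ℤ (𝓞 K) ≠ ⊥ := differentIdeal_ne_bot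
  have k := emultiplicity_le_emultiplicity_of_dvd_right (a := P)
    (Ideal.dvd_span_singleton.2 (prod_mem n0))
  rw [← Ideal.prod_span_singleton, Finset.emultiplicity_prod pr,
    (FiniteMultiplicity.of_prime_left pr hD).emultiplicity_eq_multiplicity] at k
  have e : ∑ s ∈ (Finset.univ : Finset (Ga K)).erase 1, emultiplicity P (Ideal.span {θ - s • θ}) =
      ((∑ s ∈ I1 P, w P (s • θ - θ) : ℕ) : ℕ∞) := by
    rw [Nat.cast_sum, ← Finset.sum_subset (s₁ := I1 P) (fun s hs => Finset.mem_erase.2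
      ⟨(Finset.mem_filter.1 hs).2.2, Finset.mem_univ _⟩) fun s h1 h2 => ?_]
    · refine Finset.sum_congr rfl fun s hs => ?_
      rw [← neg_sub, Ideal.span_singleton_neg, (FiniteMultiplicity.of_prime_left pr
        (fun c => n0 s (Finset.mem_filter.1 hs).2.2
          (Ideal.span_singleton_eq_bot.1 c))).emultiplicity_eq_multiplicity]
      rfl
    · rw [emultiplicity_eq_zero, Ideal.dvd_span_singleton, ← neg_sub, neg_mem_iff]
      exact h s fun c => h2 (Finset.mem_filter.2 ⟨Finset.mem_univ _, c, (Finset.mem_erase.1 h1).1⟩)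
  rw [e] at k
  exact_mod_cast k

end Vale.Agent.P022T.H29
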