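import Vale.Agent.P022T.Defs

/-!
# P022T: the different and a good generator
-/

set_option linter.all false

open NumberField Polynomial

noncomputable section

namespace Vale.Agent.P022T.H47

variable {K : Type} [Field K] [NumberField K]

theorem smul_pow {P : Ideal (𝓞 K)} {s : Ga K} (h : In P s) (N : ℕ) {y : 𝓞 K} (hy : y ∈ P ^ N) :
    s • y ∈ P ^ N := by
  have a : P ≤ P.comap (MulSemiringAction.toRingHom (Ga K) (𝓞 K) s) := fun x hx => by
    have := add_mem (h x) hx
    rwa [sub_add_cancel] at this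
  exact Ideal.le_comap_pow _ N (Ideal.pow_right_mono a N hy)

theorem smul_aeval (s : Ga K) (θ : 𝓞 K) (g : ℤ[X]) : s • aeval θ g = aeval (s • θ) g :=
  (aeval_algHom_apply (MulSemiringAction.toRingHom (Ga K) (𝓞 K) s).toIntAlgHom θ g).symm

theorem coe_smul (s : Ga K) (x : 𝓞 K) : algebraMap (𝓞 K) K (s • x) = s (algebraMap (𝓞 K) K x) :=
  rfl

theorem eq_one {s : Ga K} (h : ∀ x : 𝓞 K, s • x = x) : s = 1 := by
  ext x
  obtain ⟨a, b, -, rfl⟩ := IsFractionRing.div_surjective (A := 𝓞 K) x
  rw [map_div₀, ← coe_smul, ← coe_smul, h, h, AlgEquiv.one_apply]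

theorem ne {P : Ideal (𝓞 K)} (hP : P.IsPrime) {θ : 𝓞 K} (hA : Ap P θ)
    (hN : ∀ s : Ga K, ¬ In P s → s • θ - θ ∉ P) (s : Ga K) (hs : s ≠ 1) : s • θ - θ ≠ 0 := by
  intro e
  have i : In P s := by
    by_contra c
    exact hN s c (e ▸ zero_mem _)
  refine hs (eq_one fun x => sub_eq_zero.1 ?_)
  rw [← Ideal.mem_bot, ← Ideal.iInf_pow_eq_bot_of_isDomain P hP.ne_top, Ideal.mem_iInf]
  intro N
  obtain ⟨g, hg⟩ := hA N x
  have := sub_mem (smul_pow i N hg) hg
  rwa [smul_sub, smul_aeval, sub_eq_zero.1 e, sub_sub_sub_cancel_right] at this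

open Classical in
theorem mem_diff [IsGalois ℚ K] {θ : 𝓞 K} (h : ∀ s : Ga K, s ≠ 1 → s • θ - θ ≠ 0) :
    ∏ s ∈ (Finset.univ : Finset (Ga K)).erase 1, (θ - s • θ) ∈ differentIdeal ℤ (𝓞 K) := by
  set t := algebraMap (𝓞 K) K θ with ht
  have inj : Function.Injective fun s : Ga K => s t := fun a b e => by
    by_contra c
    refine h (b⁻¹ * a) (fun k => c (inv_mul_eq_one.1 k).symm) (sub_eq_zero.2 ?_)
    apply IsFractionRing.injective (𝓞 K) K
    rw [coe_smul, ← ht, AlgEquiv.mul_apply, show a t = b t from e, ← AlgEquiv.mul_apply,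
      inv_mul_cancel, AlgEquiv.one_apply]
  have it : IsIntegral ℚ t := IsIntegral.of_finite ℚ t
  have dv : Lagrange.nodal Finset.univ (fun s : Ga K => s t) ∣
      (minpoly ℚ t).map (algebraMap ℚ K) := by
    refine Finset.prod_dvd_of_coprime (fun a _ b _ e => pairwise_coprime_X_sub_C inj e)
      fun s _ => dvd_iff_isRoot.2 ?_
    rw [IsRoot.def, eval_map_algebraMap, aeval_algHom_apply, minpoly.aeval, map_zero]
  have mo := (minpoly.monic it).map (algebraMap ℚ K)
  have c : (Lagrange.nodal Finset.univ fun s : Ga K => s t).natDegree = Module.finrank ℚ K := by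
    rw [Lagrange.natDegree_nodal, Finset.card_univ, ← Nat.card_eq_fintype_card,
      IsGalois.card_aut_eq_finrank]
  have e := eq_of_monic_of_dvd_of_natDegree_le Lagrange.nodal_monic mo dv (by
    rw [c, natDegree_map]
    exact minpoly.natDegree_le t)
  have top : Algebra.adjoin ℚ {t} = ⊤ := IntermediateField.adjoin_eq_top_iff.1
    ((Field.primitive_element_iff_minpoly_natDegree_eq ℚ t).2 (by
      rw [← c, ← e, natDegree_map]))
  have m := aeval_derivative_mem_differentIdeal ℤ ℚ K θ top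
  have q : aeval θ (derivative (minpoly ℤ θ)) =
      ∏ s ∈ (Finset.univ : Finset (Ga K)).erase 1, (θ - s • θ) := by
    apply IsFractionRing.injective (𝓞 K) K
    have d := Lagrange.eval_nodal_derivative_eval_node_eq (v := fun s : Ga K => s t)
      (Finset.mem_univ (1 : Ga K))
    rw [← e, derivative_map, eval_map_algebraMap, ht,
      minpoly.isIntegrallyClosed_eq_field_fractions ℚ K θ.isIntegral, derivative_map,
      aeval_map_algebraMap, Lagrange.eval_nodal, AlgEquiv.one_apply, aeval_algebraMap_apply] at d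
    rw [d, map_prod]
    exact Finset.prod_congr rfl fun s _ => by rw [map_sub, coe_smul]
  exact q ▸ m

/-- **row DF** -/
theorem dfC (hV : VAL) : DF := by
  classical
  intro K _ _ _ P hP h0 θ hA hN
  have h := ne hP hA hN
  refine ⟨h, ?_⟩
  obtain ⟨v1, v2, -, -⟩ := hV K P hP h0
  have z : ∀ x : 𝓞 K, x ≠ 0 → x ∉ P → w P x = 0 := fun x a b => by
    by_contra c
    exact b (by simpa using (v2 x 1 a).1 (Nat.one_le_iff_ne_zero.2 c))
  have pr : ∀ T : Finset (Ga K), (∀ s ∈ T, s ≠ 1) →
      w P (∏ s ∈ T, (θ - s • θ)) = ∑ s ∈ T, w P (s • θ - θ) := fun T => by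
    induction T using Finset.induction_on with
    | empty => exact fun _ => z _ one_ne_zero ((Ideal.ne_top_iff_one _).1 hP.ne_top)
    | insert a T ha ih =>
      intro k
      have n : ∀ s ∈ insert a T, θ - s • θ ≠ 0 := fun s hs c =>
        h s (k s hs) (by rw [← neg_sub, c, neg_zero])
      rw [Finset.prod_insert ha, Finset.sum_insert ha, v1 _ _ (n a (Finset.mem_insert_self _ _))
        (Finset.prod_ne_zero_iff.2 fun s hs => n s (Finset.mem_insert_of_mem hs)),
        ih fun s hs => k s (Finset.mem_insert_of_mem hs), w, ← neg_sub, Ideal.span_singleton_neg]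
      rfl
  have n0 : ∏ s ∈ (Finset.univ : Finset (Ga K)).erase 1, (θ - s • θ) ≠ 0 :=
    Finset.prod_ne_zero_iff.2 fun s hs c =>
      h s (Finset.ne_of_mem_erase hs) (by rw [← neg_sub, c, neg_zero])
  refine ((v2 _ _ n0).2 (Ideal.le_of_dvd (pow_multiplicity_dvd _ _) (mem_diff h))).trans ?_
  rw [pr _ fun s hs => Finset.ne_of_mem_erase hs]
  refine (Finset.sum_subset (fun s hs => ?_) fun s a b => ?_).ge
  · exact Finset.mem_erase.2 ⟨(Finset.mem_filter.1 hs).2.2, Finset.mem_univ _⟩
  · have c := Finset.ne_of_mem_erase a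
    exact z _ (h s c) (hN s fun i => b (Finset.mem_filter.2 ⟨Finset.mem_univ _, i, c⟩))

end Vale.Agent.P022T.H47
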