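import Vale.Agent.P022T.Defs

/-!
# P022T: the different is bounded by the displacements of a generator
-/

set_option linter.all false

open NumberField Polynomial

noncomputable section

namespace Vale.Agent.P022T.H7

variable {K : Type} [Field K] [NumberField K]

theorem pw {P : Ideal (𝓞 K)} {s : Ga K} (h : In P s) (N : ℕ) {y : 𝓞 K} (hy : y ∈ P ^ N) :
    s • y ∈ P ^ N := by
  have e : P.map (MulSemiringAction.toRingHom (Ga K) (𝓞 K) s) ≤ P :=
    Ideal.map_le_iff_le_comap.2 fun x hx => by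
      have := P.add_mem (h x) hx
      rwa [sub_add_cancel] at this
  have := Ideal.mem_map_of_mem (MulSemiringAction.toRingHom (Ga K) (𝓞 K) s) hy
  rw [Ideal.map_pow] at this
  exact Ideal.pow_right_mono e N this

theorem one_of {s : Ga K} (h : ∀ x : 𝓞 K, s • x = x) : s = 1 := by
  ext z
  obtain ⟨a, b, hb, rfl⟩ := IsFractionRing.div_surjective (A := 𝓞 K) z
  have k : ∀ x : 𝓞 K, s (algebraMap _ K x) = algebraMap _ K x := fun x =>
    congrArg (algebraMap (𝓞 K) K) (h x)
  rw [map_div₀, k, k]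
  rfl

theorem dfC (hV : VAL) : DF := by
  classical
  intro K _ _ _ P hP h0 θ hA hθ
  obtain ⟨v1, v2, -, -⟩ := hV K P hP h0
  have a1 : ∀ s : Ga K, s ≠ 1 → s • θ - θ ≠ 0 := fun s hs e => hs (one_of fun x => by
    have hI : In P s := by_contra fun c => hθ s c (e ▸ P.zero_mem)
    have e' : s • θ = θ := sub_eq_zero.1 e
    have : s • x - x ∈ ⨅ N : ℕ, P ^ N := Ideal.mem_iInf.2 fun N => by
      obtain ⟨g, hg⟩ := hA N x
      have k : s • aeval θ g = aeval θ g := by
        have := aeval_algHom_apply (MulSemiringAction.toRingHom (Ga K) (𝓞 K) s).toIntAlgHom θ g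
        change aeval (s • θ) g = s • aeval θ g at this
        rw [← this, e']
      have := (P ^ N).sub_mem (pw hI N hg) hg
      rwa [smul_sub, k, sub_sub_sub_cancel_right] at this
    rw [Ideal.iInf_pow_eq_bot_of_isDomain P hP.ne_top] at this
    exact sub_eq_zero.1 this)
  refine ⟨a1, ?_⟩
  have top : Algebra.adjoin ℚ {algebraMap (𝓞 K) K θ} = ⊤ := by
    have h1 : (IntermediateField.adjoin ℚ {algebraMap (𝓞 K) K θ}).fixingSubgroup = ⊥ := by
      refine eq_bot_iff.2 fun s hs => by_contra fun c => a1 s c (sub_eq_zero.2 ?_)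
      exact Subtype.ext (hs ⟨_, IntermediateField.mem_adjoin_simple_self ℚ _⟩)
    have h2 := IsGalois.fixedField_fixingSubgroup
      (IntermediateField.adjoin ℚ {algebraMap (𝓞 K) K θ})
    rw [h1, IntermediateField.fixedField_bot] at h2
    rw [← IntermediateField.adjoin_simple_toSubalgebra_of_isAlgebraic
      (Algebra.IsAlgebraic.isAlgebraic _), ← h2]
    rfl
  have d1 := aeval_derivative_mem_differentIdeal ℤ ℚ K θ top
  obtain ⟨F, hF⟩ := (mem_lifts _).1 (Algebra.IsInvariant.charpoly_mem_lifts ℤ (𝓞 K) (Ga K) θ)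
  have F0 : aeval θ F = 0 := by
    rw [aeval_def, ← eval_map, hF, MulSemiringAction.eval_charpoly]
  obtain ⟨h, rfl⟩ := minpoly.isIntegrallyClosed_dvd (Algebra.IsIntegral.isIntegral θ) F0
  have d2 : aeval θ (derivative (minpoly ℤ θ * h)) ∈ differentIdeal ℤ (𝓞 K) := by
    rw [derivative_mul, map_add, map_mul, map_mul, minpoly.aeval, zero_mul, add_zero]
    exact Ideal.mul_mem_right _ _ d1
  have d3 : aeval θ (derivative (minpoly ℤ θ * h)) =
      ∏ s ∈ Finset.univ.erase (1 : Ga K), (θ - s • θ) := by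
    rw [aeval_def, ← eval_map, ← derivative_map, hF, MulSemiringAction.charpoly_eq,
      ← Finset.mul_prod_erase _ _ (Finset.mem_univ (1 : Ga K)), derivative_mul, one_smul]
    simp [eval_prod]
  rw [d3] at d2
  have pr : ∀ T : Finset (Ga K), (∀ s ∈ T, s ≠ 1) → ∏ s ∈ T, (θ - s • θ) ≠ 0 ∧
      w P (∏ s ∈ T, (θ - s • θ)) = ∑ s ∈ T, w P (s • θ - θ) := by
    intro T
    induction T using Finset.induction_on with
    | empty =>
      refine fun _ => ⟨by simp, ?_⟩
      have := v1 1 1 one_ne_zero one_ne_zero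
      rw [mul_one] at this
      rw [Finset.prod_empty, Finset.sum_empty]
      omega
    | insert a T ha ih =>
      intro k
      obtain ⟨i1, i2⟩ := ih fun s hs => k s (Finset.mem_insert_of_mem hs)
      have n : θ - a • θ ≠ 0 := fun e =>
        a1 a (k a (Finset.mem_insert_self _ _)) (by rw [← neg_sub, e, neg_zero])
      rw [Finset.prod_insert ha, Finset.sum_insert ha, v1 _ _ n i1, i2]
      refine ⟨mul_ne_zero n i1, ?_⟩
      rw [w, ← Ideal.span_singleton_neg, neg_sub]
      rfl
  obtain ⟨p1, p2⟩ := pr (Finset.univ.erase 1) fun s hs => Finset.ne_of_mem_erase hs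
  have le := (v2 _ _ p1).2 (Ideal.le_of_dvd (pow_multiplicity_dvd P (differentIdeal ℤ (𝓞 K))) d2)
  refine le.trans (p2.le.trans (le_of_eq (Finset.sum_subset (fun s hs => ?_)
    fun s h1 h2 => ?_).symm))
  · exact Finset.mem_erase.2 ⟨(Finset.mem_filter.1 hs).2.2, Finset.mem_univ _⟩
  · have s1 := Finset.ne_of_mem_erase h1
    have nI : ¬ In P s := fun c => h2 (Finset.mem_filter.2 ⟨Finset.mem_univ _, c, s1⟩)
    have := (v2 _ 1 (a1 s s1)).not.2 (by rw [pow_one]; exact hθ s nI)
    omega

end Vale.Agent.P022T.H7
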