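import Vale.Agent.P022T.Defs

/-! # P022T, row DF: the different and a good generator -/

set_option linter.all false

open NumberField Polynomial

noncomputable section

namespace Vale.Agent.P022T.H99

variable {K : Type} [Field K] [NumberField K]

theorem coe_smul (s : Ga K) (x : 𝓞 K) : ((s • x : 𝓞 K) : K) = s (x : K) := rfl

theorem smul_pow {P : Ideal (𝓞 K)} {s : Ga K} (h : In P s) (N : ℕ) {x : 𝓞 K} (hx : x ∈ P ^ N) :
    s • x ∈ P ^ N := by
  have e : P ≤ P.comap (MulSemiringAction.toRingHom (Ga K) (𝓞 K) s) := fun y hy => by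
    have := P.add_mem (h y) hy
    rwa [sub_add_cancel] at this
  exact ((Ideal.pow_right_mono e N).trans (Ideal.le_comap_pow _ N)) hx

theorem ne {P : Ideal (𝓞 K)} (hP : P.IsPrime) {θ : 𝓞 K} (h : Ap P θ)
    (h' : ∀ s : Ga K, ¬ In P s → s • θ - θ ∉ P) (s : Ga K) (hs : s ≠ 1) : s • θ - θ ≠ 0 := by
  intro e
  by_cases c : In P s
  · have k : ∀ x : 𝓞 K, s • x = x := fun x => by
      rw [← sub_eq_zero, ← Ideal.mem_bot, ← Ideal.iInf_pow_eq_bot_of_isDomain P hP.ne_top,
        Ideal.mem_iInf]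
      intro N
      obtain ⟨g, hg⟩ := h N x
      have e2 : s • aeval θ g = aeval θ g := by
        have := Polynomial.aeval_algHom_apply (MulSemiringAction.toAlgHom ℤ (𝓞 K) s) θ g
        rw [MulSemiringAction.toAlgHom_apply, MulSemiringAction.toAlgHom_apply,
          sub_eq_zero.1 e] at this
        exact this.symm
      have := Ideal.sub_mem _ (smul_pow c N hg) hg
      rwa [smul_sub, e2, sub_sub_sub_cancel_right] at this
    refine hs (AlgEquiv.ext fun y => ?_)
    obtain ⟨a, b, hb, rfl⟩ := IsFractionRing.div_surjective (A := 𝓞 K) y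
    have ka : s (algebraMap (𝓞 K) K a) = algebraMap (𝓞 K) K a := congrArg (algebraMap (𝓞 K) K) (k a)
    have kb : s (algebraMap (𝓞 K) K b) = algebraMap (𝓞 K) K b := congrArg (algebraMap (𝓞 K) K) (k b)
    rw [map_div₀, ka, kb, AlgEquiv.one_apply]
  · exact h' s c (e ▸ P.zero_mem)

open Classical in
theorem mem_dif [IsGalois ℚ K] {θ : 𝓞 K} (h : ∀ s : Ga K, s ≠ 1 → s • θ - θ ≠ 0) :
    ∏ s ∈ (Finset.univ : Finset (Ga K)).erase 1, (θ - s • θ) ∈ differentIdeal ℤ (𝓞 K) := by
  let v : Ga K → K := fun s => s (θ : K)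
  have inj : Function.Injective v := fun s t e => by
    by_contra c
    refine h (t⁻¹ * s) (fun k => c (inv_mul_eq_one.1 k).symm) (sub_eq_zero.2 ?_)
    apply RingOfIntegers.ext
    rw [coe_smul, AlgEquiv.mul_apply]
    exact (congrArg (t⁻¹ : Ga K) e).trans (t.symm_apply_apply _)
  have hi : IsIntegral ℚ (θ : K) := IsIntegral.of_finite ℚ _
  have dv : Lagrange.nodal Finset.univ v ∣ (minpoly ℚ (θ : K)).map (algebraMap ℚ K) := by
    refine Finset.prod_dvd_of_coprime
      (fun s _ t _ c => pairwise_coprime_X_sub_C inj c) fun s _ => ?_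
    rw [dvd_iff_isRoot, IsRoot, eval_map_algebraMap]
    exact (aeval_algHom_apply (s : K →ₐ[ℚ] K) (θ : K) _).trans (by rw [minpoly.aeval, map_zero])
  have c1 : (Lagrange.nodal Finset.univ v).natDegree = Module.finrank ℚ K := by
    rw [Lagrange.natDegree_nodal, Finset.card_univ, ← Nat.card_eq_fintype_card,
      IsGalois.card_aut_eq_finrank]
  have m1 := (minpoly.monic hi).map (algebraMap ℚ K)
  have c2 : ((minpoly ℚ (θ : K)).map (algebraMap ℚ K)).natDegree = (minpoly ℚ (θ : K)).natDegree :=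
    (minpoly.monic hi).natDegree_map _
  have c3 := minpoly.natDegree_le (A := ℚ) (θ : K)
  have e := eq_of_monic_of_dvd_of_natDegree_le Lagrange.nodal_monic m1 dv (by omega)
  have top : Algebra.adjoin ℚ {algebraMap (𝓞 K) K θ} = ⊤ := by
    have := (Field.primitive_element_iff_minpoly_natDegree_eq ℚ (θ : K)).2 (by rw [← c2, e, c1])
    rw [← IntermediateField.adjoin_simple_toSubalgebra_of_isAlgebraic hi.isAlgebraic]
    exact congrArg IntermediateField.toSubalgebra this
  have k := aeval_derivative_mem_differentIdeal ℤ ℚ K θ top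
  have e2 : aeval θ (derivative (minpoly ℤ θ)) =
      ∏ s ∈ (Finset.univ : Finset (Ga K)).erase 1, (θ - s • θ) := by
    apply RingOfIntegers.ext
    have e3 := Lagrange.eval_nodal_derivative_eval_node_eq (v := v) (Finset.mem_univ (1 : Ga K))
    rw [← e, Lagrange.eval_nodal, minpoly.isIntegrallyClosed_eq_field_fractions ℚ K θ.isIntegral,
      map_map, derivative_map, ← IsScalarTower.algebraMap_eq, eval_map_algebraMap] at e3
    rw [show ((aeval θ (derivative (minpoly ℤ θ)) : 𝓞 K) : K) =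
      aeval (algebraMap (𝓞 K) K θ) (derivative (minpoly ℤ θ)) from
        (aeval_algebraMap_apply K θ _).symm]
    refine e3.trans ?_
    rw [show ((∏ s ∈ (Finset.univ : Finset (Ga K)).erase 1, (θ - s • θ) : 𝓞 K) : K) =
      algebraMap (𝓞 K) K _ from rfl, map_prod]
    exact Finset.prod_congr rfl fun s _ => rfl
  rwa [e2] at k

theorem dfC (hV : VAL) : DF := by
  classical
  intro K _ _ _ P hP h0 θ h h'
  obtain ⟨v1, v2, -, -⟩ := hV K P hP h0
  have hn := ne hP h h'
  refine ⟨hn, ?_⟩
  have z : ∀ x, x ≠ 0 → x ∉ P → w P x = 0 := fun x a b => by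
    by_contra c
    exact b (by simpa using (v2 x 1 a).1 (Nat.one_le_iff_ne_zero.2 c))
  have pr : ∀ T : Finset (Ga K), (∀ s ∈ T, s ≠ 1) →
      w P (∏ s ∈ T, (θ - s • θ)) = ∑ s ∈ T, w P (s • θ - θ) := fun T => by
    induction T using Finset.induction_on with
    | empty => exact fun _ => z _ (by simp) (by simpa using (Ideal.ne_top_iff_one P).1 hP.ne_top)
    | insert a T ha ih =>
      intro k
      have k' : ∀ s ∈ T, s ≠ 1 := fun s hs => k s (Finset.mem_insert_of_mem hs)
      rw [Finset.prod_insert ha, Finset.sum_insert ha, v1 _ _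
        (fun e => hn a (k a (Finset.mem_insert_self _ _)) (by rw [← neg_sub, e, neg_zero]))
        (Finset.prod_ne_zero_iff.2 fun s hs e => hn s (k' s hs) (by rw [← neg_sub, e, neg_zero])),
        ih k', ← neg_sub, w, Ideal.span_singleton_neg, ← w]
  have ne0 : ∏ s ∈ (Finset.univ : Finset (Ga K)).erase 1, (θ - s • θ) ≠ 0 :=
    Finset.prod_ne_zero_iff.2 fun s hs e =>
      hn s (Finset.ne_of_mem_erase hs) (by rw [← neg_sub, e, neg_zero])
  have k := (v2 _ _ ne0).2
    (Ideal.le_of_dvd (pow_multiplicity_dvd P (differentIdeal ℤ (𝓞 K))) (mem_dif hn))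
  rw [pr _ fun s hs => Finset.ne_of_mem_erase hs] at k
  refine k.trans (le_of_eq (Finset.sum_subset (fun s hs => ?_) fun s hs c => ?_).symm)
  · exact Finset.mem_erase.2 ⟨(Finset.mem_filter.1 hs).2.2, Finset.mem_univ _⟩
  · have s1 := Finset.ne_of_mem_erase hs
    exact z _ (hn s s1) (h' s fun i => c (Finset.mem_filter.2 ⟨Finset.mem_univ _, i, s1⟩))

end Vale.Agent.P022T.H99
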