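import Vale.Agent.P022T.Res

/-!
P022T: a representation unramified at all odd primes has a residual representation with solvable
image (given the theorem for residual representations).
-/

set_option linter.all false

noncomputable section

namespace Vale.Agent.P022T

open Vale.Agent.P022

theorem exOne (hT : TATE) (E : Type) [NontriviallyNormedField E] [NormedAlgebra ℚ_[2] E]
    [FiniteDimensional ℚ_[2] E]
    (r : (AlgebraicClosure ℚ ≃ₐ[ℚ] AlgebraicClosure ℚ) →* GL (Fin 2) E) (hc : Continuous r)
    (h1 : ∀ p : ℕ, p.Prime → p ≠ 2 → St.UnrAt r p) :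
    ∃ (k : Type) (_ : Field k) (_ : CharP k 2) (_ : Finite k)
      (ρ : (AlgebraicClosure ℚ ≃ₐ[ℚ] AlgebraicClosure ℚ) →* GL (Fin 2) k),
      St.IsRes r ρ ∧ Group.IsSolvable ρ.range := by
  obtain ⟨k, _, _, _, ρ, hr, ho, hk⟩ := resC E r hc
  exact ⟨k, inferInstance, inferInstance, inferInstance, ρ, hr,
    hT k ρ ho fun p hp h2 P hP hpP g hg => hk g (h1 p hp h2 P hP hpP g hg)⟩

end Vale.Agent.P022T
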