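import Vale.Agent.P022T.Defs

/-!
# P022T, row GB: from the primes to the discriminant
-/

set_option linter.all false

open NumberField

noncomputable section

namespace Vale.Agent.P022T

/-- **row GB** -/
theorem gbC : GB := by
  intro K _ _ a b h
  have hD : differentIdeal ℤ (𝓞 K) ≠ ⊥ := differentIdeal_ne_bot
  have h2 : Ideal.span {(2 : 𝓞 K)} ≠ ⊥ := by
    rw [Ne, Ideal.span_singleton_eq_bot]
    exact two_ne_zero
  have hd : differentIdeal ℤ (𝓞 K) ^ b ∣ Ideal.span {(2 : 𝓞 K)} ^ a := by
    rw [UniqueFactorizationMonoid.dvd_iff_emultiplicity_le (pow_ne_zero b hD)]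
    intro P hP
    have k := h P (Ideal.isPrime_of_prime hP) hP.ne_zero
    rw [emultiplicity_pow hP, emultiplicity_pow hP,
      (FiniteMultiplicity.of_prime_left hP hD).emultiplicity_eq_multiplicity,
      (FiniteMultiplicity.of_prime_left hP h2).emultiplicity_eq_multiplicity]
    exact_mod_cast k
  have hn := map_dvd Ideal.absNorm hd
  have e2 : Ideal.absNorm (Ideal.span {(2 : 𝓞 K)}) = 2 ^ Module.finrank ℚ K := by
    have := Ideal.absNorm_span_natCast (S := 𝓞 K) 2
    rw [RingOfIntegers.rank] at this
    exact_mod_cast this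
  rw [map_pow, map_pow, absNorm_differentIdeal K (𝓞 K), e2, ← pow_mul] at hn
  exact Nat.le_of_dvd (by positivity) hn

end Vale.Agent.P022T
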