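import Vale.Agent.P022T.Defs

/-!
# P022T: finite subgroups of `GL₂` in characteristic two
-/

set_option linter.all false

namespace Vale.Agent.P022T

namespace Gt17

open Matrix

variable {G : Type} [Group G] {k : Type} [Field k]

theorem six [Finite G] (h : ¬ Group.IsSolvable G) : 6 ≤ Nat.card G := by
  by_contra hl
  have hl' : Nat.card G < 6 := not_le.1 hl
  have h0 : 0 < Nat.card G := Nat.card_pos
  have key : ∀ p n : ℕ, p.Prime → Nat.card G = p ^ n → False := fun p n hp e => by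
    haveI : Fact p.Prime := ⟨hp⟩
    have := (IsPGroup.of_card e).isNilpotent
    exact h inferInstance
  have : Nat.card G = 2 ^ 0 ∨ Nat.card G = 2 ^ 1 ∨ Nat.card G = 3 ^ 1 ∨ Nat.card G = 2 ^ 2 ∨
      Nat.card G = 5 ^ 1 := by omega
  rcases this with e | e | e | e | e
  · exact key 2 0 Nat.prime_two e
  · exact key 2 1 Nat.prime_two e
  · exact key 3 1 Nat.prime_three e
  · exact key 2 2 Nat.prime_two e
  · exact key 5 1 Nat.prime_five e

theorem ent (ι : G →* GL (Fin 2) k) (g h : G) (i j : Fin 2) :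
    (ι (g * h) : Matrix (Fin 2) (Fin 2) k) i j =
      (ι g : Matrix (Fin 2) (Fin 2) k) i 0 * (ι h : Matrix (Fin 2) (Fin 2) k) 0 j +
      (ι g : Matrix (Fin 2) (Fin 2) k) i 1 * (ι h : Matrix (Fin 2) (Fin 2) k) 1 j := by
  rw [map_mul, Units.val_mul, Matrix.mul_apply, Fin.sum_univ_two]

theorem ent1 (ι : G →* GL (Fin 2) k) (i j : Fin 2) :
    (ι 1 : Matrix (Fin 2) (Fin 2) k) i j = (1 : Matrix (Fin 2) (Fin 2) k) i j := by
  rw [map_one, Units.val_one]

theorem ext4 {ι : G →* GL (Fin 2) k} (hι : Function.Injective ι) {g h : G}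
    (a : (ι g : Matrix (Fin 2) (Fin 2) k) 0 0 = (ι h : Matrix (Fin 2) (Fin 2) k) 0 0)
    (b : (ι g : Matrix (Fin 2) (Fin 2) k) 0 1 = (ι h : Matrix (Fin 2) (Fin 2) k) 0 1)
    (c : (ι g : Matrix (Fin 2) (Fin 2) k) 1 0 = (ι h : Matrix (Fin 2) (Fin 2) k) 1 0)
    (d : (ι g : Matrix (Fin 2) (Fin 2) k) 1 1 = (ι h : Matrix (Fin 2) (Fin 2) k) 1 1) :
    g = h := by
  apply hι
  apply Units.ext
  rw [Matrix.eta_fin_two (ι g : Matrix (Fin 2) (Fin 2) k),
    Matrix.eta_fin_two (ι h : Matrix (Fin 2) (Fin 2) k), a, b, c, d]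

/-- triangular groups are solvable -/
theorem tri {ι : G →* GL (Fin 2) k} (hι : Function.Injective ι)
    (h : ∀ g, (ι g : Matrix (Fin 2) (Fin 2) k) 1 0 = 0) : Group.IsSolvable G := by
  let f0 : G →* k :=
    { toFun := fun g => (ι g : Matrix (Fin 2) (Fin 2) k) 0 0
      map_one' := by rw [ent1, Matrix.one_apply_eq]
      map_mul' := fun a b => by rw [ent, h b, mul_zero, add_zero] }
  let f1 : G →* k :=
    { toFun := fun g => (ι g : Matrix (Fin 2) (Fin 2) k) 1 1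
      map_one' := by rw [ent1, Matrix.one_apply_eq]
      map_mul' := fun a b => by rw [ent, h a, zero_mul, zero_add] }
  let φ : G →* kˣ × kˣ := f0.toHomUnits.prod f1.toHomUnits
  have hk : ∀ g ∈ φ.ker, (ι g : Matrix (Fin 2) (Fin 2) k) 0 0 = 1 ∧
      (ι g : Matrix (Fin 2) (Fin 2) k) 1 1 = 1 := fun g hg => by
    have e : φ g = 1 := hg
    exact ⟨congrArg (fun u : kˣ × kˣ => (u.1 : k)) e, congrArg (fun u : kˣ × kˣ => (u.2 : k)) e⟩
  haveI : Group.IsSolvable φ.ker := by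
    refine Group.isSolvable_of_comm fun a b => Subtype.ext ?_
    obtain ⟨a0, a1⟩ := hk a a.2
    obtain ⟨b0, b1⟩ := hk b b.2
    refine ext4 hι ?_ ?_ ?_ ?_ <;>
      simp only [Subgroup.coe_mul, ent, a0, a1, b0, b1, h] <;> ring
  exact Group.isSolvable_of_ker_le_range φ.ker.subtype φ (by rw [Subgroup.range_subtype])

theorem sq1 [CharP k 2] {x : k} (h : x * x = 1) : x = 1 := by
  have h2 : (2 : k) = 0 := CharP.cast_eq_zero k 2
  have : (x - 1) * (x - 1) = 0 := by linear_combination h + (1 - x) * h2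
  exact sub_eq_zero.1 (mul_self_eq_zero.1 this)

/-- the count, when one involution of `S` is triangular -/
theorem cnt [Finite G] [CharP k 2] {ι : G →* GL (Fin 2) k} (hι : Function.Injective ι)
    (hG : ¬ Group.IsSolvable G) (S : Subgroup G) (hS : ∀ s ∈ S, s * s = 1) {s0 : G}
    (h0 : s0 ∈ S) (h1 : s0 ≠ 1) (h2 : (ι s0 : Matrix (Fin 2) (Fin 2) k) 1 0 = 0) :
    Nat.card S * (Nat.card S + 1) ≤ Nat.card G := by
  have dg : ∀ s ∈ S, (ι s : Matrix (Fin 2) (Fin 2) k) 1 0 = 0 →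
      (ι s : Matrix (Fin 2) (Fin 2) k) 0 0 = 1 ∧ (ι s : Matrix (Fin 2) (Fin 2) k) 1 1 = 1 :=
    fun s hs c => by
      have e0 := ent ι s s 0 0
      have e1 := ent ι s s 1 1
      rw [hS s hs, ent1, Matrix.one_apply_eq, c] at e0 e1
      exact ⟨sq1 (by linear_combination -e0), sq1 (by linear_combination -e1)⟩
  obtain ⟨a0, d0⟩ := dg s0 h0 h2
  have b0 : (ι s0 : Matrix (Fin 2) (Fin 2) k) 0 1 ≠ 0 := fun b => h1 (ext4 hι
    (by rw [a0, ent1, Matrix.one_apply_eq]) (by rw [b, ent1, Matrix.one_apply_ne (by decide)])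
    (by rw [h2, ent1, Matrix.one_apply_ne (by decide)]) (by rw [d0, ent1, Matrix.one_apply_eq]))
  have lo : ∀ s ∈ S, (ι s : Matrix (Fin 2) (Fin 2) k) 1 0 = 0 := fun s hs => by
    have c : s * s0 = s0 * s := by
      have e := hS _ (S.mul_mem hs h0)
      calc s * s0 = s * (s * s0 * (s * s0)) * s0 := by rw [e, mul_one]
        _ = (s * s) * s0 * s * (s0 * s0) := by simp only [mul_assoc]
        _ = s0 * s := by rw [hS s hs, hS s0 h0, one_mul, mul_one]
    have e := ent ι s s0 0 0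
    rw [c, ent, a0, h2] at e
    exact (mul_eq_zero.1 (by linear_combination e :
      (ι s0 : Matrix (Fin 2) (Fin 2) k) 0 1 * (ι s : Matrix (Fin 2) (Fin 2) k) 1 0 = 0)).resolve_left b0
  obtain ⟨g, hg⟩ : ∃ g, (ι g : Matrix (Fin 2) (Fin 2) k) 1 0 ≠ 0 := by
    by_contra c
    exact hG (tri hι fun g => not_not.1 fun e => c ⟨g, e⟩)
  let F : S × Option S → G := fun p => p.2.elim (p.1 : G) fun t => (t : G) * g * p.1
  have ns : ∀ s t u : S, (t : G) * g * s ≠ u := fun s t u e => by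
    have : g = (t : G)⁻¹ * u * (s : G)⁻¹ := by rw [← e]; group
    exact hg (lo g (this ▸ S.mul_mem (S.mul_mem (S.inv_mem t.2) u.2) (S.inv_mem s.2)))
  have hF : Function.Injective F := by
    rintro ⟨s, _ | t⟩ ⟨s', _ | t'⟩ e
    · have e' : (s : G) = s' := e
      rw [Subtype.ext e']
    · exact absurd (Eq.symm e) (ns _ _ _)
    · exact absurd e (ns _ _ _)
    · have e' : (t : G) * g * s = (t' : G) * g * s' := e
      have m := fun (t s : S) (i : Fin 2) => ent ι ((t : G) * g) s i 0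
      have v : ∀ t s : S, (ι ((t : G) * g * s) : Matrix (Fin 2) (Fin 2) k) 0 0 =
          (ι g : Matrix (Fin 2) (Fin 2) k) 0 0 +
            (ι t : Matrix (Fin 2) (Fin 2) k) 0 1 * (ι g : Matrix (Fin 2) (Fin 2) k) 1 0 :=
        fun t s => by
          rw [ent, ent, lo s s.2, (dg s s.2 (lo s s.2)).1, (dg t t.2 (lo t t.2)).1]; ring
      have w := v t s
      rw [e', v] at w
      have bt : (ι t : Matrix (Fin 2) (Fin 2) k) 0 1 = (ι t' : Matrix (Fin 2) (Fin 2) k) 0 1 :=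
        mul_right_cancel₀ hg (by linear_combination -w)
      have et : (t : G) = t' := ext4 hι
        (by rw [(dg t t.2 (lo t t.2)).1, (dg t' t'.2 (lo t' t'.2)).1]) bt
        (by rw [lo t t.2, lo t' t'.2])
        (by rw [(dg t t.2 (lo t t.2)).2, (dg t' t'.2 (lo t' t'.2)).2])
      rw [et] at e'
      rw [Subtype.ext et, Subtype.ext (mul_left_cancel e')]
  have := Nat.card_le_card_of_injective F hF
  rwa [Nat.card_prod, Finite.card_option] at this

end Gt17

open Gt17 in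
theorem gtC : GT := by
  intro G _ _ k _ _ ι hι hG
  refine ⟨six hG, fun S hS => ?_⟩
  by_cases hb : S = ⊥
  · have := six hG
    rw [hb, Subgroup.card_bot]
    omega
  obtain ⟨⟨s0, h0⟩, h1⟩ := (Subgroup.ne_bot_iff_exists_ne_one).1 hb
  have h1' : s0 ≠ 1 := fun e => h1 (Subtype.ext e)
  by_cases h2 : (ι s0 : Matrix (Fin 2) (Fin 2) k) 1 0 = 0
  · exact cnt hι hG S hS h0 h1' h2
  have t2 : (2 : k) = 0 := CharP.cast_eq_zero k 2
  set A : Matrix (Fin 2) (Fin 2) k := (ι s0 : Matrix (Fin 2) (Fin 2) k) with hA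
  have e0 := ent ι s0 s0 0 0
  have e1 := ent ι s0 s0 1 0
  rw [hS s0 h0, ent1, ← hA] at e0 e1
  rw [Matrix.one_apply_eq] at e0
  rw [Matrix.one_apply_ne (by decide)] at e1
  let P : GL (Fin 2) k := Matrix.GeneralLinearGroup.mkOfDetNeZero !![A 0 0 + 1, 1; A 1 0, 0]
    (by rw [Matrix.det_fin_two_of]; simpa using h2)
  let B : GL (Fin 2) k := Matrix.GeneralLinearGroup.mkOfDetNeZero !![1, 1; 0, 1]
    (by rw [Matrix.det_fin_two_of]; simp)
  have hP : (P : Matrix (Fin 2) (Fin 2) k) = !![A 0 0 + 1, 1; A 1 0, 0] := rfl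
  have hB : (B : Matrix (Fin 2) (Fin 2) k) = !![1, 1; 0, 1] := rfl
  have hm : ι s0 * P = P * B := by
    apply Units.ext
    rw [Units.val_mul, Units.val_mul, hP, hB, ← hA, Matrix.eta_fin_two A, Matrix.mul_fin_two,
      Matrix.mul_fin_two]
    simp only [Matrix.of_apply, Matrix.cons_val', Matrix.cons_val_zero, Matrix.cons_val_one,
      Matrix.cons_val_fin_one]
    have q0 : A 0 0 * (A 0 0 + 1) + A 0 1 * A 1 0 = (A 0 0 + 1) * 1 + 1 * 0 := by
      linear_combination -e0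
    have q1 : A 0 0 * 1 + A 0 1 * 0 = (A 0 0 + 1) * 1 + 1 * 1 := by linear_combination -t2
    have q2 : A 1 0 * (A 0 0 + 1) + A 1 1 * A 1 0 = A 1 0 * 1 + 0 * 0 := by
      linear_combination -e1
    have q3 : A 1 0 * 1 + A 1 1 * 0 = A 1 0 * 1 + 0 * 1 := by ring
    rw [q0, q1, q2, q3]
  let ι' : G →* GL (Fin 2) k := (MulAut.conj P⁻¹).toMonoidHom.comp ι
  have hι' : Function.Injective ι' := (MulAut.conj P⁻¹).injective.comp hι
  have e : ι' s0 = B := by
    show P⁻¹ * ι s0 * P⁻¹⁻¹ = B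
    rw [inv_inv, mul_assoc, hm, inv_mul_cancel_left]
  exact cnt hι' hG S hS h0 h1' (by rw [e, hB]; rfl)

end Vale.Agent.P022T
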