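import Vale.Agent.P022T.Defs
import Vale.Agent.P022.H916.Fld

/-!
# P022T: from finite extensions to the absolute Galois group
-/

set_option linter.all false

open NumberField

noncomputable section

namespace Vale.Agent.P022T

open Vale.Agent.P022 Vale.Agent.P022.H916

/-- a non-zero prime contains a rational prime -/
lemma inf_ex_prime {L : Type} [Field L] [NumberField L] (P : Ideal (𝓞 L)) (hP : P.IsPrime)
    (h0 : P ≠ ⊥) : ∃ p : ℕ, p.Prime ∧ (p : 𝓞 L) ∈ P := by
  have hN : Ideal.absNorm P ≠ 0 := by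
    rw [Ne, Ideal.absNorm_eq_zero_iff]
    exact h0
  have hm : ((Ideal.absNorm P : ℕ) : 𝓞 L) ∈ P := Ideal.absNorm_mem P
  generalize Ideal.absNorm P = n at hN hm
  induction n using Nat.recOnMul with
  | zero => exact absurd rfl hN
  | one =>
    exfalso
    exact hP.ne_top ((Ideal.eq_top_iff_one _).2 (by simpa using hm))
  | prime p hp => exact ⟨p, hp, hm⟩
  | mul a b iha ihb =>
    rw [Nat.cast_mul] at hm
    rcases hP.mem_or_mem hm with h | h
    · exact iha (left_ne_zero_of_mul hN) h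
    · exact ihb (right_ne_zero_of_mul hN) h

theorem infC (h : T0) : TATE := by
  intro k _ _ ρ hop hun
  let j : ℚ →+* Qb := algebraMap ℚ Qb
  have hall : ∀ g : GQ, g ∈ GK j := fun g x => g.commutes x
  obtain ⟨L, _, _, inst, hG, jL, σ, D, -, hker⟩ :=
    exists_fld j ρ.ker hop (fun g _ => hall g)
      (fun g _ u hu => (MonoidHom.normal_ker ρ).conj_mem u hu g)
  obtain rfl : inst = DivisionRing.toRatAlgebra := Subsingleton.elim _ _
  let τ : GK j →* GL (Fin 2) k := ρ.comp (GK j).subtype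
  have hle : σ.ker ≤ τ.ker := fun g hg => (hker g).1 hg
  let ι : Ga L →* GL (Fin 2) k := σ.liftOfSurjective D.surj ⟨τ, hle⟩
  have hι : ∀ g : GK j, ι (σ g) = ρ g := fun g =>
    MonoidHom.liftOfRightInverse_comp_apply σ _ _ ⟨τ, hle⟩ g
  have hinj : Function.Injective ι := by
    rw [injective_iff_map_eq_one]
    intro s hs
    obtain ⟨g, rfl⟩ := D.surj s
    rw [hι] at hs
    exact (hker g).2 hs
  have hs : Group.IsSolvable (Ga L) := by
    refine h L k ι hinj ?_
    intro P hP h0 h2 s hs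
    obtain ⟨p, hp, hpP⟩ := inf_ex_prime P hP h0
    have hp2 : p ≠ 2 := by
      rintro rfl
      exact h2 (by simpa using hpP)
    obtain ⟨Q, hQ, rfl⟩ := exists_above jL P hP
    have hpQ : (p : 𝓞 Qb) ∈ Q := by
      have h1 : RingOfIntegers.mapRingHom jL (p : 𝓞 L) ∈ Q := hpP
      rwa [map_natCast] at h1
    refine D.inertia_eq_bot hQ (fun g hg => (hker g).2 ?_) hs
    exact hun p hp hp2 Q hQ hpQ g hg
  have hr : ρ.range = ι.range := by
    ext x
    constructor
    · rintro ⟨g, rfl⟩
      exact ⟨σ ⟨g, hall g⟩, hι _⟩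
    · rintro ⟨s, rfl⟩
      obtain ⟨g, rfl⟩ := D.surj s
      exact ⟨g, (hι g).symm⟩
  rw [hr]
  exact solvable_of_surjective ι.rangeRestrict_surjective

end Vale.Agent.P022T
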