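import Vale.Agent.P022T.Defs

/-!
# P022T: the bound of Minkowski
-/

set_option linter.all false

open NumberField Real

noncomputable section

namespace Vale.Agent.P022T

namespace Mk

theorem fac {n : ℕ} (hn : 0 < n) :
    ((n.factorial : ℝ)) ^ 2 * (exp 1 ^ 2) ^ n ≤ 8 * n * (n : ℝ) ^ (2 * n) := by
  obtain ⟨m, rfl⟩ : ∃ m, n = m + 1 := ⟨n - 1, by omega⟩
  have h : Stirling.stirlingSeq (m + 1) ≤ Stirling.stirlingSeq 1 :=
    Stirling.stirlingSeq'_antitone (Nat.zero_le m)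
  rw [Stirling.stirlingSeq_one, Stirling.stirlingSeq] at h
  generalize m + 1 = n at h hn
  have n0 : (0 : ℝ) < n := by exact_mod_cast hn
  have e0 := exp_pos 1
  rw [div_le_iff₀ (by positivity)] at h
  have h2 := pow_le_pow_left₀ (by positivity) h 2
  rw [mul_pow, mul_pow, div_pow, sq_sqrt (by positivity), sq_sqrt (by positivity), ← pow_mul,
    div_pow] at h2
  have e8 : exp 1 ^ 2 ≤ (8 : ℝ) := by
    have := exp_one_lt_d9
    nlinarith
  have h3 : exp 1 ^ 2 / 2 * (2 * (n : ℝ) * ((n : ℝ) ^ (n * 2) / exp 1 ^ (n * 2))) *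
      (exp 1 ^ 2) ^ n = exp 1 ^ 2 * (n * (n : ℝ) ^ (2 * n)) := by
    rw [← pow_mul, mul_comm 2 n]
    field_simp
  calc _ ≤ _ := mul_le_mul_of_nonneg_right h2 (by positivity)
    _ = _ := h3
    _ ≤ 8 * (n * (n : ℝ) ^ (2 * n)) := mul_le_mul_of_nonneg_right e8 (by positivity)
    _ = _ := by ring

theorem num : (32 : ℝ) * (4 / π) ^ 2 ≤ (exp 1 ^ 2) ^ 2 := by
  have h1 := exp_one_gt_d9
  have h2 := pi_gt_d2
  have h3 : (7.29 : ℝ) ≤ exp 1 ^ 2 := by nlinarith
  have h4 : 4 / π ≤ (1.28 : ℝ) := by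
    rw [div_le_iff₀ pi_pos]
    nlinarith
  have h5 : (4 / π) ^ 2 ≤ (1.28 : ℝ) ^ 2 := pow_le_pow_left₀ (by positivity) h4 2
  have h6 : (7.29 : ℝ) ^ 2 ≤ (exp 1 ^ 2) ^ 2 := pow_le_pow_left₀ (by norm_num) h3 2
  nlinarith

theorem low (K : Type) [Field K] [NumberField K] :
    32 ^ Module.finrank ℚ K ≤ ((discr K).natAbs * (8 * Module.finrank ℚ K)) ^ 2 := by
  have h := abs_discr_ge' K
  have hr : 2 * InfinitePlace.nrComplexPlaces K ≤ Module.finrank ℚ K := by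
    have := InfinitePlace.card_add_two_mul_card_eq_rank K
    omega
  have hn : 0 < Module.finrank ℚ K := Module.finrank_pos
  have f := fac hn
  generalize Module.finrank ℚ K = n at h hr hn f
  have n0 : (0 : ℝ) < n := by exact_mod_cast hn
  have p0 := pi_pos
  have e0 := exp_pos 1
  have f0 : (0 : ℝ) < n.factorial := by exact_mod_cast n.factorial_pos
  have p1 : (1 : ℝ) ≤ 4 / π := by
    rw [le_div_iff₀ p0]
    linarith [pi_le_four]
  have eD : ((|discr K| : ℤ) : ℝ) = ((discr K).natAbs : ℝ) := by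
    rw [← Int.natCast_natAbs, Int.cast_natCast]
  rw [eD, div_le_iff₀ (by positivity)] at h
  generalize (discr K).natAbs = d at h
  have h1 : (n : ℝ) ^ (2 * n) ≤ d * ((4 / π) ^ n * (n.factorial : ℝ) ^ 2) :=
    h.trans (mul_le_mul_of_nonneg_left (mul_le_mul_of_nonneg_right
      (pow_le_pow_right₀ p1 hr) (by positivity)) (by positivity))
  have h2 : (exp 1 ^ 2) ^ n ≤ (d * (8 * n) : ℝ) * (4 / π) ^ n := by
    refine le_of_mul_le_mul_left (a := (n.factorial : ℝ) ^ 2) ?_ (by positivity)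
    calc _ ≤ _ := f
      _ ≤ 8 * n * (d * ((4 / π) ^ n * (n.factorial : ℝ) ^ 2)) :=
        mul_le_mul_of_nonneg_left h1 (by positivity)
      _ = _ := by ring
  have h3 := pow_le_pow_left₀ (by positivity) h2 2
  have h4 := pow_le_pow_left₀ (by positivity) num n
  rw [← pow_mul, mul_comm n 2, pow_mul, mul_pow] at h3
  rw [mul_pow, ← pow_mul (4 / π), mul_comm 2 n, pow_mul] at h4
  have h5 := le_of_mul_le_mul_right (h4.trans h3) (by positivity)
  exact_mod_cast h5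

theorem pw (m : ℕ) : 8 * ((m + 2) * (m + 4)) ≤ 4 ^ (m + 3) := by
  induction m with
  | zero => norm_num
  | succ m ih =>
    rw [show m + 1 + 3 = m + 3 + 1 by ring, pow_succ]
    nlinarith

theorem nat {t n : ℕ} (ht : 2 ≤ t) (h : t * (t + 1) ≤ n) : (8 * n) ^ t < 4 ^ n := by
  have t0 : 0 < t := by omega
  have h1 : t + 1 ≤ n / t := (Nat.le_div_iff_mul_le t0).2 (by rw [mul_comm]; exact h)
  have h2 : n < t * (n / t + 1) := Nat.lt_mul_div_succ n t0
  have h3 : n / t * t ≤ n := Nat.div_mul_le_self n t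
  obtain ⟨m, hm⟩ : ∃ m, n / t = m + 3 := ⟨n / t - 3, by omega⟩
  rw [hm] at h1 h2 h3
  have h4 : 8 * n < 4 ^ (m + 3) := by
    refine lt_of_lt_of_le ?_ (pw m)
    have : t * (m + 3 + 1) ≤ (m + 2) * (m + 4) := Nat.mul_le_mul_right _ (by omega)
    omega
  calc _ < (4 ^ (m + 3)) ^ t := Nat.pow_lt_pow_left h4 t0.ne'
    _ = 4 ^ ((m + 3) * t) := (pow_mul _ _ _).symm
    _ ≤ _ := Nat.pow_le_pow_right (by norm_num) h3

end Mk

/-- **row MK** -/
theorem mkC : MK := by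
  intro K _ _ t ht h1 _
  have l := Mk.low K
  have k := Mk.nat ht h1
  have d0 : 0 < (discr K).natAbs := Int.natAbs_pos.2 (discr_ne_zero K)
  generalize Module.finrank ℚ K = n at l k
  generalize (discr K).natAbs = d at l d0
  have a : 2 ^ (n * (5 * t - 4)) * (4 ^ n) ^ 2 = (32 ^ n) ^ t := by
    rw [show (4 : ℕ) = 2 ^ 2 from rfl, show (32 : ℕ) = 2 ^ 5 from rfl]
    simp only [← pow_mul, ← pow_add]
    congr 1
    obtain ⟨s, rfl⟩ : ∃ s, t = s + 1 := ⟨t - 1, by omega⟩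
    rw [show 5 * (s + 1) - 2 ^ 2 = 5 * s + 1 by omega]
    ring
  refine lt_of_mul_lt_mul_right (a := (4 ^ n) ^ 2) ?_ (Nat.zero_le _)
  rw [a]
  calc _ ≤ ((d * (8 * n)) ^ 2) ^ t := Nat.pow_le_pow_left l t
    _ = d ^ (2 * t) * ((8 * n) ^ t) ^ 2 := by
      rw [← pow_mul, mul_pow, ← pow_mul, mul_comm t 2]
    _ < _ := Nat.mul_lt_mul_of_pos_left (Nat.pow_lt_pow_left k two_ne_zero) (Nat.pow_pos d0)

end Vale.Agent.P022T
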