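import Vale.Agent.P022T.Defs

/-!
# P022T: the theorem for a finite extension from the rows
-/

set_option linter.all false

open NumberField

noncomputable section

namespace Vale.Agent.P022T.H45

theorem ex_t (n : ℕ) (h : 6 ≤ n) : ∃ t, 2 ≤ t ∧ t * (t + 1) ≤ n ∧ n < (t + 1) * (t + 2) := by
  induction n, h using Nat.le_induction with
  | base => exact ⟨2, le_rfl, by norm_num, by norm_num⟩
  | succ n _ ih =>
    obtain ⟨t, h1, h2, h3⟩ := ih
    by_cases c : n + 1 < (t + 1) * (t + 2)
    · exact ⟨t, h1, by omega, c⟩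
    · refine ⟨t + 1, by omega, by
        have : (t + 1) * (t + 1 + 1) = (t + 1) * (t + 2) := rfl
        omega, ?_⟩
      have : (t + 1 + 1) * (t + 1 + 2) = (t + 1) * (t + 2) + 2 * (t + 2) := by ring
      omega

/-- the inertia group -/
def IG {K : Type} [Field K] [NumberField K] (P : Ideal (𝓞 K)) : Subgroup (Ga K) :=
  P.toAddSubgroup.inertia (Ga K)

theorem mem_IG {K : Type} [Field K] [NumberField K] {P : Ideal (𝓞 K)} {s : Ga K} :
    s ∈ IG P ↔ In P s := Iff.rfl

theorem card_IG {K : Type} [Field K] [NumberField K] (P : Ideal (𝓞 K)) :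
    Nat.card (IG P) = (I1 P).card + 1 := by
  classical
  have e : I1 P = (Finset.univ.filter fun s => s ∈ IG P).erase 1 := by
    ext s
    simp only [I1, Finset.mem_filter, Finset.mem_univ, true_and, Finset.mem_erase, mem_IG]
    exact and_comm
  rw [e, Finset.card_erase_add_one (by simp), Nat.card_eq_fintype_card, Fintype.card_subtype]

theorem t0C (hTH : TH) (hDF : DF) (hWL : WL) (hTM : TM) (hCE : CE) (hGT : GT) (hMK : MK)
    (hGB : GB) : T0 := by
  intro K _ _ _ k _ _ ι hι hu
  by_contra hs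
  obtain ⟨h6, hS⟩ := hGT (Ga K) k ι hι hs
  have hn : Nat.card (Ga K) = Module.finrank ℚ K := IsGalois.card_aut_eq_finrank ℚ K
  rw [hn] at h6 hS
  obtain ⟨t, t1, t2, t3⟩ := ex_t _ h6
  refine absurd (hGB K (5 * t - 4) (2 * t) fun P hP h0 => ?_) (not_le.2 (hMK K t t1 t2 t3))
  obtain ⟨θ, a1, a2⟩ := hTH K P hP h0
  obtain ⟨b1, b2⟩ := hDF K P hP h0 θ a1 a2
  refine (Nat.mul_le_mul_left _ b2).trans ?_
  by_cases h2 : (2 : 𝓞 K) ∈ P
  · rcases hTM K P hP h0 h2 k ι hι θ a1 b1 with c | c
    · have w1 := hWL K P hP h0 h2 θ a1 b1 c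
      have w2 := hS (IG P) fun s hs => c s hs
      rw [card_IG] at w2
      set e := (I1 P).card
      set D := ∑ s ∈ I1 P, w P (s • θ - θ)
      set v := w P 2
      have he : e + 1 ≤ t := by
        by_contra c
        have : (t + 1) * (t + 2) ≤ (e + 1) * (e + 1 + 1) := Nat.mul_le_mul (by omega) (by omega)
        omega
      obtain ⟨u, rfl⟩ := Nat.exists_eq_add_of_le he
      rw [show 5 * (e + 1 + u) - 4 = 5 * e + 1 + 5 * u by omega]
      have w3 : 2 * D ≤ 5 * v := by
        refine Nat.le_of_mul_le_mul_left (c := e + 1) ?_ (Nat.succ_pos e)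
        nlinarith
      nlinarith [Nat.mul_le_mul_left u w3]
    · have w1 : ∑ s ∈ I1 P, w P (s • θ - θ) ≤ w P 2 :=
        le_trans (by simpa using Finset.sum_le_card_nsmul _ _ 1 c) (hCE K P hP h0 h2)
      exact Nat.mul_le_mul (by omega) w1
  · have e : I1 P = ∅ := by
      classical
      exact Finset.filter_eq_empty_iff.2 fun s _ c => c.2 (hu P hP h0 h2 s c.1)
    simp [e]

end Vale.Agent.P022T.H45
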