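import Vale.Agent.P022T.Defs

/-!
# P022T: a good generator at a prime
-/

set_option linter.all false

open NumberField Polynomial

noncomputable section

namespace Vale.Agent.P022T.H2

theorem pw {A : Type} [CommRing A] {P : Ideal A} {q : ℕ} (hq : (q : A) ∈ P) {a b : A}
    (h : a - b ∈ P) : a ^ q - b ^ q ∈ P ^ 2 := by
  rw [← geom_sum₂_mul, pow_two]
  refine Ideal.mul_mem_mul (Ideal.Quotient.eq_zero_iff_mem.1 ?_) h
  have e : Ideal.Quotient.mk P a = Ideal.Quotient.mk P b := Ideal.Quotient.eq.2 h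
  simp only [map_sum, map_mul, map_pow, e]
  rw [geom_sum₂_self, ← map_natCast (Ideal.Quotient.mk P), Ideal.Quotient.eq_zero_iff_mem.2 hq,
    zero_mul]

theorem step {A : Type} [CommRing A] {P : Ideal A} {π : A} (h0 : π ∈ P)
    (h : P ≤ Ideal.span {π} ⊔ P ^ 2) (N : ℕ) : P ^ N ≤ Ideal.span {π ^ N} ⊔ P ^ (N + 1) := by
  induction N with
  | zero => simp
  | succ N ih =>
    have e : Ideal.span {π ^ N} ≤ P ^ N :=
      (Ideal.span_singleton_le_iff_mem _).2 (Ideal.pow_mem_pow h0 N)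
    calc P ^ (N + 1) = P ^ N * P := pow_succ _ _
      _ ≤ (Ideal.span {π ^ N} ⊔ P ^ (N + 1)) * P := Ideal.mul_mono_left ih
      _ = Ideal.span {π ^ N} * P ⊔ P ^ (N + 1 + 1) := by rw [Ideal.sup_mul, ← pow_succ]
      _ ≤ _ := sup_le ((Ideal.mul_mono_right h).trans (by
        rw [Ideal.mul_sup, Ideal.span_singleton_mul_span_singleton, ← pow_succ]
        exact sup_le_sup_left ((Ideal.mul_mono_left e).trans (pow_add P N 2).ge) _)) le_sup_right

theorem thC : TH := by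
  intro K _ _ _ P hP h0
  classical
  haveI := hP
  haveI hM : P.IsMaximal := hP.isMaximal h0
  letI : Field (𝓞 K ⧸ P) := Ideal.Quotient.field P
  haveI : Finite (𝓞 K ⧸ P) := Ideal.finiteQuotientOfFreeOfNeBot P h0
  letI := Fintype.ofFinite (𝓞 K ⧸ P)
  obtain ⟨q, hq⟩ : ∃ q, q = Fintype.card (𝓞 K ⧸ P) := ⟨_, rfl⟩
  have q2 : 1 < q := hq ▸ Fintype.one_lt_card
  have qP : (q : 𝓞 K) ∈ P := Ideal.Quotient.eq_zero_iff_mem.1 (by
    rw [map_natCast, hq]
    exact FiniteField.cast_card_eq_zero _)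
  have fr : ∀ x : 𝓞 K, x ^ q - x ∈ P := fun x => Ideal.Quotient.eq.1 (by
    rw [map_pow, hq]
    exact FiniteField.pow_card _)
  obtain ⟨g, hg⟩ := IsCyclic.exists_monoid_generator (α := (𝓞 K ⧸ P)ˣ)
  obtain ⟨θ0, h1⟩ := Ideal.Quotient.mk_surjective (g : 𝓞 K ⧸ P)
  obtain ⟨π0, p1, p2⟩ := Ideal.exists_mem_pow_notMem_pow_succ P h0 hP.ne_top 1
  rw [pow_one] at p1
  let Q : Ga K → Ideal (𝓞 K) := fun s => P.comap (MulSemiringAction.toRingHom (Ga K) (𝓞 K) s)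
  have mQ : ∀ s x, x ∈ Q s ↔ s • x ∈ P := fun _ _ => Iff.rfl
  have ex : ∀ s : Ga K, ∃ v, v ∉ P ∧ (Q s ≠ P → v ∈ Q s) := fun s => by
    by_cases c : Q s ≤ P
    · refine ⟨1, (Ideal.ne_top_iff_one P).1 hP.ne_top, fun h => absurd ?_ h⟩
      exact (Ideal.comap_isMaximal_of_surjective _ fun y => ⟨s⁻¹ • y, smul_inv_smul s y⟩).eq_of_le
        hP.ne_top c
    · obtain ⟨v, a, b⟩ := Set.not_subset.1 c
      exact ⟨v, b, fun _ => a⟩
  choose v v1 v2 using ex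
  have V0 : ∏ s, v s ∉ P := fun h => by
    obtain ⟨s, -, hs⟩ := Ideal.IsPrime.prod_mem_iff.1 h
    exact v1 s hs
  have V1 : (∏ s, v s) ^ (q - 1) - 1 ∈ P := Ideal.Quotient.eq.1 (by
    rw [map_pow, map_one, hq]
    exact FiniteField.pow_card_sub_one_eq_one _ fun e => V0 (Ideal.Quotient.eq_zero_iff_mem.1 e))
  have V2 := pw qP V1
  rw [one_pow] at V2
  have le2 : P ^ 2 ≤ P := Ideal.pow_le_self two_ne_zero
  obtain ⟨θ, t1, t2⟩ : ∃ θ : 𝓞 K, θ - (θ0 ^ q + π0) ∈ P ^ 2 ∧ ∀ s, Q s ≠ P → θ ∈ Q s :=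
    ⟨(θ0 ^ q + π0) * ((∏ s, v s) ^ (q - 1)) ^ q, by
      rw [← mul_sub_one]
      exact Ideal.mul_mem_left _ _ V2, fun s hs => Ideal.mul_mem_left _ _
        (Ideal.pow_mem_of_mem _ (Ideal.pow_mem_of_mem _ (Ideal.mem_of_dvd _
          (Finset.dvd_prod_of_mem v (Finset.mem_univ s)) (v2 s hs)) _ (by omega)) _ (by omega))⟩
  have t3 : θ - θ0 ∈ P := by
    have := P.add_mem (P.add_mem (le2 t1) (fr θ0)) p1
    rwa [show θ - (θ0 ^ q + π0) + (θ0 ^ q - θ0) + π0 = θ - θ0 by ring] at this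
  have t4 : Ideal.Quotient.mk P θ = g := (Ideal.Quotient.eq.2 t3).trans h1
  have t5 : θ ∉ P := fun h => g.ne_zero (t4 ▸ Ideal.Quotient.eq_zero_iff_mem.2 h)
  have t6 : θ ^ q - θ ∉ P ^ 2 := fun h => p2 (by
    have := (P ^ 2).sub_mem ((P ^ 2).sub_mem (pw qP t3) t1) h
    rwa [show θ ^ q - θ0 ^ q - (θ - (θ0 ^ q + π0)) - (θ ^ q - θ) = π0 by ring] at this)
  have gen : ∀ x, x ∉ P → ∃ j : ℕ, x - θ ^ j ∈ P := fun x hx => by
    obtain ⟨j, hj⟩ := hg (Units.mk0 _ fun e => hx (Ideal.Quotient.eq_zero_iff_mem.1 e))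
    refine ⟨j, Ideal.Quotient.eq.1 ?_⟩
    rw [map_pow, t4]
    exact (congrArg Units.val hj).symm
  have a1 : ∀ x, ∃ f : ℤ[X], x - aeval θ f ∈ P := fun x => by
    by_cases c : x ∈ P
    · exact ⟨0, by rwa [map_zero, sub_zero]⟩
    · obtain ⟨j, hj⟩ := gen x c
      exact ⟨X ^ j, by rwa [map_pow, aeval_X]⟩
  have un : P ≤ Ideal.span {θ ^ q - θ} ⊔ P ^ 2 := by
    have := Ideal.eq_prime_pow_of_succ_lt_of_le (P := P) (I := Ideal.span {θ ^ q - θ} ⊔ P ^ 2)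
      h0 (i := 1) (lt_of_le_of_ne le_sup_right fun e => t6
        (e ▸ Ideal.mem_sup_left (Ideal.mem_span_singleton_self _)))
      (by
        rw [pow_one]
        exact sup_le ((Ideal.span_singleton_le_iff_mem _).2 (fr θ)) le2)
    rw [this, pow_one]
  refine ⟨θ, fun N => ?_, fun s hs h => hs fun x => ?_⟩
  · induction N with
    | zero => exact fun x => ⟨0, by simp⟩
    | succ N ih =>
      intro x
      obtain ⟨f, hf⟩ := ih x
      obtain ⟨y, hy, z, hz, e⟩ := Submodule.mem_sup.1 (step (fr θ) un N hf)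
      obtain ⟨c, rfl⟩ := Ideal.mem_span_singleton'.1 hy
      obtain ⟨f', hf'⟩ := a1 c
      refine ⟨f + f' * (X ^ q - X) ^ N, ?_⟩
      have := (P ^ (N + 1)).add_mem hz (by
        rw [pow_succ']
        exact Ideal.mul_mem_mul hf' (Ideal.pow_mem_pow (fr θ) N))
      simp only [map_add, map_mul, map_pow, map_sub, aeval_X]
      rwa [show x - (aeval θ f + aeval θ f' * (θ ^ q - θ) ^ N) =
        z + (c - aeval θ f') * (θ ^ q - θ) ^ N by linear_combination -e]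
  · have e : Q s = P := by
      by_contra c
      have := P.sub_mem ((mQ s θ).1 (t2 s c)) h
      rw [sub_sub_cancel] at this
      exact t5 this
    have st : ∀ y ∈ P, s • y ∈ P := fun y hy => (mQ s y).1 (e ▸ hy)
    by_cases c : x ∈ P
    · exact P.sub_mem (st x c) c
    · obtain ⟨j, hj⟩ := gen x c
      have := P.sub_mem (P.add_mem (st _ hj)
        (Ideal.mem_of_dvd _ (sub_dvd_pow_sub_pow (s • θ) θ j) h)) hj
      rwa [smul_sub, smul_pow', show s • x - (s • θ) ^ j + ((s • θ) ^ j - θ ^ j) - (x - θ ^ j) =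
        s • x - x by ring] at this

end Vale.Agent.P022T.H2
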