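import Vale.Agent.P022T.Defs

/-!
# P022T, row TM: tame or wild
-/

set_option linter.all false

open NumberField Polynomial Matrix

noncomputable section

namespace Vale.Agent.P022T.H65

section mat
variable {k : Type} [Field k]

theorem line {N : Matrix (Fin 2) (Fin 2) k} (hN : N ≠ 0) {v u : Fin 2 → k} (hv : v ≠ 0)
    (h1 : N *ᵥ v = 0) (h2 : N *ᵥ u = 0) : ∃ c : k, u = c • v := by
  have d : v 0 * u 1 - v 1 * u 0 = 0 := by
    by_contra d
    refine hN (Matrix.ext fun i j => ?_)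
    have a := congrFun h1 i
    have b := congrFun h2 i
    simp only [Matrix.mulVec, dotProduct, Fin.sum_univ_two, Pi.zero_apply] at a b
    fin_cases j
    · exact (mul_eq_zero.1 (show N i 0 * (v 0 * u 1 - v 1 * u 0) = 0 by
        linear_combination u 1 * a - v 1 * b)).resolve_right d
    · exact (mul_eq_zero.1 (show N i 1 * (v 0 * u 1 - v 1 * u 0) = 0 by
        linear_combination v 0 * b - u 0 * a)).resolve_right d
  by_cases h0 : v 0 = 0
  · have h3 : v 1 ≠ 0 := fun h => hv (funext fun i => by fin_cases i <;> assumption)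
    refine ⟨u 1 / v 1, funext fun i => ?_⟩
    fin_cases i
    · show u 0 = u 1 / v 1 * v 0
      rw [h0, zero_mul, zero_sub, neg_eq_zero] at d
      rw [h0, mul_zero, (mul_eq_zero.1 d).resolve_left h3]
    · show u 1 = u 1 / v 1 * v 1
      field_simp
  · refine ⟨u 0 / v 0, funext fun i => ?_⟩
    fin_cases i
    · show u 0 = u 0 / v 0 * v 0
      field_simp
    · show u 1 = u 0 / v 0 * v 1
      field_simp
      linear_combination d

theorem ch (A : Matrix (Fin 2) (Fin 2) k) : A * A = A.trace • A - A.det • 1 := by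
  ext i j
  fin_cases i <;> fin_cases j <;>
    simp [Matrix.mul_apply, Fin.sum_univ_two, Matrix.trace_fin_two, Matrix.det_fin_two] <;> ring

variable [CharP k 2]

theorem two0 (A : Matrix (Fin 2) (Fin 2) k) : A + A = 0 := by
  ext i j
  exact CharTwo.add_self_eq_zero _

theorem sq1 (A : Matrix (Fin 2) (Fin 2) k) : (A - 1) * (A - 1) = A * A - 1 := by
  have h := two0 A
  have h1 := two0 (1 : Matrix (Fin 2) (Fin 2) k)
  calc (A - 1) * (A - 1) = A * A - 1 - (A + A) + (1 + 1) := by noncomm_ring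
    _ = _ := by rw [h, h1, sub_zero, add_zero]

/-- determinant one and a fixed vector -/
theorem inv_of {A : Matrix (Fin 2) (Fin 2) k} (hd : A.det = 1) {v : Fin 2 → k} (hv : v ≠ 0)
    (h : A *ᵥ v = v) : A * A = 1 := by
  have e := congrArg (· *ᵥ v) (ch A)
  simp only [← Matrix.mulVec_mulVec, h, Matrix.sub_mulVec, Matrix.smul_mulVec, hd, one_smul,
    Matrix.one_mulVec] at e
  have t : A.trace = 0 := by
    have : (A.trace - 2) • v = 0 := by
      rw [sub_smul, two_smul, ← sub_sub, ← e, sub_self]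
    have := (smul_eq_zero.1 this).resolve_right hv
    rwa [CharTwo.two_eq_zero (R := k), sub_zero] at this
  rw [ch, t, hd, zero_smul, one_smul, zero_sub, neg_eq_iff_add_eq_zero, two0]

theorem inv_pow {A : Matrix (Fin 2) (Fin 2) k} {j : ℕ} (h : A ^ 2 ^ j = 1) : A * A = 1 := by
  have e : ∀ j : ℕ, (A - 1) ^ 2 ^ j = A ^ 2 ^ j - 1 := fun j => by
    induction j with
    | zero => simp
    | succ j ih => rw [pow_succ, pow_mul, pow_mul, ih, sq, sq, sq1]
  have n : IsNilpotent (A - 1) := ⟨2 ^ j, by rw [e, h, sub_self]⟩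
  have t := (Matrix.isNilpotent_trace_of_isNilpotent n).eq_zero
  have d : (A - 1).det = 0 := by
    obtain ⟨m, hm⟩ := n
    exact IsNilpotent.eq_zero ⟨m, by rw [← Matrix.det_pow, hm, Matrix.det_zero]⟩
  have := ch (A - 1)
  rwa [t, d, zero_smul, zero_smul, sub_self, sq1, sub_eq_zero] at this

variable {G : Type} [Group G] (ι : G →* GL (Fin 2) k) (hι : Function.Injective ι)
include hι

theorem sq_of {g : G} (h : (ι g : Matrix (Fin 2) (Fin 2) k) * ι g = 1) : g * g = 1 :=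
  hι (Units.ext (by rw [map_mul, map_one]; exact h))

/-- the commutators of the normaliser are involutions -/
theorem comm {s : G} (h1 : s ≠ 1) (h2 : s * s = 1) {a b : G}
    (ha : s * (a⁻¹ * s * a) = a⁻¹ * s * a * s) (hb : s * (b⁻¹ * s * b) = b⁻¹ * s * b * s) :
    (a⁻¹ * b⁻¹ * a * b) * (a⁻¹ * b⁻¹ * a * b) = 1 := by
  let M : G →* Matrix (Fin 2) (Fin 2) k := (Units.coeHom _).comp ι
  have hN : M s - 1 ≠ 0 := fun h => h1 (hι (Units.ext ((sub_eq_zero.1 h).trans (by simp))))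
  have sq : ∀ g : G, g * g = 1 → (M g - 1) * (M g - 1) = 0 := fun g h => by
    rw [sq1, ← map_mul, h, map_one, sub_self]
  obtain ⟨v, hv, e⟩ := Matrix.exists_mulVec_eq_zero_iff.2 (show (M s - 1).det = 0 from
    mul_self_eq_zero.1 (by rw [← Matrix.det_mul, sq s h2, Matrix.det_zero]))
  have key : ∀ d : G, s * (d⁻¹ * s * d) = d⁻¹ * s * d * s → ∃ c : k, M d *ᵥ v = c • v := by
    intro d hd
    have cm : (M s - 1) * (M (d⁻¹ * s * d) - 1) = (M (d⁻¹ * s * d) - 1) * (M s - 1) := by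
      have := congrArg M hd
      rw [map_mul, map_mul M _ s] at this
      rw [sub_mul, mul_sub, mul_sub, sub_mul, mul_sub, mul_sub, this]
      simp only [mul_one, one_mul]
      abel
    obtain ⟨c, hc⟩ := line hN hv e (u := (M (d⁻¹ * s * d) - 1) *ᵥ v) (by
      rw [Matrix.mulVec_mulVec, cm, ← Matrix.mulVec_mulVec, e, Matrix.mulVec_zero])
    have z : (c * c) • v = 0 := by
      rw [mul_smul, ← hc, ← Matrix.mulVec_smul, ← hc, Matrix.mulVec_mulVec, sq _ (by
        rw [show d⁻¹ * s * d * (d⁻¹ * s * d) = d⁻¹ * (s * s) * d by group, h2, mul_one,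
          inv_mul_cancel]), Matrix.zero_mulVec]
    rw [mul_self_eq_zero.1 ((smul_eq_zero.1 z).resolve_right hv), zero_smul] at hc
    refine line hN hv e ?_
    have : (M s - 1) * M d = M d * (M (d⁻¹ * s * d) - 1) := by
      rw [sub_mul, mul_sub, ← map_mul, ← map_mul, one_mul, mul_one]
      congr 2
      group
    rw [Matrix.mulVec_mulVec, this, ← Matrix.mulVec_mulVec, hc, Matrix.mulVec_zero]
  obtain ⟨x, hx⟩ := key a ha
  obtain ⟨y, hy⟩ := key b hb
  refine sq_of ι hι (inv_of (A := M _) ?_ hv ?_)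
  · have e1 : ∀ g : G, (M g⁻¹).det * (M g).det = 1 := fun g => by
      rw [← Matrix.det_mul, ← map_mul, inv_mul_cancel, map_one, Matrix.det_one]
    rw [map_mul, map_mul, map_mul, Matrix.det_mul, Matrix.det_mul, Matrix.det_mul]
    linear_combination (M b⁻¹).det * (M b).det * e1 a + e1 b
  · have e2 : M (a * b) *ᵥ v = M (b * a) *ᵥ v := by
      rw [map_mul, map_mul, ← Matrix.mulVec_mulVec, ← Matrix.mulVec_mulVec, hx, hy,
        Matrix.mulVec_smul, Matrix.mulVec_smul, hx, hy, smul_comm]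
    rw [show a⁻¹ * b⁻¹ * a * b = (b * a)⁻¹ * (a * b) by group, map_mul, ← Matrix.mulVec_mulVec, e2,
      Matrix.mulVec_mulVec, ← map_mul, inv_mul_cancel, map_one, Matrix.one_mulVec]

end mat

section ded
variable {R G : Type} [CommRing R] [IsDedekindDomain R] [Group G] [MulSemiringAction G R]
  {P : Ideal R} [hP : P.IsPrime]

theorem dc_pow {d : G} (h : ∀ x ∈ P, d • x ∈ P) (n : ℕ) : ∀ x ∈ P ^ n, d • x ∈ P ^ n :=
  fun x hx => Ideal.le_comap_pow (MulSemiringAction.toRingHom G R d) n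
    (Ideal.pow_right_mono (show P ≤ P.comap (MulSemiringAction.toRingHom G R d) from h) n hx)

theorem dc_of {d : G} (h : ∀ x, d • x - x ∈ P) : ∀ x ∈ P, d • x ∈ P := fun x hx => by
  simpa using P.add_mem (h x) hx

theorem mul2 {a b : R} (ha : a ∈ P) (hb : b ∈ P) : a * b ∈ P ^ 2 := by
  rw [sq]; exact Ideal.mul_mem_mul ha hb

theorem up {d : G} (h : ∀ x, d • x - x ∈ P ^ 2) (i : ℕ) :
    ∀ a ∈ P ^ (i + 1), d • a - a ∈ P ^ (i + 2) := by
  have h1 : ∀ x, d • x - x ∈ P := fun x => Ideal.pow_le_self two_ne_zero (h x)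
  induction i with
  | zero => exact fun a _ => h a
  | succ i ih =>
    intro a ha
    rw [pow_succ] at ha
    refine Submodule.mul_induction_on ha (fun x hx y hy => ?_) fun x y hx hy => ?_
    · have e : d • (x * y) - x * y = (d • x - x) * d • y + x * (d • y - y) := by
        rw [smul_mul']; ring
      rw [e]
      refine add_mem ?_ ?_
      · rw [pow_succ]; exact Ideal.mul_mem_mul (ih x hx) (dc_of h1 y hy)
      · rw [show i + 1 + 2 = i + 1 + 2 from rfl, pow_add]; exact Ideal.mul_mem_mul hx (h y)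
    · rw [smul_add, add_sub_add_comm]; exact add_mem hx hy

theorem dbl (h2 : (2 : R) ∈ P) {d : G} (h : ∀ x, d • x - x ∈ P ^ 2) (j : ℕ) :
    ∀ x, (d ^ 2 ^ j) • x - x ∈ P ^ (j + 2) := by
  induction j with
  | zero => simpa using h
  | succ j ih =>
    intro x
    have e : (d ^ 2 ^ (j + 1)) • x - x = ((d ^ 2 ^ j) • ((d ^ 2 ^ j) • x - x) -
        ((d ^ 2 ^ j) • x - x)) + ((d ^ 2 ^ j) • x - x) * 2 := by
      rw [pow_succ, pow_mul, sq, mul_smul, smul_sub]; ring
    rw [e]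
    refine add_mem (up (fun y => Ideal.pow_le_pow_right (by omega) (ih y)) (j + 1) _ (ih x)) ?_
    rw [show j + 1 + 2 = j + 2 + 1 from rfl, pow_succ]
    exact Ideal.mul_mem_mul (ih x) h2

theorem ex_sc {π : R} (p1 : π ∈ P) (p2 : π ∉ P ^ 2) (h0 : P ≠ ⊥) {d : G}
    (h : ∀ x, d • x - x ∈ P) : ∃ t, ∀ y ∈ P, d • y - t * y ∈ P ^ 2 := by
  have e : Ideal.span {π} ⊔ P ^ 2 = P ^ 1 := Ideal.eq_prime_pow_of_succ_lt_of_le h0
    (lt_of_le_of_ne le_sup_right fun c => p2 (c ▸ Ideal.mem_sup_left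
      (Ideal.mem_span_singleton_self π)))
    (sup_le (by rw [pow_one, Ideal.span_singleton_le_iff_mem]; exact p1)
      (Ideal.pow_le_pow_right (by omega)))
  have dec : ∀ y ∈ P, ∃ b, y - b * π ∈ P ^ 2 := fun y hy => by
    rw [← pow_one P, ← e] at hy
    obtain ⟨u, hu, z, hz, rfl⟩ := Submodule.mem_sup.1 hy
    obtain ⟨b, rfl⟩ := Ideal.mem_span_singleton'.1 hu
    exact ⟨b, by simpa using hz⟩
  obtain ⟨t, ht⟩ := dec _ (dc_of h π p1)
  refine ⟨t, fun y hy => ?_⟩
  obtain ⟨b, hb⟩ := dec y hy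
  have e2 : d • y - t * y = d • (y - b * π) - t * (y - b * π) + (d • b - b) * d • π +
      b * (d • π - t * π) := by
    rw [smul_sub, smul_mul']; ring
  rw [e2]
  exact add_mem (add_mem (sub_mem (dc_pow (dc_of h) 2 _ hb) (Ideal.mul_mem_left _ _ hb))
    (mul2 (h b) (dc_of h π p1))) (Ideal.mul_mem_left _ _ ht)

theorem sc_one {π : R} (p1 : π ∈ P) {d : G} {t : R} (h : ∀ y ∈ P, d • y - t * y ∈ P ^ 2)
    (ht : t - 1 ∈ P) : ∀ y ∈ P, d • y - y ∈ P ^ 2 := fun y hy => by
  have := add_mem (h y hy) (mul2 ht hy)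
  rwa [show d • y - t * y + (t - 1) * y = d • y - y by ring] at this

end ded

theorem tmC : TM := by
  intro K _ _ _ P hP h0 h2 k _ _ ι hι θ hθ hne
  classical
  by_contra hc
  rw [not_or] at hc
  obtain ⟨c1, c2⟩ := hc
  push Not at c1 c2
  obtain ⟨u, hu, c1⟩ := c1
  obtain ⟨s, hs, c2⟩ := c2
  obtain ⟨s1, s2⟩ := (Finset.mem_filter.1 hs).2
  haveI : Finite (𝓞 K ⧸ P) := Ideal.finiteQuotientOfFreeOfNeBot P h0
  haveI := hP.isMaximal h0
  have sθ : s • θ - θ ∈ P ^ 2 :=
    (Ideal.dvd_span_singleton).1 (pow_dvd_of_le_multiplicity (show 2 ≤ w P _ from c2))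
  have sG : ∀ x, s • x - x ∈ P ^ 2 := fun x => by
    obtain ⟨g, hg⟩ := hθ 2 x
    have e : s • aeval θ g = aeval (s • θ) g :=
      (Polynomial.aeval_algHom_apply (MulSemiringAction.toAlgHom ℤ (𝓞 K) s) θ g).symm
    have e2 : s • x - x = s • (x - aeval θ g) - (x - aeval θ g) + (aeval (s • θ) g - aeval θ g) := by
      rw [smul_sub, e]; ring
    rw [e2]
    refine add_mem (sub_mem (dc_pow (dc_of s1) 2 _ hg) hg) ?_
    obtain ⟨z, hz⟩ := Polynomial.sub_dvd_eval_sub (s • θ) θ (g.map (algebraMap ℤ (𝓞 K)))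
    rw [Polynomial.eval_map_algebraMap, Polynomial.eval_map_algebraMap] at hz
    rw [hz]
    exact Ideal.mul_mem_right _ _ sθ
  have inv : ∀ d : Ga K, (∀ x, d • x - x ∈ P ^ 2) → d * d = 1 := fun d hd => by
    have : ∃ j : ℕ, d ^ 2 ^ j = 1 := by
      by_contra n
      push Not at n
      obtain ⟨g, hg⟩ := Finite.exists_infinite_fiber fun j : ℕ => d ^ 2 ^ j
      have hg' := Set.infinite_coe_iff.1 hg
      obtain ⟨j0, hj0⟩ := hg'.nonempty
      refine hne g (fun e => n j0 (hj0.trans e)) ?_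
      have : g • θ - θ ∈ ⨅ i : ℕ, P ^ i := Ideal.mem_iInf.2 fun i => by
        obtain ⟨j, a, b⟩ := hg'.exists_gt i
        have := dbl h2 hd j θ
        rw [show d ^ 2 ^ j = g from a] at this
        exact Ideal.pow_le_pow_right (by omega) this
      rwa [Ideal.iInf_pow_eq_bot_of_isDomain P hP.ne_top, Ideal.mem_bot] at this
    obtain ⟨j, hj⟩ := this
    exact sq_of ι hι (inv_pow (j := j) (by rw [← Units.val_pow_eq_pow_val, ← map_pow, hj]; simp))
  have nrm : ∀ d : Ga K, (∀ x ∈ P, d⁻¹ • x ∈ P) → s * (d⁻¹ * s * d) = d⁻¹ * s * d * s := by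
    intro d hd
    have a : ∀ x, (d⁻¹ * s * d) • x - x ∈ P ^ 2 := fun x => by
      have := dc_pow hd 2 _ (sG (d • x))
      rwa [smul_sub, inv_smul_smul, ← mul_smul, ← mul_smul] at this
    have b := inv (s * (d⁻¹ * s * d)) fun x => by
      have := add_mem (sG ((d⁻¹ * s * d) • x)) (a x)
      rwa [sub_add_sub_cancel, ← mul_smul] at this
    have i1 := eq_inv_of_mul_eq_one_left (inv s sG)
    have i2 := eq_inv_of_mul_eq_one_left (inv _ a)
    rw [eq_inv_of_mul_eq_one_left b, _root_.mul_inv_rev, ← i1, ← i2]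
  obtain ⟨φ, hφ⟩ := IsArithFrobAt.exists_of_isInvariant ℤ (Ga K) P
  have cd : Nat.card (ℤ ⧸ P.under ℤ) = 2 := by
    have : P.under ℤ = Ideal.span {((2 : ℕ) : ℤ)} :=
      ((Ideal.IsMaximal.eq_of_le (Int.ideal_span_isMaximal_of_prime 2) (Ideal.comap_ne_top _
        hP.ne_top) ((Ideal.span_singleton_le_iff_mem _).2 (by simpa using h2)))).symm
    rw [this, Int.card_ideal_quot]
  have f1 : ∀ x, φ • x - x ^ 2 ∈ P := fun x => cd ▸ hφ x
  have f2 : ∀ x ∈ P, φ • x ∈ P := fun x hx => by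
    simpa using P.add_mem (f1 x) (Ideal.pow_mem_of_mem P hx 2 two_pos)
  have f3 : ∀ x ∈ P, φ⁻¹ • x ∈ P := fun x hx => by
    have := P.sub_mem hx (smul_inv_smul φ x ▸ f1 (φ⁻¹ • x))
    rw [sub_sub_cancel] at this
    exact hP.mem_of_pow_mem _ this
  have u' : ∀ x, u⁻¹ • x - x ∈ P := fun x => by
    have := P.neg_mem (hu (u⁻¹ • x))
    rwa [smul_inv_smul, neg_sub] at this
  have cc := comm ι hι s2 (inv s sG) (a := φ⁻¹) (b := u⁻¹) (nrm _ (by simpa using f2))
    (nrm _ (by simpa using dc_of hu))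
  rw [inv_inv, inv_inv] at cc
  obtain ⟨c, hc⟩ : ∃ c, c = φ * u * φ⁻¹ * u⁻¹ := ⟨_, rfl⟩
  rw [← hc] at cc
  have cI : ∀ x, c • x - x ∈ P := fun x => by
    have := P.add_mem (f2 _ (hu (φ⁻¹ • u⁻¹ • x))) (u' x)
    rwa [smul_sub, smul_inv_smul, sub_add_sub_cancel, ← mul_smul, ← mul_smul, ← mul_smul,
      ← hc] at this
  obtain ⟨π, p1, p2⟩ := Ideal.exists_mem_pow_notMem_pow_succ P h0 hP.ne_top 1
  rw [pow_one] at p1
  obtain ⟨t, ht⟩ := ex_sc p1 p2 h0 cI
  have c1' : ∀ y ∈ P, c • y - y ∈ P ^ 2 := by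
    refine sc_one p1 ht (hP.mem_of_pow_mem 2 ?_)
    have a := add_mem (ht _ (dc_of cI π p1)) (Ideal.mul_mem_left _ t (ht π p1))
    rw [← mul_smul, cc, one_smul,
      show π - t * c • π + t * (c • π - t * π) = (1 - t ^ 2) * π by ring] at a
    have b := (Ideal.IsPrime.mul_mem_pow P a).resolve_right p2
    rw [show (t - 1) ^ 2 = (1 - t) * 2 - (1 - t ^ 2) by ring]
    exact P.sub_mem (P.mul_mem_left _ h2) b
  obtain ⟨r, hr⟩ := ex_sc p1 p2 h0 hu
  have r1 : r - 1 ∈ P := by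
    have a := dc_pow f2 2 _ (hr _ (f3 π p1))
    have e : φ • u • φ⁻¹ • π = c • u • π := by
      rw [← mul_smul, ← mul_smul, ← mul_smul, hc, inv_mul_cancel_right]
    rw [smul_sub, smul_mul', smul_inv_smul, e] at a
    have b := sub_mem (add_mem (c1' _ (dc_of hu π p1)) (hr π p1)) (add_mem a (mul2 (f1 r) p1))
    rw [show c • u • π - u • π + (u • π - r * π) - (c • u • π - φ • r * π + (φ • r - r ^ 2) * π) =
      (r * (r - 1)) * π by ring] at b
    refine (hP.mem_or_mem ((Ideal.IsPrime.mul_mem_pow P b).resolve_right p2)).resolve_left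
      fun k => p2 ?_
    have := dc_pow (dc_of u') 2 _ (add_mem (hr π p1) (mul2 k p1))
    rwa [sub_add_cancel, inv_smul_smul] at this
  refine c1 (inv u fun x => ?_)
  letI := Ideal.Quotient.field P
  letI := Fintype.ofFinite (𝓞 K ⧸ P)
  have q1 : x - x ^ Fintype.card (𝓞 K ⧸ P) ∈ P :=
    Ideal.Quotient.eq.1 (by rw [map_pow, FiniteField.pow_card])
  have q2 : ((Fintype.card (𝓞 K ⧸ P) : ℕ) : 𝓞 K) ∈ P := Ideal.Quotient.eq_zero_iff_mem.1 (by
    rw [map_natCast]; exact Nat.cast_card_eq_zero _)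
  generalize Fintype.card (𝓞 K ⧸ P) = q at q1 q2
  obtain ⟨z, hz⟩ := Polynomial.binomExpansion (X ^ q : (𝓞 K)[X]) x (u • x - x)
  simp only [add_sub_cancel, eval_pow, eval_X, derivative_X_pow, eval_mul, eval_C,
    eval_natCast, map_natCast] at hz
  have e : u • x - x = (u • (x - x ^ q) - (x - x ^ q)) + ((q : 𝓞 K) * (x ^ (q - 1) * (u • x - x)) +
      z * (u • x - x) ^ 2) := by
    rw [smul_sub, smul_pow', hz]; ring
  rw [e]
  exact add_mem (sc_one p1 hr r1 _ q1) (add_mem (mul2 q2 (P.mul_mem_left _ (hu x)))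
    (Ideal.mul_mem_left _ _ (Ideal.pow_mem_pow (hu x) 2)))

end Vale.Agent.P022T.H65
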