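import Vale.Agent.P022T.Defs

/-!
# P022T, row WL
-/

set_option linter.all false

open NumberField

noncomputable section

namespace Vale.Agent.P022T.H23

theorem dual (G : Type) [Group G] [Finite G] (h : ∀ s : G, s * s = 1) :
    Nat.card (G →* ℤˣ) = Nat.card G ∧ ∀ s : G, s ≠ 1 → ∃ χ : G →* ℤˣ, χ s ≠ 1 := by
  letI : CommGroup G :=
    { (inferInstance : Group G) with
      mul_comm := fun a b => by
        have k : ∀ s : G, s⁻¹ = s := fun s => inv_eq_of_mul_eq_one_right (h s)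
        rw [← k (a * b), mul_inv_rev, k, k] }
  have h2 : HasEnoughRootsOfUnity ℤ 2 :=
    ⟨⟨-1, IsPrimitiveRoot.neg_one 0 (by decide)⟩, inferInstance⟩
  have hd : Monoid.exponent G ∣ 2 :=
    Monoid.exponent_dvd_of_forall_pow_eq_one fun g => by rw [pow_two, h]
  have h3 : HasEnoughRootsOfUnity ℤ (Monoid.exponent G) := HasEnoughRootsOfUnity.of_dvd ℤ hd
  exact ⟨CommGroup.card_monoidHom_of_hasEnoughRootsOfUnity G ℤ,
    fun s hs => CommGroup.exists_apply_ne_one_of_hasEnoughRootsOfUnity G ℤ hs⟩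

theorem comb {X : Type} [CommGroup X] [Fintype X] (h : ∀ s : X, s * s = 1) (A : X → ℕ → Prop)
    (add : ∀ χ ψ i j, A χ i → A ψ j → A (χ * ψ) (i + j))
    (sub : ∀ χ ψ i j, A χ i → A ψ j → j ≤ i → A (χ * ψ) (i - j))
    (ne : ∀ χ, ∃ i, A χ i) {E : ℕ} (hE : A 1 E) (h0 : 0 < E) :
    ∃ m : X → ℕ, (∀ χ, A χ (m χ)) ∧ 4 * ∑ χ, m χ ≤ Fintype.card X * E := by
  classical
  have ex : ∃ d, 0 < d ∧ ∃ ψ, A ψ d := ⟨E, h0, 1, hE⟩
  obtain ⟨d0, ψ, hψ⟩ := Nat.find_spec ex
  set d := Nat.find ex with hd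
  have mn : ∀ χ i, A χ i → i < d → i = 0 := fun χ i a b => by
    by_contra c
    exact Nat.find_min ex b ⟨Nat.pos_of_ne_zero c, χ, a⟩
  let m : X → ℕ := fun χ => Nat.find (ne χ)
  have m1 : ∀ χ, A χ (m χ) := fun χ => Nat.find_spec (ne χ)
  have m2 : ∀ χ i, A χ i → m χ ≤ i := fun χ i a => Nat.find_min' (ne χ) a
  have cc : ∀ χ : X, χ * ψ * ψ = χ := fun χ => by rw [mul_assoc, h, mul_one]
  have m3 : ∀ χ, m χ = 0 ∨ (m χ = d ∧ A (χ * ψ) 0) := fun χ => by
    by_cases c : m χ < d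
    · exact Or.inl (mn χ _ (m1 χ) c)
    · have a := sub χ ψ _ _ (m1 χ) hψ (by omega)
      by_cases c' : m χ - d < d
      · have := mn _ _ a c'
        exact Or.inr ⟨by omega, this ▸ a⟩
      · have b := sub _ ψ _ _ a hψ (by omega)
        rw [cc] at b
        have := m2 χ _ b
        omega
  have m4 : ∀ χ, 2 * (m χ + m (χ * ψ)) ≤ E := fun χ => by
    by_cases c : E < 2 * d
    · have e1 : d ≤ E := by
        by_contra k
        have := mn 1 E hE (by omega)
        omega
      have a := sub 1 ψ _ _ hE hψ e1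
      have := mn _ _ a (by omega)
      rw [this, one_mul] at a
      have z : ∀ χ, m χ = 0 := fun χ => (m3 χ).elim id fun k => by
        have b := add _ _ _ _ k.2 a
        rw [cc] at b
        have := m2 χ _ b
        omega
      rw [z, z]
      omega
    · rcases m3 χ with k | k
      · rcases m3 (χ * ψ) with k' | k' <;> omega
      · have := m2 _ _ k.2
        omega
  refine ⟨m, m1, ?_⟩
  have e : ∑ χ, m (χ * ψ) = ∑ χ, m χ := Equiv.sum_comp (Equiv.mulRight ψ) m
  have := Finset.sum_le_sum fun χ (_ : χ ∈ Finset.univ) => m4 χ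
  rw [← Finset.mul_sum, Finset.sum_add_distrib, e, Finset.sum_const, Finset.card_univ,
    smul_eq_mul] at this
  omega

section
variable {G B : Type} [Group G] [Fintype G] [CommRing B] [IsDomain B] [MulSemiringAction G B]

/-- eigenvectors -/
def Eig (χ : G →* ℤˣ) (y : B) : Prop := ∀ s : G, s • y = ((χ s : ℤ) : B) * y

theorem sq (χ : G →* ℤˣ) (s : G) : ((χ s : ℤ) : B) * ((χ s : ℤ) : B) = 1 := by
  rw [← Int.cast_mul, ← Units.val_mul, Int.units_mul_self, Units.val_one, Int.cast_one]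

theorem smul_int (s : G) (n : ℤ) : s • (n : B) = n :=
  map_intCast (MulSemiringAction.toRingHom G B s) n

theorem ex_eig {θ : B} (hθ : ∀ s : G, s ≠ 1 → s • θ - θ ≠ 0) (χ : G →* ℤˣ) :
    ∃ y : B, y ≠ 0 ∧ Eig χ y := by
  have li := (linearIndependent_monoidHom B B).comp
    (fun s : G => (MulSemiringAction.toRingHom G B s : B →* B)) fun s t e => by
      have k : s • θ = t • θ := DFunLike.congr_fun e θ
      by_contra c
      refine hθ (t⁻¹ * s) (fun z => c (inv_mul_eq_one.1 z).symm) ?_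
      rw [mul_smul, k, inv_smul_smul, sub_self]
  have : ∃ x : B, ∑ s : G, ((χ s : ℤ) : B) * s • x ≠ 0 := by
    by_contra c
    push Not at c
    have := Fintype.linearIndependent_iff.1 li (fun s => ((χ s : ℤ) : B)) (by
      funext x
      rw [Finset.sum_apply]
      exact c x) 1
    simp at this
  obtain ⟨x, hx⟩ := this
  refine ⟨_, hx, fun t => ?_⟩
  rw [Finset.smul_sum, Finset.mul_sum, ← Equiv.sum_comp (Equiv.mulLeft t)
    (fun s => ((χ t : ℤ) : B) * (((χ s : ℤ) : B) * s • x))]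
  refine Finset.sum_congr rfl fun s _ => ?_
  rw [smul_mul', smul_int, Equiv.coe_mulLeft, map_mul, Units.val_mul, Int.cast_mul, mul_smul,
    ← mul_assoc, ← mul_assoc, sq, one_mul]

theorem Eig.mul {χ ψ : G →* ℤˣ} {y z : B} (h : Eig χ y) (k : Eig ψ z) : Eig (χ * ψ) (y * z) :=
  fun s => by
    rw [smul_mul', h s, k s, MonoidHom.mul_apply, Units.val_mul, Int.cast_mul]
    ring

theorem core (h : ∀ s : G, s * s = 1) (P : Ideal B) (hP : P.IsPrime) (w : B → ℕ)
    (w1 : ∀ x y, x ≠ 0 → y ≠ 0 → w (x * y) = w x + w y)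
    (w2 : ∀ x, x ≠ 0 → (1 ≤ w x ↔ x ∈ P))
    (w4 : ∀ x a, x ≠ 0 → a ≠ 0 → w a ≤ w x → ∃ c z, c ∉ P ∧ c * x = a * z)
    (ine : ∀ (s : G) x, s • x - x ∈ P) (h2 : (2 : B) ∈ P) (h0 : (2 : B) ≠ 0) {θ : B}
    (hθ : ∀ s : G, s ≠ 1 → s • θ - θ ≠ 0) (i : G → ℕ) (i1 : i 1 = 0)
    (co : ∀ (T : Finset G) (y : B), y ≠ 0 → (∀ s ∈ T, s • y = -y) → ∑ s ∈ T, i s ≤ w 2 + w y) :
    2 * Fintype.card G * ∑ s, i s + 4 * w 2 ≤ 5 * Fintype.card G * w 2 := by
  classical
  obtain ⟨d1, d2⟩ := dual G h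
  have fin : Finite (G →* ℤˣ) := Nat.finite_of_card_ne_zero (d1 ▸ Nat.card_pos.ne')
  letI : Fintype (G →* ℤˣ) := Fintype.ofFinite _
  rw [Nat.card_eq_fintype_card, Nat.card_eq_fintype_card] at d1
  obtain ⟨m, m1, m2⟩ := comb (X := G →* ℤˣ)
    (fun χ => MonoidHom.ext fun s => Int.units_mul_self (χ s))
    (fun χ j => ∃ y : B, y ≠ 0 ∧ Eig χ y ∧ w y = j)
    (by
      rintro χ ψ _ _ ⟨y, a1, a2, rfl⟩ ⟨z, b1, b2, rfl⟩
      exact ⟨y * z, mul_ne_zero a1 b1, a2.mul b2, w1 _ _ a1 b1⟩)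
    (by
      rintro χ ψ _ _ ⟨y, a1, a2, rfl⟩ ⟨c, b1, b2, rfl⟩ le
      obtain ⟨a, z, c1, c2⟩ := w4 y c a1 b1 le
      have n1 : ∏ s : G, s • a ∉ P := fun k => by
        obtain ⟨s, -, k⟩ := (Ideal.IsPrime.prod_mem_iff (hp := hP)).1 k
        exact c1 (by simpa using P.sub_mem k (ine s a))
      have n0 : ∏ s : G, s • a ≠ 0 := fun k => n1 (k ▸ P.zero_mem)
      have n2 : ∀ t : G, t • ∏ s : G, s • a = ∏ s : G, s • a := fun t => by
        rw [Finset.smul_prod', ← Equiv.prod_comp (Equiv.mulLeft t) (fun s => s • a)]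
        exact Finset.prod_congr rfl fun s _ => (mul_smul t s a).symm
      obtain ⟨a', n3⟩ : a ∣ ∏ s : G, s • a := by
        simpa using Finset.dvd_prod_of_mem (fun s : G => s • a) (Finset.mem_univ 1)
      have e : c * (a' * z) = (∏ s : G, s • a) * y := by
        rw [n3]
        linear_combination (-a') * c2
      have y0 : a' * z ≠ 0 := fun k => mul_ne_zero n0 a1 (by rw [← e, k, mul_zero])
      refine ⟨a' * z, y0, fun s => mul_left_cancel₀ b1 ?_, ?_⟩
      · have k := congrArg (s • ·) e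
        simp only [smul_mul', n2] at k
        rw [b2 s, a2 s] at k
        rw [MonoidHom.mul_apply, Units.val_mul, Int.cast_mul, smul_mul']
        have q := sq (B := B) ψ s
        linear_combination ((ψ s : ℤ) : B) * k - ((χ s : ℤ) : B) * ((ψ s : ℤ) : B) * e
          - c * (s • a' * s • z) * q
      · have k := w1 _ _ b1 y0
        rw [e, w1 _ _ n0 a1] at k
        have := mt (w2 _ n0).1 n1
        omega)
    (fun χ => by
      obtain ⟨y, a, b⟩ := ex_eig hθ χ
      exact ⟨_, y, a, b, rfl⟩)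
    (E := w 2) ⟨2, h0, fun s => by simpa using smul_int (B := B) s 2, rfl⟩ ((w2 _ h0).2 h2)
  have half : ∀ s : G, s ≠ 1 →
      2 * (Finset.univ.filter fun χ : G →* ℤˣ => χ s = -1).card = Fintype.card G := fun s hs => by
    obtain ⟨ψ, hψ⟩ := d2 s hs
    have hψ' : ψ s = -1 := (Int.units_eq_one_or _).resolve_left hψ
    have e : (Finset.univ.filter fun χ : G →* ℤˣ => χ s = -1).card =
        (Finset.univ.filter fun χ : G →* ℤˣ => ¬ χ s = -1).card := by
      refine Finset.card_equiv (Equiv.mulLeft ψ) fun χ => ?_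
      simp only [Finset.mem_filter, Finset.mem_univ, true_and, Equiv.coe_mulLeft,
        MonoidHom.mul_apply, hψ']
      rcases Int.units_eq_one_or (χ s) with k | k <;> rw [k] <;> decide
    have := Finset.card_filter_add_card_filter_not (s := (Finset.univ : Finset (G →* ℤˣ)))
      (fun χ => χ s = -1)
    rw [Finset.card_univ, d1] at this
    omega
  have up : ∀ χ : G →* ℤˣ, ∑ s, (if χ s = -1 then i s else 0) + (if χ = 1 then w 2 else 0) ≤
      w 2 + m χ := fun χ => by
    by_cases c : χ = 1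
    · rw [if_pos c, c, Finset.sum_eq_zero fun s _ => if_neg (by simp)]
      omega
    · obtain ⟨y, a1, a2, a3⟩ := m1 χ
      rw [if_neg c, add_zero, ← Finset.sum_filter, ← a3]
      refine co _ y a1 fun s hs => ?_
      rw [a2 s, (Finset.mem_filter.1 hs).2]
      simp
  have s1 := Finset.sum_le_sum fun χ (_ : χ ∈ Finset.univ) => up χ
  rw [Finset.sum_add_distrib, Finset.sum_add_distrib, Finset.sum_ite_eq', if_pos (Finset.mem_univ _),
    Finset.sum_const, Finset.card_univ, d1, smul_eq_mul, Finset.sum_comm] at s1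
  have s2 : 2 * ∑ s : G, ∑ χ : G →* ℤˣ, (if χ s = -1 then i s else 0) =
      Fintype.card G * ∑ s, i s := by
    rw [Finset.mul_sum, Finset.mul_sum]
    refine Finset.sum_congr rfl fun s _ => ?_
    by_cases c : s = 1
    · simp [c, i1]
    · rw [← Finset.sum_filter, Finset.sum_const, smul_eq_mul, ← mul_assoc, half s c]
  rw [d1] at m2
  rw [mul_assoc 2, mul_assoc 5]
  omega

end

theorem wlC (hV : VAL) (hC : CO) : WL := by
  classical
  intro K _ _ _ P hP h0 h2 θ hA hθ hs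
  obtain ⟨v1, v2, -, v4⟩ := hV K P hP h0
  have k := core (G := P.inertia (Ga K)) (fun s => Subtype.ext (hs s s.2)) P hP (w P) v1
    (fun x hx => by simpa using v2 x 1 hx) v4 (fun s => s.2) h2 two_ne_zero (θ := θ)
    (fun s c => hθ s fun e => c (Subtype.ext e))
    (fun s => if s = 1 then 0 else w P ((s : Ga K) • θ - θ)) (if_pos rfl) (fun T y y0 hT => by
      have := hC K P hP h0 θ hA hθ (T.map (Function.Embedding.subtype _)) y y0 (fun s hs => by
        obtain ⟨t, a, rfl⟩ := Finset.mem_map.1 hs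
        exact ⟨t.2, hT t a⟩)
      rw [Finset.sum_map] at this
      refine le_trans (Finset.sum_le_sum fun s _ => ?_) this
      split_ifs
      · exact Nat.zero_le _
      · exact le_rfl)
  have e0 : I1 P = (Finset.univ.erase (1 : P.inertia (Ga K))).map
      (Function.Embedding.subtype _) := by
    ext s
    simp only [I1, Finset.mem_filter, Finset.mem_univ, true_and, Finset.mem_map, Finset.mem_erase,
      and_true, Function.Embedding.coe_subtype]
    exact ⟨fun a => ⟨⟨s, a.1⟩, fun c => a.2 (congrArg Subtype.val c), rfl⟩,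
      fun ⟨t, a, b⟩ => b ▸ ⟨t.2, fun c => a (Subtype.ext c)⟩⟩
  have e1 : (I1 P).card + 1 = Fintype.card (P.inertia (Ga K)) := by
    rw [e0, Finset.card_map, Finset.card_erase_add_one (Finset.mem_univ _), Finset.card_univ]
  have e2 : ∑ s ∈ I1 P, w P (s • θ - θ) =
      ∑ s : P.inertia (Ga K), if s = 1 then 0 else w P ((s : Ga K) • θ - θ) := by
    rw [e0, Finset.sum_map, ← Finset.sum_erase_add _ _ (Finset.mem_univ (1 : P.inertia (Ga K))),
      if_pos rfl, add_zero]
    exact Finset.sum_congr rfl fun s hs => (if_neg (Finset.mem_erase.1 hs).1).symm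
  rw [← e1, ← e2] at k
  nlinarith [k]

end Vale.Agent.P022T.H23
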