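import Vale.Agent.P022T.Val
import Vale.Agent.P022T.ThH2
import Vale.Agent.P022T.Df
import Vale.Agent.P022T.Co
import Vale.Agent.P022T.WlH23
import Vale.Agent.P022T.TmH65
import Vale.Agent.P022T.CeH67
import Vale.Agent.P022T.Gt
import Vale.Agent.P022T.Mk
import Vale.Agent.P022T.Gb
import Vale.Agent.P022T.T0H45
import Vale.Agent.P022T.Inf
import Vale.Agent.P022T.ExOne

/-!
# P022T: the theorem of Tate
-/

namespace Vale.Agent.P022T.H23

theorem tate : TATE :=
  infC (H45.t0C H2.thC (dfC valC) (wlC valC (H88.co valC)) H65.tmC H67.ceC gtC mkC gbC)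

end Vale.Agent.P022T.H23
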