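import Vale.Agent.P022T.Defs

/-!
# P022T: a non solvable linear group has many unipotent subgroups
-/

set_option linter.all false

open Matrix

noncomputable section

namespace Vale.Agent.P022T.H13

variable {k : Type} [Field k]

/-- the determinant of two vectors -/
def cr (u v : Fin 2 → k) : k := u 0 * v 1 - u 1 * v 0

theorem cr_mul (A : Matrix (Fin 2) (Fin 2) k) (u v : Fin 2 → k) :
    cr (A *ᵥ u) (A *ᵥ v) = A.det * cr u v := by
  simp only [cr, mulVec, dotProduct, Fin.sum_univ_two, det_fin_two]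
  ring

theorem ne2 {v : Fin 2 → k} (hv : v ≠ 0) : v 0 ≠ 0 ∨ v 1 ≠ 0 := by
  by_contra h
  rw [not_or, not_not, not_not] at h
  exact hv (funext (Fin.forall_fin_two.2 ⟨h.1, h.2⟩))

theorem par {v u : Fin 2 → k} (hv : v ≠ 0) (h : cr v u = 0) : ∃ a : k, u = a • v := by
  unfold cr at h
  rcases ne2 hv with h0 | h0
  · refine ⟨u 0 / v 0, funext (Fin.forall_fin_two.2 ⟨?_, ?_⟩)⟩
    · rw [Pi.smul_apply, smul_eq_mul, div_mul_cancel₀ _ h0]
    · rw [Pi.smul_apply, smul_eq_mul, div_mul_eq_mul_div, eq_div_iff h0]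
      linear_combination h
  · refine ⟨u 1 / v 1, funext (Fin.forall_fin_two.2 ⟨?_, ?_⟩)⟩
    · rw [Pi.smul_apply, smul_eq_mul, div_mul_eq_mul_div, eq_div_iff h0]
      linear_combination -h
    · rw [Pi.smul_apply, smul_eq_mul, div_mul_cancel₀ _ h0]

theorem exw {v : Fin 2 → k} (hv : v ≠ 0) : ∃ w, cr v w ≠ 0 := by
  rcases ne2 hv with h0 | h0
  · exact ⟨![0, 1], by simpa [cr] using h0⟩
  · exact ⟨![1, 0], by simpa [cr] using h0⟩

theorem ext2 {v w : Fin 2 → k} (h : cr v w ≠ 0) {A B : Matrix (Fin 2) (Fin 2) k}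
    (h1 : A *ᵥ v = B *ᵥ v) (h2 : A *ᵥ w = B *ᵥ w) : A = B := by
  ext i j
  have a := congrFun h1 i
  have b := congrFun h2 i
  simp only [mulVec, dotProduct, Fin.sum_univ_two] at a b
  refine mul_left_cancel₀ h ?_
  unfold cr
  revert j
  refine Fin.forall_fin_two.2 ⟨?_, ?_⟩
  · linear_combination w 1 * a - v 1 * b
  · linear_combination v 0 * b - w 0 * a

variable {G : Type} [Group G] (ι : G →* GL (Fin 2) k)

/-- the matrix of a group element -/
def mt (g : G) : Matrix (Fin 2) (Fin 2) k := ι g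

theorem mt_mul (g h : G) (v : Fin 2 → k) : mt ι (g * h) *ᵥ v = mt ι g *ᵥ (mt ι h *ᵥ v) := by
  rw [mulVec_mulVec, mt, map_mul, Units.val_mul]
  rfl

theorem mt_one (v : Fin 2 → k) : mt ι 1 *ᵥ v = v := by
  rw [mt, map_one, Units.val_one, one_mulVec]

variable {ι}

theorem eq_of (hi : Function.Injective ι) {v w : Fin 2 → k} (h : cr v w ≠ 0) {a b : G}
    (h1 : mt ι a *ᵥ v = mt ι b *ᵥ v) (h2 : mt ι a *ᵥ w = mt ι b *ᵥ w) : a = b :=
  hi (Units.ext (ext2 h h1 h2))

theorem solv (hi : Function.Injective ι) {v : Fin 2 → k} (hv : v ≠ 0)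
    (h : ∀ g, cr v (mt ι g *ᵥ v) = 0) : Group.IsSolvable G := by
  choose l hl using fun g => par hv (h g)
  have inj := smul_left_injective k hv
  let χ : G →* k :=
    { toFun := l
      map_one' := inj (show l 1 • v = (1 : k) • v by rw [← hl, mt_one, one_smul])
      map_mul' := fun a b => inj (show l (a * b) • v = (l a * l b) • v by
        rw [← hl, mt_mul, hl b, mulVec_smul, hl a, smul_smul, mul_comm]) }
  let φ : G →* kˣ × kˣ := χ.toHomUnits.prod (GeneralLinearGroup.det.comp ι)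
  obtain ⟨w, hw⟩ := exw hv
  have key : ∀ a : φ.ker, mt ι a *ᵥ v = v ∧ ∃ c : k, mt ι a *ᵥ w = w + c • v := fun a => by
    have h1 : l a = 1 := congrArg (fun x : kˣ × kˣ => (x.1 : k)) a.2
    have h2 : (mt ι a).det = 1 := congrArg (fun x : kˣ × kˣ => (x.2 : k)) a.2
    have h3 : mt ι a *ᵥ v = v := by rw [hl, h1, one_smul]
    have h4 := cr_mul (mt ι a) v w
    rw [h3, h2, one_mul] at h4
    obtain ⟨c, hc⟩ := par (u := mt ι a *ᵥ w - w) hv (by
      unfold cr at h4 ⊢
      simp only [Pi.sub_apply]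
      linear_combination h4)
    exact ⟨h3, c, by rw [← hc]; abel⟩
  haveI : Group.IsSolvable φ.ker := Group.isSolvable_of_comm fun a b => Subtype.ext (by
    obtain ⟨a1, c, a2⟩ := key a
    obtain ⟨b1, d, b2⟩ := key b
    refine eq_of hi hw ?_ ?_
    · rw [Subgroup.coe_mul, Subgroup.coe_mul, mt_mul, mt_mul, a1, b1, a1]
    · rw [Subgroup.coe_mul, Subgroup.coe_mul, mt_mul, mt_mul, a2, b2, mulVec_add, mulVec_add,
        mulVec_smul, mulVec_smul, a1, b1, a2, b2]
      abel)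
  exact Group.isSolvable_of_ker_le_range φ.ker.subtype φ (by rw [Subgroup.range_subtype])

theorem six [Finite G] (h : ¬ Group.IsSolvable G) : 6 ≤ Nat.card G := by
  by_contra hc
  have h0 : 0 < Nat.card G := Nat.card_pos
  have key : ∀ p n : ℕ, p.Prime → Nat.card G = p ^ n → False := fun p n hp e => by
    haveI : Fact p.Prime := ⟨hp⟩
    haveI := (IsPGroup.of_card e).isNilpotent
    exact h inferInstance
  have : Nat.card G = 1 ∨ Nat.card G = 2 ∨ Nat.card G = 3 ∨ Nat.card G = 4 ∨ Nat.card G = 5 := by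
    omega
  rcases this with e | e | e | e | e
  exacts [key 2 0 Nat.prime_two e, key 2 1 Nat.prime_two e, key 3 1 Nat.prime_three e,
    key 2 2 Nat.prime_two e, key 5 1 Nat.prime_five e]

theorem fix [CharP k 2] (hi : Function.Injective ι) {S : Subgroup G} (hS : ∀ s ∈ S, s * s = 1)
    {s0 : G} (h0 : s0 ∈ S) (h1 : s0 ≠ 1) : ∃ v : Fin 2 → k, v ≠ 0 ∧ ∀ s ∈ S, mt ι s *ᵥ v = v := by
  have two : (2 : k) = 0 := CharTwo.two_eq_zero
  obtain ⟨u, hu⟩ : ∃ u : Fin 2 → k, mt ι s0 *ᵥ u - u ≠ 0 := by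
    by_contra hc
    have hc' : ∀ u : Fin 2 → k, mt ι s0 *ᵥ u = mt ι 1 *ᵥ u := fun u => by
      rw [mt_one, ← sub_eq_zero]
      by_contra h
      exact hc ⟨u, h⟩
    exact h1 (eq_of hi (v := ![1, 0]) (w := ![0, 1]) (by simp [cr]) (hc' _) (hc' _))
  have f0 : mt ι s0 *ᵥ (mt ι s0 *ᵥ u - u) = mt ι s0 *ᵥ u - u := by
    rw [mulVec_sub, ← mt_mul, hS s0 h0, mt_one]
    funext i
    simp only [Pi.sub_apply]
    linear_combination (u i - (mt ι s0 *ᵥ u) i) * two
  generalize mt ι s0 *ᵥ u - u = v at hu f0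
  refine ⟨v, hu, fun s hs => ?_⟩
  have cm : s0 * s = s * s0 := by
    have e1 := hS _ (S.mul_mem h0 hs)
    calc s0 * s = s * s * (s0 * s) * (s0 * s0) := by rw [hS s hs, hS s0 h0, one_mul, mul_one]
      _ = s * (s * s0 * s * s0) * s0 := by group
      _ = s * s0 := by
        have e2 := hS _ (S.mul_mem hs h0)
        rw [show s * s0 * s * s0 = s * s0 * (s * s0) by group, e2, mul_one]
  have hc : cr v (mt ι s *ᵥ v) = 0 := by
    by_contra hc
    exact h1 (eq_of hi hc (by rw [f0, mt_one]) (by rw [← mt_mul, cm, mt_mul, f0, mt_one]))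
  obtain ⟨a, ha⟩ := par hu hc
  have e : (a * a) • v = (1 : k) • v := by
    rw [← smul_smul, ← ha, ← mulVec_smul, ← ha, ← mt_mul, hS s hs, mt_one, one_smul]
  have e1 : a * a = 1 := smul_left_injective k hu e
  have e2 : (a - 1) ^ 2 = 0 := by linear_combination e1 + (1 - a) * two
  rw [ha, sub_eq_zero.1 (pow_eq_zero_iff two_ne_zero |>.1 e2), one_smul]

theorem gt : GT := by
  intro G _ _ k _ _ ι hi hG
  refine ⟨six hG, fun S hS => ?_⟩
  by_cases hb : S = ⊥
  · have := six hG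
    rw [hb, Subgroup.card_bot]
    omega
  obtain ⟨⟨s0, h0⟩, h1⟩ := Subgroup.ne_bot_iff_exists_ne_one.1 hb
  obtain ⟨v, hv, hf⟩ := fix hi hS h0 fun e => h1 (Subtype.ext e)
  obtain ⟨g, hg⟩ : ∃ g, cr v (mt ι g *ᵥ v) ≠ 0 := by
    by_contra hc
    exact hG (solv hi hv fun g => by
      by_contra h
      exact hc ⟨g, h⟩)
  have no : ∀ s s' t : S, (s : G) ≠ t * g * s' := fun s s' t e => by
    have : g = (t : G)⁻¹ * s * (s' : G)⁻¹ := by rw [e]; group
    rw [this, hf _ (S.mul_mem (S.mul_mem (S.inv_mem t.2) s.2) (S.inv_mem s'.2))] at hg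
    exact hg (by unfold cr; ring)
  have := Nat.card_le_card_of_injective
    (fun x : S × Option S => x.2.elim (x.1 : G) fun t => t * g * x.1) (by
      rintro ⟨s, _ | t⟩ ⟨s', _ | t'⟩ e
      · exact Prod.ext (Subtype.ext e) rfl
      · exact absurd e (no _ _ _)
      · exact absurd e.symm (no _ _ _)
      · have e : (t : G) * g * s = t' * g * s' := e
        have e1 := congrArg (fun x => mt ι x *ᵥ v) e
        simp only [mt_mul, hf _ s.2, hf _ s'.2] at e1
        have e2 : (t : G) = t' := eq_of hi hg (by rw [hf _ t.2, hf _ t'.2]) e1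
        rw [e2] at e
        exact Prod.ext (Subtype.ext (mul_left_cancel e)) (congrArg some (Subtype.ext e2)))
  rwa [Nat.card_prod, Finite.card_option] at this

end Vale.Agent.P022T.H13
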