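import Vale.Agent.P022T.Defs

/-!
# P022T: many Sylow groups
-/

set_option linter.all false

open Matrix

namespace Vale.Agent.P022T.H27

variable {k : Type} [Field k]

/-- the determinant of two vectors -/
def dt (v w : Fin 2 → k) : k := v 0 * w 1 - v 1 * w 0

theorem prop {v w : Fin 2 → k} (hv : v ≠ 0) (h : dt v w = 0) : ∃ c : k, w = c • v := by
  rw [dt] at h
  by_cases h0 : v 0 = 0
  · have h1 : v 1 ≠ 0 := fun h1 => hv (by ext i; fin_cases i <;> simp [h0, h1])
    refine ⟨w 1 / v 1, ?_⟩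
    ext i
    fin_cases i
    · have : w 0 = 0 := by
        rw [h0, zero_mul, zero_sub, neg_eq_zero] at h
        exact (mul_eq_zero.1 h).resolve_left h1
      simp [h0, this]
    · simp [h1]
  · refine ⟨w 0 / v 0, ?_⟩
    ext i
    fin_cases i
    · simp [h0]
    · simp only [Fin.mk_one, Fin.isValue, Pi.smul_apply, smul_eq_mul]
      field_simp
      linear_combination h

theorem zero_of {N : Matrix (Fin 2) (Fin 2) k} {v w : Fin 2 → k} (h : dt v w ≠ 0)
    (h1 : N *ᵥ v = 0) (h2 : N *ᵥ w = 0) : N = 0 := by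
  rw [dt] at h
  ext i j
  have a := congrFun h1 i
  have b := congrFun h2 i
  simp only [mulVec, dotProduct, Fin.sum_univ_two, Pi.zero_apply] at a b
  refine (mul_eq_zero.1 (?_ : N i j * (v 0 * w 1 - v 1 * w 0) = 0)).resolve_right h
  fin_cases j
  · simp only [Fin.zero_eta, Fin.isValue]
    linear_combination w 1 * a - v 1 * b
  · simp only [Fin.mk_one, Fin.isValue]
    linear_combination v 0 * b - w 0 * a

theorem comm {G : Type} [Group G] {S : Subgroup G} (h : ∀ s ∈ S, s * s = 1) {a b : G}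
    (ha : a ∈ S) (hb : b ∈ S) : a * b = b * a := by
  have i : ∀ s ∈ S, s⁻¹ = s := fun s hs => inv_eq_of_mul_eq_one_right (h s hs)
  rw [← i _ (S.mul_mem ha hb), _root_.mul_inv_rev, i a ha, i b hb]

section
variable {G : Type} [Group G] (ι : G →* GL (Fin 2) k)

/-- the matrix -/
def mt (g : G) : Matrix (Fin 2) (Fin 2) k := ι g

theorem mt_mul (a b : G) : mt ι (a * b) = mt ι a * mt ι b := by rw [mt, map_mul]; rfl

theorem mt_one : mt ι 1 = 1 := by rw [mt, map_one]; rfl

theorem act (a b : G) (v : Fin 2 → k) : mt ι (a * b) *ᵥ v = mt ι a *ᵥ (mt ι b *ᵥ v) := by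
  rw [mt_mul, mulVec_mulVec]

theorem eq_one (hι : Function.Injective ι) {g : G} (h : mt ι g = 1) : g = 1 :=
  hι (Units.ext (h.trans (mt_one ι).symm))

variable [CharP k 2]

/-- the fixed vector -/
theorem fix (hι : Function.Injective ι) {S : Subgroup G} (h : ∀ s ∈ S, s * s = 1) :
    ∃ v : Fin 2 → k, v ≠ 0 ∧ ∀ s ∈ S, mt ι s *ᵥ v = v := by
  have two : (2 : k) = 0 := CharP.cast_eq_zero k 2
  by_cases c : ∀ s ∈ S, s = 1
  · exact ⟨fun _ => 1, fun e => one_ne_zero (congrFun e 0), fun s hs => by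
      rw [c s hs, mt_one, one_mulVec]⟩
  push Not at c
  obtain ⟨s, hs, s1⟩ := c
  have n0 : mt ι s - 1 ≠ 0 := fun e => s1 (eq_one ι hι (sub_eq_zero.1 e))
  obtain ⟨w, hw⟩ : ∃ w, (mt ι s - 1) *ᵥ w ≠ 0 := by
    by_contra k'
    push Not at k'
    exact n0 (zero_of (v := ![1, 0]) (w := ![0, 1]) (by simp [dt]) (k' _) (k' _))
  have a1 : mt ι s *ᵥ (mt ι s *ᵥ w) = w := by rw [← act, h s hs, mt_one, one_mulVec]
  have neg : ∀ u : Fin 2 → k, -u = u := fun u => funext fun i => CharTwo.neg_eq _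
  have a2 : mt ι s *ᵥ ((mt ι s - 1) *ᵥ w) = (mt ι s - 1) *ᵥ w := by
    rw [sub_mulVec, one_mulVec, mulVec_sub, a1, ← neg_sub, neg]
  generalize (mt ι s - 1) *ᵥ w = v at hw a2
  refine ⟨v, hw, fun t ht => ?_⟩
  have a3 : dt v (mt ι t *ᵥ v) = 0 := by
    by_contra k'
    refine n0 (zero_of k' ?_ ?_)
    · rw [sub_mulVec, one_mulVec, a2, sub_self]
    · rw [sub_mulVec, one_mulVec, ← act, comm h hs ht, act, a2, sub_self]
  obtain ⟨c, hc⟩ := prop hw a3
  have a4 : (c * c) • v = (1 : k) • v := by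
    rw [mul_smul, ← hc, ← mulVec_smul, ← hc, ← act, h t ht, mt_one, one_mulVec, one_smul]
  have a5 : c * c = 1 := smul_left_injective k hw a4
  have a6 : c = 1 := by
    have : (c - 1) ^ 2 = 0 := by linear_combination a5 + (1 - c) * two
    exact sub_eq_zero.1 (pow_eq_zero_iff two_ne_zero |>.1 this)
  rw [hc, a6, one_smul]

/-- a stable line gives a solvable group -/
theorem solv (hι : Function.Injective ι) {v : Fin 2 → k} (hv : v ≠ 0)
    (h : ∀ g, dt v (mt ι g *ᵥ v) = 0) : Group.IsSolvable G := by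
  have two : (2 : k) = 0 := CharP.cast_eq_zero k 2
  let K : Subgroup G :=
    { carrier := {g | mt ι g *ᵥ v = v ∧ (mt ι g).det = 1}
      one_mem' := ⟨by rw [mt_one, one_mulVec], by rw [mt_one, det_one]⟩
      mul_mem' := fun {a b} ha hb => ⟨by rw [act, hb.1, ha.1], by
        rw [mt_mul, det_mul, ha.2, hb.2, one_mul]⟩
      inv_mem' := fun {a} ha => ⟨by
        conv_lhs => rw [← ha.1, ← act, inv_mul_cancel, mt_one, one_mulVec], by
        have e : (mt ι a⁻¹).det * (mt ι a).det = 1 := by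
          rw [← det_mul, ← mt_mul, inv_mul_cancel, mt_one, det_one]
        rwa [ha.2, mul_one] at e⟩ }
  have k1 : ∀ g ∈ K, g * g = 1 := fun g hg => eq_one ι hι (by
    obtain ⟨g1, g2⟩ := hg
    rw [mt_mul]
    generalize mt ι g = M at g1 g2
    have a := congrFun g1 0
    have b := congrFun g1 1
    simp only [mulVec, dotProduct, Fin.sum_univ_two] at a b
    rw [det_fin_two] at g2
    have t : M 0 0 + M 1 1 = 0 := by
      by_contra t
      apply hv
      ext i
      refine (mul_eq_zero.1 (?_ : (M 0 0 + M 1 1) * v i = 0)).resolve_left t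
      fin_cases i
      · simp only [Fin.zero_eta, Fin.isValue]
        linear_combination (1 - M 1 1) * a + M 0 1 * b + v 0 * g2 + (v 0 - M 1 1 * v 0 + M 1 1 * v 0) * two
      · simp only [Fin.mk_one, Fin.isValue]
        linear_combination (1 - M 0 0) * b + M 1 0 * a + v 1 * g2 + (v 1) * two
    ext i j
    fin_cases i <;> fin_cases j <;> simp [Matrix.mul_apply, Fin.sum_univ_two]
    · linear_combination M 0 0 * t - g2 - two
    · linear_combination M 0 1 * t
    · linear_combination M 1 0 * t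
    · linear_combination M 1 1 * t - g2 - two)
  have k2 : derivedSeries G 1 ≤ K := by
    rw [derivedSeries_succ, Subgroup.commutator_le]
    intro a _ b _
    obtain ⟨c, hc⟩ := prop hv (h a⁻¹)
    obtain ⟨d, hd⟩ := prop hv (h b⁻¹)
    refine ⟨?_, ?_⟩
    · have e : mt ι (a⁻¹ * b⁻¹) *ᵥ v = mt ι (b⁻¹ * a⁻¹) *ᵥ v := by
        rw [act, act, hc, hd, mulVec_smul, mulVec_smul, hc, hd, smul_comm]
      rw [commutatorElement_def, mul_assoc, act, e, ← act,
        show a * b * (b⁻¹ * a⁻¹) = 1 by group, mt_one, one_mulVec]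
    · have e : (mt ι (a * b * (b⁻¹ * a⁻¹))).det = 1 := by
        rw [show a * b * (b⁻¹ * a⁻¹) = 1 by group, mt_one, det_one]
      simp only [commutatorElement_def, mt_mul, det_mul] at e ⊢
      linear_combination e
  refine ⟨2, ?_⟩
  rw [derivedSeries_succ, eq_bot_iff, Subgroup.commutator_le]
  intro a ha b hb
  exact Subgroup.mem_bot.2 (commutatorElement_eq_one_iff_mul_comm.2 (comm k1 (k2 ha) (k2 hb)))

end

theorem six {G : Type} [Group G] [Finite G] (h : ¬ Group.IsSolvable G) : 6 ≤ Nat.card G := by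
  by_contra c
  have p : ∀ p n : ℕ, p.Prime → Nat.card G ≠ p ^ n := fun p n hp e => by
    haveI := Fact.mk hp
    haveI := (IsPGroup.of_card e).isNilpotent
    exact h IsNilpotent.to_isSolvable
  have := Nat.card_pos (α := G)
  have h1 := p 2 0 Nat.prime_two
  have h2 := p 2 1 Nat.prime_two
  have h3 := p 3 1 Nat.prime_three
  have h4 := p 2 2 Nat.prime_two
  have h5 := p 5 1 Nat.prime_five
  omega

theorem gtC : GT := by
  intro G _ _ k _ _ ι hι hG
  refine ⟨six hG, fun S hS => ?_⟩
  obtain ⟨v, hv, hf⟩ := fix ι hι hS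
  obtain ⟨g, hg⟩ : ∃ g, dt v (mt ι g *ᵥ v) ≠ 0 := by
    by_contra c
    push Not at c
    exact hG (solv ι hι hv c)
  have ng : g ∉ S := fun k' => hg (by rw [hf g k', dt]; ring)
  let f : S × Option S → G := fun p => p.2.elim p.1 fun s => s * g * p.1
  have inj : Function.Injective f := by
    rintro ⟨t, _ | s⟩ ⟨t', _ | s'⟩ e
    · exact Prod.ext (Subtype.ext e) rfl
    · refine absurd ?_ ng
      have e' : (t : G) = s' * g * t' := e
      rw [show g = (s' : G)⁻¹ * t * (t' : G)⁻¹ by rw [e']; group]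
      exact S.mul_mem (S.mul_mem (S.inv_mem s'.2) t.2) (S.inv_mem t'.2)
    · refine absurd ?_ ng
      have e' : (s : G) * g * t = t' := e
      rw [show g = (s : G)⁻¹ * t' * (t : G)⁻¹ by rw [← e']; group]
      exact S.mul_mem (S.mul_mem (S.inv_mem s.2) t'.2) (S.inv_mem t.2)
    · have e' : (s : G) * g * t = s' * g * t' := e
      have e2 : (s' : G)⁻¹ * s * g = g * (t' * (t : G)⁻¹) := by
        rw [mul_assoc, show (s : G) * g = s' * g * t' * (t : G)⁻¹ by rw [← e']; group]
        group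
      have u : (s' : G)⁻¹ * s = 1 := eq_one ι hι (sub_eq_zero.1 (zero_of hg (by
        rw [sub_mulVec, one_mulVec, hf _ (S.mul_mem (S.inv_mem s'.2) s.2), sub_self]) (by
        rw [sub_mulVec, one_mulVec, ← act, e2, act, hf _ (S.mul_mem t'.2 (S.inv_mem t.2)),
          sub_self])))
      have u' : s = s' := Subtype.ext (inv_mul_eq_one.1 u).symm
      subst u'
      exact Prod.ext (Subtype.ext (mul_left_cancel e')) rfl
  have := Nat.card_le_card_of_injective f inj
  rwa [Nat.card_prod, Finite.card_option] at this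

end Vale.Agent.P022T.H27
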