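import Vale.Agent.P022T.Defs

/-!
# P022T: many Sylow groups
-/

set_option linter.all false

open Matrix
open scoped commutatorElement

noncomputable section

namespace Vale.Agent.P022T.H35

variable {k : Type} [Field k]

/-- the determinant of two vectors -/
def D (v u : Fin 2 → k) : k := v 0 * u 1 - v 1 * u 0

theorem zero_of {M : Matrix (Fin 2) (Fin 2) k} {v u : Fin 2 → k} (h1 : M *ᵥ v = 0) (h2 : M *ᵥ u = 0)
    (h : D v u ≠ 0) : M = 0 := by
  refine Matrix.ext fun i j => mul_left_cancel₀ h ?_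
  have a := congrFun h1 i
  have b := congrFun h2 i
  simp only [mulVec, dotProduct, Fin.sum_univ_two, Pi.zero_apply] at a b
  rw [Matrix.zero_apply, mul_zero, D]
  fin_cases j
  · simp only [Fin.zero_eta]
    linear_combination u 1 * a - v 1 * b
  · simp only [Fin.mk_one]
    linear_combination v 0 * b - u 0 * a

theorem par {v u : Fin 2 → k} (hv : v ≠ 0) (h : D v u = 0) : ∃ c : k, u = c • v := by
  rw [D] at h
  by_cases h0 : v 0 = 0
  · have h1 : v 1 ≠ 0 := fun e => hv (funext fun i => by fin_cases i <;> assumption)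
    refine ⟨u 1 / v 1, funext fun i => ?_⟩
    fin_cases i
    · have : v 1 * u 0 = 0 := by rw [h0] at h; linear_combination -h
      simp [h0, (mul_eq_zero.1 this).resolve_left h1]
    · simp [h1]
  · refine ⟨u 0 / v 0, funext fun i => ?_⟩
    fin_cases i
    · simp [h0]
    · simp only [Fin.mk_one, Pi.smul_apply, smul_eq_mul]
      field_simp
      linear_combination h

theorem D_mul (M : Matrix (Fin 2) (Fin 2) k) (v u : Fin 2 → k) :
    D (M *ᵥ v) (M *ᵥ u) = M.det * D v u := by
  simp only [D, mulVec, dotProduct, Fin.sum_univ_two, det_fin_two]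
  ring

variable {G : Type} [Group G] (f : G →* Matrix (Fin 2) (Fin 2) k)

/-- the elements which fix a vector and have determinant one -/
def Kv (v : Fin 2 → k) : Subgroup G where
  carrier := {g | f g *ᵥ v = v ∧ (f g).det = 1}
  one_mem' := ⟨by rw [map_one, one_mulVec], by rw [map_one, det_one]⟩
  mul_mem' := fun {a b} ha hb => ⟨by rw [map_mul, ← mulVec_mulVec, hb.1, ha.1],
    by rw [map_mul, det_mul, ha.2, hb.2, one_mul]⟩
  inv_mem' := fun {a} ha => ⟨by
      conv_lhs => rw [← ha.1]
      rw [mulVec_mulVec, ← map_mul, inv_mul_cancel, map_one, one_mulVec], by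
      have := congrArg det (map_mul f a⁻¹ a)
      rwa [inv_mul_cancel, map_one, det_one, det_mul, ha.2, mul_one, eq_comm] at this⟩

theorem solv (hf : Function.Injective f) {v : Fin 2 → k} (hv : v ≠ 0)
    (h : ∀ g, D v (f g *ᵥ v) = 0) : Group.IsSolvable G := by
  have z : ∀ g ∈ Kv f v, ∀ g' ∈ Kv f v, (f g - 1) * (f g' - 1) = 0 := fun g hg g' hg' => by
    refine Matrix.ext_of_mulVec_single fun i => ?_
    have e := D_mul (f g') v (Pi.single i 1)
    rw [hg'.1, hg'.2, one_mul] at e
    obtain ⟨c, hc⟩ := par (u := (f g' - 1) *ᵥ Pi.single i 1) hv (by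
      rw [sub_mulVec, one_mulVec]
      simp only [D, Pi.sub_apply] at e ⊢
      linear_combination e)
    rw [← mulVec_mulVec, hc, mulVec_smul, sub_mulVec, one_mulVec, hg.1, sub_self, smul_zero,
      zero_mulVec]
  have k1 : derivedSeries G 1 ≤ Kv f v := by
    rw [derivedSeries_succ, Subgroup.commutator_le]
    intro g _ g' _
    obtain ⟨a, ha⟩ := par hv (h g)
    obtain ⟨b, hb⟩ := par hv (h g')
    have e : ⁅g, g'⁆ * (g' * g) = g * g' := by rw [commutatorElement_def]; group
    have n : ∀ x (c : k), f x *ᵥ v = c • v → c ≠ 0 := fun x c hc e0 => hv (by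
      have := congrArg (f x⁻¹ *ᵥ ·) hc
      simpa only [mulVec_mulVec, ← map_mul, inv_mul_cancel, map_one, one_mulVec, e0, zero_smul,
        mulVec_zero] using this)
    constructor
    · have := congrArg (fun x => f x *ᵥ v) e
      simp only [map_mul, ← mulVec_mulVec, ha, hb, mulVec_smul, smul_smul] at this
      rw [mul_comm b a] at this
      exact smul_right_injective _ (mul_ne_zero (n _ _ ha) (n _ _ hb)) this
    · have := congrArg (fun x => (f x).det) e
      simp only [map_mul, det_mul] at this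
      have u : ∀ x, (f x).det ≠ 0 := fun x e0 => by
        have := congrArg det (map_mul f x⁻¹ x)
        rw [inv_mul_cancel, map_one, det_one, det_mul, e0, mul_zero] at this
        exact one_ne_zero this
      exact mul_right_cancel₀ (mul_ne_zero (u g') (u g)) (by rw [this, one_mul, mul_comm])
  refine ⟨⟨2, le_bot_iff.1 ?_⟩⟩
  rw [derivedSeries_succ, Subgroup.commutator_le]
  intro g hg g' hg'
  rw [Subgroup.mem_bot, commutatorElement_eq_one_iff_mul_comm]
  refine hf ?_
  have a := z g (k1 hg) g' (k1 hg')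
  have b := z g' (k1 hg') g (k1 hg)
  rw [map_mul, map_mul, ← sub_eq_zero, ← sub_self (0 : Matrix (Fin 2) (Fin 2) k)]
  conv_rhs => rw [← a]; enter [2]; rw [a, ← b]
  noncomm_ring

theorem six [Finite G] (h : ¬ Group.IsSolvable G) : 6 ≤ Nat.card G := by
  by_contra c
  have p : ∀ (p n : ℕ) [Fact p.Prime], Nat.card G ≠ p ^ n := fun p n _ e => h (by
    haveI := (IsPGroup.of_card e).isNilpotent
    infer_instance)
  haveI : Fact (Nat.Prime 5) := ⟨by norm_num⟩
  have h0 := Nat.card_pos (α := G)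
  have a := p 2 0
  have b := p 2 1
  have d := p 3 1
  have e := p 2 2
  have g := p 5 1
  omega

theorem fixed [CharP k 2] (hf : Function.Injective f) (S : Subgroup G) (hS : ∀ s ∈ S, s * s = 1)
    {s0 : G} (h0 : s0 ∈ S) (h1 : s0 ≠ 1) : ∃ v : Fin 2 → k, v ≠ 0 ∧ ∀ s ∈ S, f s *ᵥ v = v := by
  have t : ∀ M : Matrix (Fin 2) (Fin 2) k, M + M = 0 := fun M =>
    Matrix.ext fun i j => CharTwo.add_self_eq_zero (M i j)
  have sq : ∀ s ∈ S, (f s - 1) * (f s - 1) = 0 := fun s hs => by
    have e : f s * f s = 1 := by rw [← map_mul, hS s hs, map_one]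
    calc (f s - 1) * (f s - 1) = f s * f s - 1 - (f s + f s) + (1 + 1) := by noncomm_ring
      _ = 0 := by rw [e, t, t]; simp
  have n0 : f s0 - 1 ≠ 0 := fun e => h1 (hf (by rw [map_one, ← sub_eq_zero, e]))
  obtain ⟨i, hi⟩ : ∃ i, (f s0 - 1) *ᵥ Pi.single i 1 ≠ 0 := by
    by_contra c
    exact n0 (Matrix.ext_of_mulVec_single fun i => by
      rw [zero_mulVec]; exact not_not.1 fun e => c ⟨i, e⟩)
  refine ⟨_, hi, fun s hs => ?_⟩
  have cm : s0 * s = s * s0 := by
    have a := hS _ (S.mul_mem h0 hs)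
    have b := hS _ h0
    have c := hS _ hs
    calc s0 * s = s0 * (s0 * s * (s0 * s)) * s := by rw [a, mul_one]
      _ = s0 * s0 * (s * s0) * (s * s) := by group
      _ = s * s0 := by rw [b, c, one_mul, mul_one]
  have cm' : (f s0 - 1) * (f s - 1) = (f s - 1) * (f s0 - 1) := by
    have := congrArg f cm
    rw [map_mul, map_mul] at this
    calc (f s0 - 1) * (f s - 1) = f s0 * f s - f s0 - f s + 1 := by noncomm_ring
      _ = _ := by rw [this]; noncomm_ring
  set v := (f s0 - 1) *ᵥ Pi.single i 1 with hv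
  have a1 : (f s0 - 1) *ᵥ v = 0 := by rw [hv, mulVec_mulVec, sq s0 h0, zero_mulVec]
  have a2 : (f s0 - 1) *ᵥ ((f s - 1) *ᵥ v) = 0 := by
    rw [mulVec_mulVec, cm', ← mulVec_mulVec, a1, mulVec_zero]
  obtain ⟨c, hc⟩ := par hi (not_not.1 fun e => n0 (zero_of a1 a2 e))
  have a3 : (c * c) • v = 0 := by
    rw [← smul_smul, ← hc, ← mulVec_smul, ← hc, mulVec_mulVec, sq s hs, zero_mulVec]
  rw [mul_self_eq_zero.1 ((smul_eq_zero.1 a3).resolve_right hi), zero_smul, sub_mulVec, one_mulVec,
    sub_eq_zero] at hc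
  exact hc

theorem gtC : GT := by
  intro G _ _ k _ _ ι hι h
  refine ⟨six h, fun S hS => ?_⟩
  by_cases c : ∀ s ∈ S, s = 1
  · rw [(Subgroup.eq_bot_iff_forall S).2 c, Subgroup.card_bot]
    have := six h
    omega
  obtain ⟨s0, c⟩ := not_forall.1 c
  obtain ⟨h0, h1⟩ := Classical.not_imp.1 c
  let f : G →* Matrix (Fin 2) (Fin 2) k := (Units.coeHom _).comp ι
  have hf : Function.Injective f := Units.val_injective.comp hι
  obtain ⟨v, hv, hw⟩ := fixed f hf S hS h0 h1
  obtain ⟨g, hg⟩ := not_forall.1 fun e => h (solv f hf hv e)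
  have ng : g ∉ S := fun e => hg (by rw [hw g e, D, mul_comm, sub_self])
  have inj : Function.Injective (Sum.elim (fun p : S × S => (p.1 : G) * g * p.2)
      fun b : S => (b : G)) := by
    rintro (⟨a, b⟩ | a) (⟨a', b'⟩ | a') e
    · change (a : G) * g * b = a' * g * b' at e
      have e1 : (a' : G)⁻¹ * a * g = g * (b' * (b : G)⁻¹) := by
        rw [mul_assoc, inv_mul_eq_iff_eq_mul, ← mul_assoc, ← mul_assoc, ← e, mul_inv_cancel_right]
      have m := S.mul_mem (S.inv_mem a'.2) a.2
      have e2 : f ((a' : G)⁻¹ * a) - 1 = 0 := zero_of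
        (by rw [sub_mulVec, one_mulVec, hw _ m, sub_self]) (by
          rw [sub_mulVec, one_mulVec, mulVec_mulVec, ← map_mul, e1, map_mul, ← mulVec_mulVec,
            hw _ (S.mul_mem b'.2 (S.inv_mem b.2)), sub_self]) hg
      have e3 : a' = a :=
        Subtype.ext (inv_mul_eq_one.1 (hf (by rw [map_one, ← sub_eq_zero, e2])))
      subst e3
      rw [Subtype.ext (mul_left_cancel e)]
    · change (a : G) * g * b = a' at e
      exact absurd ((S.mul_mem_cancel_left a.2).1 ((S.mul_mem_cancel_right b.2).1 (e ▸ a'.2))) ng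
    · change (a : G) = a' * g * b' at e
      exact absurd ((S.mul_mem_cancel_left a'.2).1 ((S.mul_mem_cancel_right b'.2).1 (e ▸ a.2))) ng
    · exact congrArg _ (Subtype.ext e)
  have := Nat.card_le_card_of_injective _ inj
  rwa [Nat.card_sum, Nat.card_prod, ← mul_add_one] at this

end Vale.Agent.P022T.H35
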