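import Vale.Agent.P022T.Defs
import Vale.Agent.P022.H916.Fld

/-!
# P022T: from finite extensions to the absolute Galois group
-/

set_option linter.all false

open NumberField Polynomial

noncomputable section

namespace Vale.Agent.P022T.H30

open Vale.Agent.P022

/-- a non-zero prime ideal of a ring of integers contains a prime number -/
lemma exists_prime {K : Type} [Field K] [NumberField K] (P : Ideal (𝓞 K)) (hP : P.IsPrime)
    (h0 : P ≠ ⊥) : ∃ p : ℕ, p.Prime ∧ (p : 𝓞 K) ∈ P := by
  have h1 : ((Ideal.absNorm P : ℕ) : 𝓞 K) ∈ P := Ideal.absNorm_mem P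
  have h2 : Ideal.absNorm P ≠ 0 := by
    rwa [Ne, Ideal.absNorm_eq_zero_iff]
  generalize Ideal.absNorm P = n at h1 h2
  induction n using Nat.recOnMul with
  | zero => exact absurd rfl h2
  | one => exact absurd ((Ideal.eq_top_iff_one P).2 (by simpa using h1)) hP.ne_top
  | prime p hp => exact ⟨p, hp, h1⟩
  | mul a b ha hb =>
    rw [Nat.cast_mul] at h1
    rcases hP.mem_or_mem h1 with h | h
    · exact ha h (fun e => h2 (by rw [e, zero_mul]))
    · exact hb h (fun e => h2 (by rw [e, mul_zero]))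

theorem infC (h : T0) : TATE := by
  intro k _ _ ρ hop hun
  let j : ℚ →+* Qb := algebraMap ℚ Qb
  have hj : ∀ g : GQ, g ∈ GK j := fun g x => g.commutes x
  have hU : IsOpen ((ρ.ker : Subgroup GQ) : Set GQ) := hop
  obtain ⟨L, _, _, alg, gal, jL, q, D, -, hker⟩ :=
    H916.exists_fld j ρ.ker hU (fun g _ => hj g)
      (fun g _ u hu => (inferInstance : ρ.ker.Normal).conj_mem u hu g)
  have e : alg = DivisionRing.toRatAlgebra := Subsingleton.elim _ _
  subst e
  let ρ' : GK j →* GL (Fin 2) k := ρ.comp (GK j).subtype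
  have hle : q.ker ≤ ρ'.ker := fun g hg => (hker g).1 hg
  let ι : Ga L →* GL (Fin 2) k :=
    q.liftOfRightInverse (Function.surjInv D.surj) (Function.rightInverse_surjInv D.surj) ⟨ρ', hle⟩
  have hι : ∀ g : GK j, ι (q g) = ρ g := fun g =>
    q.liftOfRightInverse_comp_apply _ _ ⟨ρ', hle⟩ g
  have hinj : Function.Injective ι := by
    rw [injective_iff_map_eq_one]
    intro s hs
    obtain ⟨g, rfl⟩ := D.surj s
    rw [hι] at hs
    exact (hker g).2 hs
  have hs : Group.IsSolvable (Ga L) := by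
    refine h L k ι hinj ?_
    intro P hP h0 h2 s hs
    obtain ⟨p, hp, hpP⟩ := exists_prime P hP h0
    have hp2 : p ≠ 2 := by
      rintro rfl
      exact h2 (by simpa using hpP)
    obtain ⟨Q, hQ, rfl⟩ := H916.exists_above jL P hP
    obtain ⟨g, rfl, hg⟩ := D.inertia_lift hQ hs
    refine (hker g).2 (hun p hp hp2 Q hQ ?_ g hg)
    have h3 : RingOfIntegers.mapRingHom jL (p : 𝓞 L) ∈ Q := hpP
    rwa [map_natCast] at h3
  let f : Ga L →* ρ.range := ι.codRestrict ρ.range (fun s => by
    obtain ⟨g, rfl⟩ := D.surj s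
    exact ⟨g, (hι g).symm⟩)
  have hf : Function.Surjective f := by
    rintro ⟨_, g, rfl⟩
    exact ⟨q ⟨g, hj g⟩, Subtype.ext (hι ⟨g, hj g⟩)⟩
  exact solvable_of_surjective hf

end Vale.Agent.P022T.H30
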