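import Vale.Agent.P022T.Defs
import Vale.Agent.P022.H916.Fld

/-!
# P022T: from a finite extension to the absolute Galois group
-/

set_option linter.all false

open NumberField Polynomial

noncomputable section

namespace Vale.Agent.P022T.H98

open Vale.Agent.P022 Vale.Agent.P022.H916

lemma exPrime {L : Type} [Field L] [NumberField L] (P : Ideal (𝓞 L)) (hP : P.IsPrime)
    (h0 : P ≠ ⊥) : ∃ p : ℕ, p.Prime ∧ (p : 𝓞 L) ∈ P := by
  have h1 : (Ideal.absNorm P : 𝓞 L) ∈ P := Ideal.absNorm_mem P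
  have h2 : Ideal.absNorm P ≠ 0 := fun h => h0 (Ideal.absNorm_eq_zero_iff.1 h)
  have key : ∀ n : ℕ, n ≠ 0 → (n : 𝓞 L) ∈ P → ∃ p : ℕ, p.Prime ∧ (p : 𝓞 L) ∈ P := by
    intro n
    induction n using Nat.recOnMul with
    | zero => intro h; exact absurd rfl h
    | one =>
      intro _ h
      exact absurd ((Ideal.eq_top_iff_one _).2 (by simpa using h)) hP.ne_top
    | prime p hp => intro _ h; exact ⟨p, hp, h⟩
    | mul a b ha hb =>
      intro h0 h
      rw [Nat.cast_mul] at h
      rcases hP.mem_or_mem h with h | h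
      · exact ha (left_ne_zero_of_mul h0) h
      · exact hb (right_ne_zero_of_mul h0) h
  exact key _ h2 h1

theorem infC (hT : T0) : TATE := by
  intro k _ _ ρ hop hun
  let j : ℚ →+* Qb := algebraMap ℚ Qb
  have hall : ∀ g : GQ, g ∈ GK j := fun g x => g.commutes x
  obtain ⟨L, _, _, inst, hG, jL, π, D, -, hker⟩ := exists_fld j ρ.ker hop (fun g _ => hall g)
    (fun g _ u hu => (MonoidHom.normal_ker ρ).conj_mem u hu g)
  obtain rfl : inst = DivisionRing.toRatAlgebra := Subsingleton.elim _ _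
  let ρ' : GK j →* GL (Fin 2) k := ρ.comp (GK j).subtype
  have hle : π.ker ≤ ρ'.ker := fun g hg => (hker g).1 hg
  let ι : Ga L →* GL (Fin 2) k := π.liftOfSurjective D.surj ⟨ρ', hle⟩
  have hι : ∀ g : GK j, ι (π g) = ρ g := fun g =>
    MonoidHom.liftOfRightInverse_comp_apply π _ _ ⟨ρ', hle⟩ g
  have hinj : Function.Injective ι := (injective_iff_map_eq_one ι).2 fun s hs => by
    obtain ⟨g, rfl⟩ := D.surj s
    rw [hι] at hs
    exact (hker g).2 hs
  have hs : Group.IsSolvable (Ga L) := hT L k ι hinj (fun P hP h0 h2 s hs => by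
    obtain ⟨Q, hQ, rfl⟩ := exists_above jL P hP
    obtain ⟨p, hp, hpP⟩ := exPrime _ hP h0
    refine D.inertia_eq_bot hQ (fun g hg => (hker g).2 (hun p hp ?_ Q hQ ?_ g hg)) hs
    · rintro rfl
      exact h2 (by simpa using hpP)
    · have : RingOfIntegers.mapRingHom jL (p : 𝓞 L) ∈ Q := hpP
      rwa [map_natCast] at this)
  have hr : ρ.range = ι.range := by
    ext x
    constructor
    · rintro ⟨g, rfl⟩
      exact ⟨π ⟨g, hall g⟩, hι _⟩
    · rintro ⟨s, rfl⟩
      obtain ⟨g, rfl⟩ := D.surj s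
      exact ⟨g, (hι g).symm⟩
  rw [hr]
  exact solvable_of_surjective (f := ι.rangeRestrict) ι.rangeRestrict_surjective

end Vale.Agent.P022T.H98
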