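import Vale.Agent.P022T.Defs

/-! # P022T, row MK: the bound of Minkowski -/

set_option linter.all false

open NumberField Real

namespace Vale.Agent.P022T.H22

theorem lf (m : ℕ) : Real.log ((m + 1).factorial : ℝ) ≤
    ((m + 1 : ℕ) : ℝ) * Real.log ((m + 1 : ℕ) : ℝ) - (m + 1 : ℕ) + Real.log ((m + 1 : ℕ) : ℝ) / 2 + 1 := by
  have h : Real.log (Stirling.stirlingSeq (m + 1)) ≤ Real.log (Stirling.stirlingSeq 1) :=
    Stirling.log_stirlingSeq'_antitone (Nat.zero_le m)
  rw [Stirling.log_stirlingSeq_formula, Stirling.log_stirlingSeq_formula] at h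
  have p : (0 : ℝ) < ((m + 1 : ℕ) : ℝ) := by positivity
  rw [Real.log_mul two_ne_zero p.ne', Real.log_div p.ne' (Real.exp_pos 1).ne', Real.log_exp,
    Nat.factorial_one, Nat.cast_one, Real.log_one, mul_one, one_mul,
    Real.log_div one_ne_zero (Real.exp_pos 1).ne', Real.log_one, Real.log_exp] at h
  linarith

theorem lp : Real.log (4 / π) ≤ 0.26 := by
  have h1 : 4 / π ≤ (1.13 : ℝ) ^ 2 := by
    rw [div_le_iff₀ Real.pi_pos]
    nlinarith [Real.pi_gt_d2]
  have h2 := Real.log_le_log (by positivity) h1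
  rw [Real.log_pow] at h2
  have h3 := Real.log_le_sub_one_of_pos (show (0 : ℝ) < 1.13 by norm_num)
  push_cast at h2
  linarith

theorem lb {t n : ℝ} (ht : 2 ≤ t) (hn : t * (t + 1) ≤ n) :
    t * (2 + Real.log n) < 2 * Real.log 2 * n := by
  have p : 0 < t * (t + 1) := by positivity
  obtain ⟨u, hu, rfl⟩ : ∃ u, 1 ≤ u ∧ n = u * (t * (t + 1)) :=
    ⟨n / (t * (t + 1)), (one_le_div p).2 hn, (div_mul_cancel₀ n p.ne').symm⟩
  have t0 : 0 < t := by linarith
  have a1 := Real.log_le_sub_one_of_pos (show 0 < u by linarith)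
  have a2 := Real.log_le_sub_one_of_pos (show 0 < t / 2 by positivity)
  have a3 := Real.log_le_sub_one_of_pos (show 0 < (t + 1) / 2 ^ 2 by positivity)
  rw [Real.log_div t0.ne' two_ne_zero] at a2
  rw [Real.log_div (by positivity) (by positivity), Real.log_pow] at a3
  push_cast at a3
  rw [Real.log_mul (by positivity) p.ne', Real.log_mul t0.ne' (by positivity)]
  have L := Real.log_two_gt_d9
  have L' := Real.log_two_lt_d9
  have k1 : 1.386 * (t + 1) ≤ 2 * Real.log 2 * (t + 1) := by nlinarith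
  have k2 : 0 ≤ (u - 1) * (2 * Real.log 2 * (t + 1) - 1) :=
    mul_nonneg (by linarith) (by linarith)
  have k3 : 2 + (Real.log u + (Real.log t + Real.log (t + 1))) <
      2 * Real.log 2 * (u * (t + 1)) := by nlinarith
  have k4 := mul_lt_mul_of_pos_left k3 t0
  nlinarith

theorem mkC : MK := by
  intro K _ _ t ht h1 _
  have hd := abs_discr_ge' K
  have hr := InfinitePlace.card_add_two_mul_card_eq_rank K
  generalize InfinitePlace.nrComplexPlaces K = c at hd hr
  generalize Module.finrank ℚ K = n at *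
  have n0 : 0 < n := lt_of_lt_of_le (by positivity) h1
  obtain ⟨m, rfl⟩ : ∃ m, n = m + 1 := ⟨n - 1, by omega⟩
  have hf := lf m
  obtain ⟨s, hs⟩ : ∃ s, 5 * t - 4 = s ∧ s + 4 = 5 * t := ⟨_, rfl, by omega⟩
  rw [hs.1]
  have hs' : (s : ℝ) + 4 = 5 * t := by exact_mod_cast hs.2
  have hc : ((2 * c : ℕ) : ℝ) ≤ ((m + 1 : ℕ) : ℝ) := by exact_mod_cast (by omega : 2 * c ≤ m + 1)
  have t2 : (2 : ℝ) ≤ t := by exact_mod_cast ht
  have hb := lb t2 (n := ((m + 1 : ℕ) : ℝ)) (by exact_mod_cast h1)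
  have p : (0 : ℝ) < ((m + 1 : ℕ) : ℝ) := by positivity
  have f0 : (0 : ℝ) < ((m + 1).factorial : ℝ) := by exact_mod_cast Nat.factorial_pos _
  have e : ((|discr K| : ℤ) : ℝ) = ((discr K).natAbs : ℝ) := by
    rw [← Int.natCast_natAbs, Int.cast_natCast]
  rw [e] at hd
  have d0 : (0 : ℝ) < ((discr K).natAbs : ℝ) := lt_of_lt_of_le (by positivity) hd
  have hl := Real.log_le_log (by positivity) hd
  rw [Real.log_div (by positivity) (by positivity), Real.log_mul (by positivity) (by positivity),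
    Real.log_pow, Real.log_pow, Real.log_pow] at hl
  have q0 : 0 ≤ Real.log (4 / π) :=
    Real.log_nonneg ((one_le_div Real.pi_pos).2 Real.pi_le_four)
  have q1 := mul_le_mul hc lp q0 p.le
  have L' := Real.log_two_lt_d9
  rw [← Nat.cast_lt (α := ℝ), Nat.cast_pow, Nat.cast_pow, ← Real.log_lt_log_iff (by positivity)
    (by positivity), Real.log_pow, Real.log_pow]
  generalize ((2 * c : ℕ) : ℝ) * Real.log (4 / π) = w at hl q1
  rw [Nat.cast_mul, Nat.cast_mul] at *
  generalize ((m + 1 : ℕ) : ℝ) = x at *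
  have r1 : 1.74 * x - Real.log x - 2 ≤ Real.log ((discr K).natAbs : ℝ) := by
    push_cast at hl
    nlinarith
  have r2 := mul_le_mul_of_nonneg_left r1 (show (0 : ℝ) ≤ 2 * t by linarith)
  have r3 : t * x * Real.log 2 ≤ t * x * 0.6931471808 :=
    mul_le_mul_of_nonneg_left L'.le (by positivity)
  have r4 : 0 < t * x := by positivity
  have r5 : (s : ℝ) = 5 * t - 4 := by linarith
  push_cast
  rw [r5]
  nlinarith

end Vale.Agent.P022T.H22
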