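import Vale.Agent.P022T.Defs

/-!
# P022T: the discriminant bound of Minkowski in the form used for Tate's theorem
-/

set_option linter.all false

namespace Vale.Agent.P022T.H36

open NumberField Module Real

theorem fac_le {n : ℕ} (hn : n ≠ 0) :
    (n.factorial : ℝ) ^ 2 ≤ exp 1 ^ 2 * n * (n / exp 1) ^ (2 * n) := by
  obtain ⟨m, rfl⟩ := Nat.exists_eq_succ_of_ne_zero hn
  have h := Stirling.stirlingSeq'_antitone (Nat.zero_le m)
  simp only [Function.comp, Nat.succ_eq_add_one, zero_add, Stirling.stirlingSeq_one] at h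
  rw [Stirling.stirlingSeq] at h
  simp only [Nat.succ_eq_add_one]
  generalize hN : ((m + 1 : ℕ) : ℝ) = N at h ⊢
  have hN0 : 0 < N := by rw [← hN]; positivity
  have hp : 0 < √(2 * N) * (N / exp 1) ^ (m + 1) := by positivity
  rw [div_le_iff₀ hp] at h
  refine (pow_le_pow_left₀ (by positivity) h 2).trans (le_of_eq ?_)
  rw [mul_pow, mul_pow, div_pow (exp 1), sq_sqrt (by norm_num), sq_sqrt (by positivity), ← pow_mul,
    mul_comm (m + 1) 2]
  ring

/-- Minkowski's bound -/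
theorem mink (K : Type*) [Field K] [NumberField K] :
    (5.8 : ℝ) ^ finrank ℚ K ≤ 7.39 * finrank ℚ K * |(discr K : ℝ)| := by
  have h := abs_discr_ge' K
  have hr : 2 * InfinitePlace.nrComplexPlaces K ≤ finrank ℚ K := by
    have := InfinitePlace.card_add_two_mul_card_eq_rank K
    omega
  have hn : finrank ℚ K ≠ 0 := finrank_pos.ne'
  have hf := fac_le hn
  push_cast at h
  generalize |(discr K : ℝ)| = d at h ⊢
  generalize finrank ℚ K = n at h hr hn hf ⊢
  have hn0 : (0 : ℝ) < n := by positivity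
  have hπ := pi_pos
  have e1 := exp_one_gt_d9
  have e2 := exp_one_lt_d9
  have he : 0 < exp 1 := exp_pos 1
  have h1 : (1 : ℝ) ≤ 4 / π := by rw [le_div_iff₀ hπ]; linarith [pi_lt_d2]
  have h2 := pow_le_pow_right₀ h1 hr
  have hfac : (0 : ℝ) < n.factorial := by positivity
  have hd : 0 ≤ d := le_trans (by positivity) h
  rw [div_le_iff₀ (by positivity)] at h
  have h3 : (n : ℝ) ^ (2 * n) ≤ d * ((4 / π) ^ n * (exp 1 ^ 2 * n * (n / exp 1) ^ (2 * n))) :=
    h.trans (by gcongr)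
  have h4 : d * ((4 / π) ^ n * (exp 1 ^ 2 * n * (n / exp 1) ^ (2 * n))) =
      (n : ℝ) ^ (2 * n) * (exp 1 ^ 2 * n * d * (4 / (π * exp 1 ^ 2)) ^ n) := by
    rw [div_pow, div_pow, div_pow, mul_pow, ← pow_mul]
    field_simp
  rw [h4] at h3
  have h5 : 1 ≤ exp 1 ^ 2 * n * d * (4 / (π * exp 1 ^ 2)) ^ n :=
    le_of_mul_le_mul_left (by rwa [mul_one]) (by positivity : (0 : ℝ) < (n : ℝ) ^ (2 * n))
  have e3 : (7.389 : ℝ) < exp 1 ^ 2 := by nlinarith
  have e4 : exp 1 ^ 2 < (7.39 : ℝ) := by nlinarith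
  have h6 : (5.8 : ℝ) * (4 / (π * exp 1 ^ 2)) ≤ 1 := by
    rw [← mul_div_assoc, div_le_one (by positivity)]
    nlinarith [pi_gt_d4]
  have h7 : (5.8 : ℝ) ^ n * (4 / (π * exp 1 ^ 2)) ^ n ≤ 1 := by
    rw [← mul_pow]; exact pow_le_one₀ (by positivity) h6
  calc (5.8 : ℝ) ^ n ≤ 5.8 ^ n * (exp 1 ^ 2 * n * d * (4 / (π * exp 1 ^ 2)) ^ n) :=
        le_mul_of_one_le_right (by positivity) h5
    _ = exp 1 ^ 2 * n * d * (5.8 ^ n * (4 / (π * exp 1 ^ 2)) ^ n) := by ring
    _ ≤ exp 1 ^ 2 * n * d := mul_le_of_le_one_right (by positivity) h7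
    _ ≤ _ := by gcongr

theorem grow {q : ℝ} {n₀ : ℕ} (h0 : 0 < n₀) (h1 : (n₀ : ℝ) + 1 ≤ q * n₀) (h2 : 7.39 * n₀ < q ^ n₀)
    {n : ℕ} (hn : n₀ ≤ n) : 7.39 * n < q ^ n := by
  have hp : (0 : ℝ) < n₀ := by positivity
  have hq : 1 < q := by nlinarith
  induction n, hn using Nat.le_induction with
  | base => exact h2
  | succ n hn ih =>
    have hn' : (n₀ : ℝ) ≤ n := by exact_mod_cast hn
    have : (n : ℝ) + 1 ≤ q * n := by nlinarith
    push_cast
    rw [pow_succ]
    nlinarith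

theorem key (K : Type*) [Field K] [NumberField K] {q R : ℝ} {n₀ : ℕ} (h0 : 0 < n₀) (hR : 0 < R)
    (hq : 0 < q) (h1 : (n₀ : ℝ) + 1 ≤ q * n₀) (h2 : 7.39 * n₀ < q ^ n₀) (h3 : q * R ≤ 5.8)
    (hn : n₀ ≤ finrank ℚ K) (hd : |(discr K : ℝ)| ≤ R ^ finrank ℚ K) : False := by
  have a := grow h0 h1 h2 hn
  have b := mink K
  generalize finrank ℚ K = n at a b hd
  have c : (q * R) ^ n ≤ 5.8 ^ n := pow_le_pow_left₀ (by positivity) h3 n
  have d : 7.39 * (n : ℝ) * |(discr K : ℝ)| ≤ 7.39 * n * R ^ n := by gcongr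
  have e : 7.39 * (n : ℝ) * R ^ n < q ^ n * R ^ n := by gcongr
  rw [mul_pow] at c
  linarith

theorem root (K : Type*) [Field K] [NumberField K] {e : ℕ} (he : e ≠ 0) {R : ℝ} (hR : 0 < R)
    (h : (discr K).natAbs ^ (2 * e) ≤ 2 ^ ((5 * e - 4) * finrank ℚ K))
    (h1 : (2 : ℝ) ^ (5 * e - 4) ≤ R ^ (2 * e)) : |(discr K : ℝ)| ≤ R ^ finrank ℚ K := by
  have a : (((discr K).natAbs : ℤ) : ℝ) ^ (2 * e) ≤ 2 ^ ((5 * e - 4) * finrank ℚ K) := by
    exact_mod_cast h
  rw [Int.natCast_natAbs, Int.cast_abs, pow_mul (2 : ℝ)] at a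
  refine le_of_pow_le_pow_left₀ (n := 2 * e) (by omega) (by positivity) (a.trans ?_)
  rw [← pow_mul R, mul_comm (finrank ℚ K), pow_mul R (2 * e)]
  exact pow_le_pow_left₀ (by positivity) h1 _

theorem mkC : MK := by
  intro K _ _ t ht hn _
  by_contra hc
  have h : (discr K).natAbs ^ (2 * t) ≤ 2 ^ ((5 * t - 4) * finrank ℚ K) := by
    rw [mul_comm (5 * t - 4)]; exact not_lt.1 hc
  have he : t ≠ 0 := by omega
  rcases (by omega : t = 2 ∨ t = 3 ∨ t = 4 ∨ (5 ≤ t ∧ t ≤ 8) ∨ (9 ≤ t ∧ t ≤ 19) ∨ 20 ≤ t) with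
    rfl | rfl | rfl | ⟨a, b⟩ | ⟨a, b⟩ | a
  · exact key K (q := 2.049) (R := 2.83) (n₀ := 6) (by norm_num) (by norm_num) (by norm_num)
      (by norm_num) (by norm_num) (by norm_num) hn (root K he (by norm_num) h (by norm_num))
  · exact key K (q := 1.62) (R := 3.57) (n₀ := 12) (by norm_num) (by norm_num) (by norm_num)
      (by norm_num) (by norm_num) (by norm_num) hn (root K he (by norm_num) h (by norm_num))
  · exact key K (q := 1.45) (R := 4) (n₀ := 20) (by norm_num) (by norm_num) (by norm_num)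
      (by norm_num) (by norm_num) (by norm_num) hn (root K he (by norm_num) h (by norm_num))
  · exact key K (q := 1.218) (R := 4.76) (n₀ := 30) (by norm_num) (by norm_num) (by norm_num)
      (by norm_num) (by norm_num) (by norm_num) (le_trans (by nlinarith) hn)
      (root K he (by norm_num) h (by interval_cases t <;> norm_num))
  · exact key K (q := 1.1026) (R := 5.26) (n₀ := 72) (by norm_num) (by norm_num) (by norm_num)
      (by norm_num) (by norm_num) (by norm_num) (le_trans (by nlinarith) hn)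
      (root K he (by norm_num) h (by interval_cases t <;> norm_num))
  · refine key K (q := 1.0247) (R := 5.66) (n₀ := 400) (by norm_num) (by norm_num) (by norm_num)
      (by norm_num) ?_ (by norm_num) (le_trans (by nlinarith) hn) (root K he (by norm_num) h ?_)
    · have a : (1.6 : ℝ) ≤ 1.0247 ^ 20 := by norm_num
      have b := pow_le_pow_left₀ (by norm_num) a 20
      rw [← pow_mul] at b
      exact lt_of_lt_of_le (by norm_num) b
    · calc (2 : ℝ) ^ (5 * t - 4) ≤ 2 ^ (5 * t) := pow_le_pow_right₀ (by norm_num) (by omega)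
        _ ≤ _ := by
          rw [pow_mul, pow_mul]
          exact pow_le_pow_left₀ (by norm_num) (by norm_num) _

end Vale.Agent.P022T.H36
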