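import Vale.Agent.P022T.Defs

/-!
# P022T: the bound of Minkowski
-/

set_option linter.all false

open NumberField Nat

namespace Vale.Agent.P022T.H86

theorem small : ∀ n < 306, ∀ t < 17, 2 ≤ t → t * (t + 1) ≤ n → n < (t + 1) * (t + 2) →
    2 ^ (n * (5 * t - 4)) * (40000 ^ n * n ! ^ 2) ^ (2 * t) <
      (31415 ^ n * n ^ (2 * n)) ^ (2 * t) := by
  decide +kernel

theorem step (n : ℕ) (hn : 306 ≤ n) : 27 * (n : ℝ) ^ n ≤ 10 * ((n : ℝ) + 1) ^ n := by
  have n0 : (306 : ℝ) ≤ n := by exact_mod_cast hn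
  have p : (0 : ℝ) < n := by linarith
  have h1 : Real.exp (1 / ((n : ℝ) + 1)) ≤ (n + 1) / n := by
    have := Real.one_sub_inv_le_log_of_pos (x := ((n : ℝ) + 1) / n) (by positivity)
    rw [← Real.le_log_iff_exp_le (by positivity)]
    refine le_trans (le_of_eq ?_) this
    field_simp
    ring
  have h2 : Real.exp (1 / ((n : ℝ) + 1)) ^ n ≤ ((n + 1) / n) ^ n :=
    pow_le_pow_left₀ (Real.exp_pos _).le h1 n
  have h3 : Real.exp (1 / ((n : ℝ) + 1)) ^ n = Real.exp 1 * Real.exp (-(1 / ((n : ℝ) + 1))) := by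
    rw [← Real.exp_nat_mul, ← Real.exp_add]
    refine congrArg _ ?_
    field_simp
    ring
  have h4 := Real.add_one_le_exp (-(1 / ((n : ℝ) + 1)))
  have h5 : 1 / ((n : ℝ) + 1) ≤ 1 / 307 := one_div_le_one_div_of_le (by norm_num) (by linarith)
  have h6 := Real.exp_one_gt_d9
  have h7 : (27 / 10 : ℝ) ≤ ((n + 1) / n) ^ n := by
    refine le_trans ?_ (h3 ▸ h2)
    have : (306 / 307 : ℝ) ≤ Real.exp (-(1 / ((n : ℝ) + 1))) := by linarith
    calc (27 / 10 : ℝ) ≤ 2.7182818283 * (306 / 307) := by norm_num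
      _ ≤ _ := mul_le_mul h6.le this (by norm_num) (Real.exp_pos _).le
  rw [div_pow, div_le_div_iff₀ (by norm_num) (by positivity)] at h7
  linarith

theorem big (n : ℕ) (hn : 306 ≤ n) :
    32 ^ n * (40000 ^ n * n ! ^ 2) ^ 2 < (31415 ^ n * n ^ (2 * n)) ^ 2 := by
  induction n, hn using Nat.le_induction with
  | base => decide +kernel
  | succ n hn ih =>
    have s : 27 * n ^ n ≤ 10 * (n + 1) ^ n := by exact_mod_cast step n hn
    have s4 := Nat.pow_le_pow_left s 4
    have e1 : 32 ^ (n + 1) * (40000 ^ (n + 1) * (n + 1)! ^ 2) ^ 2 =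
        (32 * 40000 ^ 2 * (n + 1) ^ 4) * (32 ^ n * (40000 ^ n * n ! ^ 2) ^ 2) := by
      rw [Nat.factorial_succ]; ring
    have e2 : (31415 ^ (n + 1) * (n + 1) ^ (2 * (n + 1))) ^ 2 =
        ((n + 1) ^ 4 * (31415 ^ n) ^ 2) * (31415 ^ 2 * ((n + 1) ^ n) ^ 4) := by
      have : ∀ m : ℕ, (31415 ^ (n + 1) * m ^ (2 * (n + 1))) ^ 2 =
        (m ^ 4 * (31415 ^ n) ^ 2) * (31415 ^ 2 * (m ^ n) ^ 4) := fun m => by ring
      exact this _
    have e3 : (32 * 40000 ^ 2 * (n + 1) ^ 4) * (31415 ^ n * n ^ (2 * n)) ^ 2 =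
        ((n + 1) ^ 4 * (31415 ^ n) ^ 2) * (32 * 40000 ^ 2 * (n ^ n) ^ 4) := by
      generalize n + 1 = m
      ring
    rw [e1, e2]
    refine lt_of_lt_of_le (Nat.mul_lt_mul_of_pos_left ih (by positivity)) ?_
    rw [e3]
    refine Nat.mul_le_mul_left _ ?_
    rw [mul_pow, mul_pow] at s4
    generalize (n ^ n) ^ 4 = a at *
    generalize ((n + 1) ^ n) ^ 4 = b at *
    omega

theorem disc (K : Type) [Field K] [NumberField K] :
    31415 ^ Module.finrank ℚ K * Module.finrank ℚ K ^ (2 * Module.finrank ℚ K) ≤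
      (discr K).natAbs * (40000 ^ Module.finrank ℚ K * (Module.finrank ℚ K)! ^ 2) := by
  have h := abs_discr_ge' K
  have r := InfinitePlace.card_add_two_mul_card_eq_rank K
  generalize Module.finrank ℚ K = n at h r ⊢
  have pi := Real.pi_gt_d4
  have p4 := Real.pi_le_four
  have p0 := Real.pi_pos
  have a1 : (4 / Real.pi) ^ (2 * InfinitePlace.nrComplexPlaces K) ≤ (40000 / 31415 : ℝ) ^ n :=
    (pow_le_pow_right₀ ((one_le_div p0).2 p4) (by omega)).trans
      (pow_le_pow_left₀ (by positivity) (by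
        rw [div_le_div_iff₀ p0 (by norm_num)]; linarith) n)
  have f0 : (0 : ℝ) < (n ! : ℝ) := by exact_mod_cast Nat.factorial_pos n
  rw [div_le_iff₀ (by positivity)] at h
  have e : ((discr K).natAbs : ℝ) = ((|discr K| : ℤ) : ℝ) := by
    rw [← Int.natCast_natAbs, Int.cast_natCast]
  rw [← e] at h
  have h2 : (n : ℝ) ^ (2 * n) ≤ (discr K).natAbs * ((40000 / 31415 : ℝ) ^ n * (n ! : ℝ) ^ 2) :=
    h.trans (mul_le_mul_of_nonneg_left (mul_le_mul_of_nonneg_right a1 (by positivity))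
      (by positivity))
  rw [div_pow, div_mul_eq_mul_div, ← mul_div_assoc, le_div_iff₀ (by positivity), mul_comm] at h2
  exact_mod_cast h2

theorem mkC : MK := by
  intro K _ _ t h2 h3 h4
  have d := disc K
  generalize Module.finrank ℚ K = n at h3 h4 d ⊢
  generalize (discr K).natAbs = D at d ⊢
  have k : 2 ^ (n * (5 * t - 4)) * (40000 ^ n * n ! ^ 2) ^ (2 * t) <
      (31415 ^ n * n ^ (2 * n)) ^ (2 * t) := by
    by_cases hn : n < 306
    · refine small n hn t ?_ h2 h3 h4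
      by_contra c
      have : 17 * 18 ≤ t * (t + 1) := Nat.mul_le_mul (by omega) (by omega)
      omega
    · have b := Nat.pow_lt_pow_left (big n (by omega)) (show t ≠ 0 by omega)
      rw [mul_pow, ← pow_mul, ← pow_mul, ← pow_mul] at b
      refine lt_of_le_of_lt (Nat.mul_le_mul_right _ ?_) b
      rw [show 32 = 2 ^ 5 by norm_num, ← pow_mul]
      refine Nat.pow_le_pow_right (by norm_num) ?_
      calc n * (5 * t - 4) ≤ n * (5 * t) := Nat.mul_le_mul_left _ (Nat.sub_le _ _)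
        _ = 5 * (n * t) := by ring
  have k2 := k.trans_le (Nat.pow_le_pow_left d (2 * t))
  rw [mul_pow D] at k2
  exact Nat.lt_of_mul_lt_mul_right k2

end Vale.Agent.P022T.H86
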