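import Vale.Agent.P022T.Defs

/-!
# P022T: a representation unramified outside two has a residual representation with solvable image
-/

set_option linter.all false

noncomputable section

namespace Vale.Agent.P022T.H1

open Vale.Agent.P022

theorem exOne (hT : TATE) (hR : RES) (E : Type) [NontriviallyNormedField E]
    [NormedAlgebra ℚ_[2] E] [FiniteDimensional ℚ_[2] E]
    (r : (AlgebraicClosure ℚ ≃ₐ[ℚ] AlgebraicClosure ℚ) →* GL (Fin 2) E) (hc : Continuous r)
    (hu : ∀ p : ℕ, p.Prime → p ≠ 2 → St.UnrAt r p) :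
    ∃ (k : Type) (_ : Field k) (_ : CharP k 2) (_ : Finite k)
      (ρ : (AlgebraicClosure ℚ ≃ₐ[ℚ] AlgebraicClosure ℚ) →* GL (Fin 2) k),
      St.IsRes r ρ ∧ Group.IsSolvable ρ.range := by
  obtain ⟨k, i1, i2, i3, ρ, hr, ho, h1⟩ := hR E r hc
  refine ⟨k, i1, i2, i3, ρ, hr, hT k ρ ho fun p hp h2 => ?_⟩
  intro P hP hpP g hg
  exact h1 g (hu p hp h2 P hP hpP g hg)

end Vale.Agent.P022T.H1
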