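import Vale.Agent.P022T.Defs

/-!
# P022T: a good generator
-/

set_option linter.all false

open NumberField Polynomial

noncomputable section

namespace Vale.Agent.P022T.H57

theorem bin {R : Type} [CommRing R] (a b : R) (n : ℕ) :
    ∃ c, (a + b) ^ (n + 1) = a ^ (n + 1) + ((n + 1 : ℕ) : R) * a ^ n * b + c * b ^ 2 := by
  induction n with
  | zero => exact ⟨0, by simp⟩
  | succ n ih =>
    obtain ⟨c, h⟩ := ih
    refine ⟨c * (a + b) + ((n + 1 : ℕ) : R) * a ^ n, ?_⟩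
    rw [pow_succ (a + b) (n + 1), h]
    push_cast
    ring

theorem pw_le {R : Type} [CommRing R] {P : Ideal R} {π : R} (hπ : π ∈ P)
    (h : P ≤ Ideal.span {π} ⊔ P ^ 2) (N : ℕ) : P ^ N ≤ Ideal.span {π ^ N} ⊔ P ^ (N + 1) := by
  induction N with
  | zero => simp
  | succ N ih =>
    have a : Ideal.span {π} ≤ P := (Ideal.span_singleton_le_iff_mem _).2 hπ
    have b : Ideal.span {π ^ N} ≤ P ^ N :=
      (Ideal.span_singleton_le_iff_mem _).2 (Ideal.pow_mem_pow hπ N)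
    calc P ^ (N + 1) = P ^ N * P := pow_succ _ _
      _ ≤ (Ideal.span {π ^ N} ⊔ P ^ (N + 1)) * (Ideal.span {π} ⊔ P ^ 2) := Ideal.mul_mono ih h
      _ ≤ _ := by
        rw [Ideal.sup_mul, Ideal.mul_sup, Ideal.mul_sup]
        refine sup_le (sup_le ?_ ?_) (sup_le ?_ ?_)
        · rw [Ideal.span_singleton_mul_span_singleton, ← pow_succ]
          exact le_sup_left
        · exact le_sup_of_le_right ((Ideal.mul_mono_left b).trans (by rw [← pow_add]))
        · exact le_sup_of_le_right ((Ideal.mul_mono_right a).trans (by rw [← pow_succ]))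
        · refine le_sup_of_le_right ?_
          rw [← pow_add]
          exact Ideal.pow_le_pow_right (by omega)

theorem thC : TH := by
  intro K _ _ _ P hP h0
  classical
  haveI hM : P.IsMaximal := hP.isMaximal h0
  letI := Ideal.Quotient.field P
  haveI : Finite (𝓞 K ⧸ P) := Ideal.finiteQuotientOfFreeOfNeBot P h0
  letI := Fintype.ofFinite (𝓞 K ⧸ P)
  obtain ⟨g, hg⟩ := IsCyclic.exists_monoid_generator (α := (𝓞 K ⧸ P)ˣ)
  obtain ⟨n, hn⟩ : ∃ n, Fintype.card (𝓞 K ⧸ P) = n + 1 :=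
    Nat.exists_eq_succ_of_ne_zero Fintype.card_ne_zero
  have fq : ∀ a : 𝓞 K, a ^ (n + 1) - a ∈ P := fun a => by
    rw [← Ideal.Quotient.eq, map_pow, ← hn, FiniteField.pow_card]
  have qP : ((n + 1 : ℕ) : 𝓞 K) ∈ P := by
    rw [← Ideal.Quotient.eq_zero_iff_mem, map_natCast, ← hn, FiniteField.cast_card_eq_zero]
  obtain ⟨θ0, e0⟩ := Ideal.Quotient.mk_surjective (g : 𝓞 K ⧸ P)
  have lt : P ^ 2 < P := by
    simpa using Ideal.pow_succ_lt_pow h0 1
  obtain ⟨π0, p1, p2⟩ := SetLike.exists_of_lt lt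
  obtain ⟨θ1, e1, u1⟩ : ∃ θ1 : 𝓞 K, Ideal.Quotient.mk P θ1 = g ∧ θ1 ^ (n + 1) - θ1 ∉ P ^ 2 := by
    by_cases c : θ0 ^ (n + 1) - θ0 ∈ P ^ 2
    · refine ⟨θ0 + π0, by rw [map_add, e0, Ideal.Quotient.eq_zero_iff_mem.2 p1, add_zero],
        fun d => p2 ?_⟩
      obtain ⟨z, hz⟩ := bin θ0 π0 n
      have e : π0 = (θ0 ^ (n + 1) - θ0) + θ0 ^ n * (((n + 1 : ℕ) : 𝓞 K) * π0) + z * π0 ^ 2 -
          ((θ0 + π0) ^ (n + 1) - (θ0 + π0)) := by rw [hz]; ring
      rw [e]
      refine Ideal.sub_mem _ (Ideal.add_mem _ (Ideal.add_mem _ c (Ideal.mul_mem_left _ _ ?_))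
        (Ideal.mul_mem_left _ _ (Ideal.pow_mem_pow p1 2))) d
      rw [sq]
      exact Ideal.mul_mem_mul qP p1
    · exact ⟨θ0, e0, c⟩
  let Q : Ga K → Ideal (𝓞 K) := fun s => P.comap (MulSemiringAction.toRingHom (Ga K) (𝓞 K) s)
  have mQ : ∀ s x, x ∈ Q s ↔ s • x ∈ P := fun s x => Iff.rfl
  have cp : IsCoprime (P ^ 2) (∏ s ∈ Finset.univ.filter (fun s => Q s ≠ P), Q s) := by
    refine IsCoprime.pow_left (IsCoprime.prod_right fun s hs => ?_)
    have : (Q s).IsMaximal := Ideal.comap_isMaximal_of_surjective _ fun x =>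
      ⟨s⁻¹ • x, smul_inv_smul s x⟩
    exact Ideal.isCoprime_iff_sup_eq.2 (hM.coprime_of_ne this (Finset.mem_filter.1 hs).2.symm)
  obtain ⟨a, ha, b, hb, hab⟩ := Ideal.isCoprime_iff_exists.1 cp
  have d2 : θ1 * b - θ1 ∈ P ^ 2 := by
    rw [show θ1 * b - θ1 = -θ1 * a by linear_combination θ1 * hab]
    exact Ideal.mul_mem_left _ _ ha
  generalize hθ : θ1 * b = θ at d2
  have e2 : Ideal.Quotient.mk P θ = g := by
    rw [← e1, Ideal.Quotient.eq]
    exact lt.le d2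
  have u2 : θ ^ (n + 1) - θ ∉ P ^ 2 := fun d => u1 (by
    obtain ⟨z, hz⟩ := sub_dvd_pow_sub_pow θ θ1 (n + 1)
    rw [show θ1 ^ (n + 1) - θ1 = θ ^ (n + 1) - θ - (θ - θ1) * z + (θ - θ1) by rw [← hz]; ring]
    exact Ideal.add_mem _ (Ideal.sub_mem _ d (Ideal.mul_mem_right _ _ d2)) d2)
  have one : ∀ y : 𝓞 K, ∃ h : ℤ[X], y - aeval θ h ∈ P := fun y => by
    by_cases c : y ∈ P
    · exact ⟨0, by simpa using c⟩
    · have c' : Ideal.Quotient.mk P y ≠ 0 := fun e => c (Ideal.Quotient.eq_zero_iff_mem.1 e)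
      obtain ⟨m, hm⟩ := hg (Units.mk0 _ c')
      refine ⟨X ^ m, ?_⟩
      rw [← Ideal.Quotient.eq, map_pow, aeval_X, map_pow, e2]
      exact (congrArg Units.val hm).symm.trans (Units.val_pow_eq_pow_val g m)
  have gen : P ≤ Ideal.span {θ ^ (n + 1) - θ} ⊔ P ^ 2 := by
    have := Ideal.eq_prime_pow_of_succ_lt_of_le (P := P) (I := Ideal.span {θ ^ (n + 1) - θ} ⊔ P ^ 2)
      h0 (i := 1) (lt_of_le_of_ne le_sup_right fun e =>
        u2 (e ▸ Ideal.mem_sup_left (Ideal.mem_span_singleton_self _)))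
      (by rw [pow_one]; exact sup_le ((Ideal.span_singleton_le_iff_mem _).2 (fq θ)) lt.le)
    rw [this, pow_one]
  refine ⟨θ, fun N x => ?_, fun s hs d => hs fun x => ?_⟩
  · induction N with
    | zero => exact ⟨0, by simp⟩
    | succ N ih =>
      obtain ⟨f, hf⟩ := ih
      obtain ⟨u, hu, v, hv, e⟩ := Submodule.mem_sup.1 (pw_le (fq θ) gen N hf)
      obtain ⟨y, rfl⟩ := Ideal.mem_span_singleton'.1 hu
      obtain ⟨h, hh⟩ := one y
      refine ⟨f + h * (X ^ (n + 1) - X) ^ N, ?_⟩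
      have e' : x - aeval θ (f + h * (X ^ (n + 1) - X) ^ N) =
          (θ ^ (n + 1) - θ) ^ N * (y - aeval θ h) + v := by
        simp only [map_add, map_mul, map_pow, map_sub, aeval_X]
        linear_combination -e
      rw [e', pow_succ P N]
      exact Ideal.add_mem _ (Ideal.mul_mem_mul (Ideal.pow_mem_pow (fq θ) N) hh)
        (by rwa [← pow_succ])
  · by_cases c : Q s = P
    · obtain ⟨h, hh⟩ := one x
      have a1 : s • (x - aeval θ h) ∈ P := (mQ s _).1 (c.symm ▸ hh)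
      have a2 : s • aeval θ h = aeval (s • θ) h :=
        (aeval_algHom_apply (MulSemiringAction.toRingHom (Ga K) (𝓞 K) s).toIntAlgHom θ h).symm
      obtain ⟨z, hz⟩ := sub_dvd_eval_sub (s • θ) θ (h.map (algebraMap ℤ (𝓞 K)))
      rw [eval_map_algebraMap, eval_map_algebraMap] at hz
      rw [show s • x - x = s • (x - aeval θ h) + (s • θ - θ) * z - (x - aeval θ h) by
        rw [smul_sub, a2, ← hz]; ring]
      exact P.sub_mem (P.add_mem a1 (P.mul_mem_right _ d)) hh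
    · have a1 : s • θ ∈ P := by
        rw [← mQ, ← hθ]
        exact Ideal.mul_mem_left _ _ (Ideal.prod_le_inf.trans (Finset.inf_le
          (Finset.mem_filter.2 ⟨Finset.mem_univ s, c⟩)) hb)
      have a2 : θ ∈ P := by simpa using P.sub_mem a1 d
      exact absurd (e2.symm.trans (Ideal.Quotient.eq_zero_iff_mem.2 a2)) g.ne_zero

end Vale.Agent.P022T.H57
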