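import Vale.Agent.P022T.Val
import Vale.Agent.P022T.ThH57
import Vale.Agent.P022T.Df
import Vale.Agent.P022T.Co
import Vale.Agent.P022T.Ce
import Vale.Agent.P022T.Gt
import Vale.Agent.P022T.Mk
import Vale.Agent.P022T.Gb
import Vale.Agent.P022T.T0H45
import Vale.Agent.P022T.Inf
import Vale.Agent.P022T.ExOne

/-!
P022T: wiring of all rows except the wild bound and the tame-or-wild alternative.
-/

set_option linter.all false

noncomputable section

namespace Vale.Agent.P022T.H92

theorem tateOf (hW : VAL → CO → WL) (hM : VAL → TM) : TATE :=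
  infC (H45.t0C H57.thC (dfC valC) (hW valC (H88.co valC)) (hM valC) ce gtC mkC gbC)

end Vale.Agent.P022T.H92
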