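import Vale.Agent.P022T.Defs

/-!
# P022T: representations whose inertia groups at the odd primes act by scalars
-/

set_option linter.all false

open NumberField

noncomputable section

namespace Vale.Agent.P022T

open Vale.Agent.P022

theorem ex_sqrt {G k : Type} [Group G] [Field k] [CharP k 2] (d : G →* kˣ) [Finite d.range] :
    ∃ n : ℕ, ∀ g, (d g ^ n) ^ 2 = d g := by
  obtain ⟨a, b, hb, e⟩ := Nat.exists_eq_two_pow_mul_odd (Nat.card_pos (α := d.range)).ne'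
  obtain ⟨c, rfl⟩ := hb
  refine ⟨c + 1, fun g => ?_⟩
  have h1 : d g ^ Nat.card d.range = 1 :=
    congrArg Subtype.val (pow_card_eq_one' (x := (⟨d g, g, rfl⟩ : d.range)))
  rw [e, mul_comm, pow_mul] at h1
  have h2 : ((d g ^ (2 * c + 1) : kˣ) : k) ^ 2 ^ a = 1 := by
    rw [← Units.val_pow_eq_pow_val, h1, Units.val_one]
  have h3 : (((d g ^ (2 * c + 1) : kˣ) : k) - 1) ^ 2 ^ a = 0 := by
    rw [sub_pow_char_pow, h2, one_pow, sub_self]
  have h4 : d g ^ (2 * c + 1) = 1 := Units.ext (sub_eq_zero.1 (pow_eq_zero_iff (by positivity) |>.1 h3))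
  rw [← pow_mul, show (c + 1) * 2 = 2 * c + 1 + 1 by ring, pow_succ, h4, one_mul]

/-- the scalars -/
def sc (k : Type) [Field k] : kˣ →* GL (Fin 2) k :=
  Units.map (Matrix.scalar (Fin 2) : k →+* Matrix (Fin 2) (Fin 2) k).toMonoidHom

theorem sc_val {k : Type} [Field k] (c : kˣ) :
    (sc k c : Matrix (Fin 2) (Fin 2) k) = (c : k) • (1 : Matrix (Fin 2) (Fin 2) k) := by
  change Matrix.scalar (Fin 2) (c : k) = _
  rw [Matrix.scalar_apply, Matrix.smul_one_eq_diagonal]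

theorem sc_comm {k : Type} [Field k] (c : kˣ) (g : GL (Fin 2) k) : Commute (sc k c) g :=
  Units.ext (by simp [sc_val])

theorem proj (hT : TATE) (k : Type) [Field k] [CharP k 2]
    (ρ : (AlgebraicClosure ℚ ≃ₐ[ℚ] AlgebraicClosure ℚ) →* GL (Fin 2) k)
    (ho : IsOpen {g | ρ g = 1})
    (hs : ∀ p : ℕ, p.Prime → p ≠ 2 → ∀ P : Ideal (𝓞 (AlgebraicClosure ℚ)), P.IsPrime →
      (p : 𝓞 (AlgebraicClosure ℚ)) ∈ P → ∀ g : AlgebraicClosure ℚ ≃ₐ[ℚ] AlgebraicClosure ℚ,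
      (∀ x : 𝓞 (AlgebraicClosure ℚ), g • x - x ∈ P) →
      ∃ c : k, (ρ g : Matrix (Fin 2) (Fin 2) k) = c • (1 : Matrix (Fin 2) (Fin 2) k)) :
    Group.IsSolvable ρ.range := by
  have hG : CompactSpace (AlgebraicClosure ℚ ≃ₐ[ℚ] AlgebraicClosure ℚ) := by
    have h1 : Algebra.IsAlgebraic ℚ (AlgebraicClosure ℚ) := AlgebraicClosure.isAlgebraic ℚ
    have h2 : IsAlgClosure ℚ (AlgebraicClosure ℚ) := ⟨inferInstance, inferInstance⟩
    have h3 : IsGalois ℚ (AlgebraicClosure ℚ) := IsAlgClosure.isGalois ℚ _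
    infer_instance
  let d := Matrix.GeneralLinearGroup.det.comp ρ
  have hk : ρ.ker ≤ d.ker := fun g hg => by
    rw [MonoidHom.mem_ker] at hg ⊢
    rw [MonoidHom.comp_apply, hg, map_one]
  haveI : Finite (_ ⧸ d.ker) :=
    Subgroup.quotient_finite_of_isOpen _ (Subgroup.isOpen_mono hk ho)
  haveI : Finite d.range := Finite.of_equiv _ (QuotientGroup.quotientKerEquivRange d).toEquiv
  obtain ⟨n, hn⟩ := ex_sqrt d
  let χ := (powMonoidHom n).comp d
  have hχ : ∀ g, χ g ^ 2 = d g := hn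
  let ρ₁ : (AlgebraicClosure ℚ ≃ₐ[ℚ] AlgebraicClosure ℚ) →* GL (Fin 2) k :=
    MonoidHom.mk' (fun g => sc k (χ g)⁻¹ * ρ g) fun a b => by
      rw [map_mul, map_mul, mul_inv, map_mul]
      exact ((sc_comm (χ b)⁻¹ (ρ a)).symm.mul_mul_mul_comm _ _).symm
  have e1 : ∀ g, ρ₁ g = sc k (χ g)⁻¹ * ρ g := fun _ => rfl
  have hk1 : ρ.ker ≤ ρ₁.ker := fun g hg => by
    have h1 : χ g = 1 := by
      change d g ^ n = 1
      rw [MonoidHom.mem_ker.1 (hk hg), one_pow]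
    rw [MonoidHom.mem_ker, e1, h1, MonoidHom.mem_ker.1 hg, inv_one, map_one, one_mul]
  haveI := hT k ρ₁ (Subgroup.isOpen_mono hk1 ho) fun p hp h2 P hP hpP g hg => by
    obtain ⟨c, hc⟩ := hs p hp h2 P hP hpP g hg
    have h1 : ((χ g : kˣ) : k) ^ 2 = c ^ 2 := by
      rw [← Units.val_pow_eq_pow_val, hχ]
      change (ρ g : Matrix (Fin 2) (Fin 2) k).det = _
      rw [hc, Matrix.det_smul, Matrix.det_one, mul_one, Fintype.card_fin]
    have h3 : (((χ g : kˣ) : k) - c) ^ 2 = 0 := by rw [sub_pow_char, h1, sub_self]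
    have h4 : ((χ g : kˣ) : k) = c := sub_eq_zero.1 (pow_eq_zero_iff two_ne_zero |>.1 h3)
    have h5 : ρ g = sc k (χ g) := Units.ext (by rw [sc_val, hc, h4])
    rw [e1, h5, ← map_mul, inv_mul_cancel, map_one]
  let Φ : kˣ × ρ₁.range →* GL (Fin 2) k :=
    (sc k).noncommCoprod ρ₁.range.subtype fun c g => sc_comm c g
  haveI : Group.IsSolvable Φ.range := Group.isSolvable_of_surjective Φ.rangeRestrict_surjective
  have hle : ρ.range ≤ Φ.range := by
    rintro _ ⟨g, rfl⟩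
    refine ⟨(χ g, ⟨ρ₁ g, g, rfl⟩), ?_⟩
    change sc k (χ g) * ρ₁ g = ρ g
    rw [e1, ← mul_assoc, ← map_mul, mul_inv_cancel, map_one, one_mul]
  exact Group.isSolvable_of_isSolvable_injective (Subgroup.inclusion_injective hle)

end Vale.Agent.P022T
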