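import Vale.Agent.P022T.Defs
import Vale.Agent.P022S.ExResH1

/-!
P022T: the reduction of a stable lattice has open kernel and kills the kernel of `r`.
-/

set_option linter.all false

open NumberField Matrix IsLocalRing

noncomputable section

namespace Vale.Agent.P022T

open Vale.Agent.P022 Vale.Agent.P022D.Top

theorem resC : RES := by
  intro E _ _ _ r hc
  have hu : IsUltrametricDist E := IsUltrametricDist.of_normedAlgebra ℚ_[2]
  have hG : CompactSpace (AlgebraicClosure ℚ ≃ₐ[ℚ] AlgebraicClosure ℚ) := by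
    have h1 : Algebra.IsAlgebraic ℚ (AlgebraicClosure ℚ) := AlgebraicClosure.isAlgebraic ℚ
    have h2 : IsAlgClosure ℚ (AlgebraicClosure ℚ) := ⟨inferInstance, inferInstance⟩
    have h3 : IsGalois ℚ (AlgebraicClosure ℚ) := IsAlgClosure.isGalois ℚ _
    infer_instance
  have hpr : ProperSpace E := FiniteDimensional.proper ℚ_[2] E
  obtain ⟨P, hP, hint⟩ := Vale.Agent.P022S.H1.exists_conj r hc
  have hPu : IsUnit P.det := isUnit_iff_ne_zero.2 hP
  let π : Ob E →+* ResidueField (Ob E) := residue (Ob E)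
  let ι : Matrix (Fin 2) (Fin 2) (Ob E) →+* Matrix (Fin 2) (Fin 2) E := (Ob E).subtype.mapMatrix
  have hι : Function.Injective ι := by
    intro A A' h
    ext i j
    exact congrFun (congrFun h i) j
  let B0 : (AlgebraicClosure ℚ ≃ₐ[ℚ] AlgebraicClosure ℚ) → Matrix (Fin 2) (Fin 2) (Ob E) :=
    fun g => Matrix.of fun i j =>
      ⟨(P⁻¹ * ((r g : Matrix (Fin 2) (Fin 2) E) * P)) i j, mem_Ob.2 (hint g i j)⟩
  have hB0 : ∀ g, ι (B0 g) = P⁻¹ * ((r g : Matrix (Fin 2) (Fin 2) E) * P) := fun g => by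
    ext i j; rfl
  let B : (AlgebraicClosure ℚ ≃ₐ[ℚ] AlgebraicClosure ℚ) →* Matrix (Fin 2) (Fin 2) (Ob E) :=
    { toFun := B0
      map_one' := hι (by
        rw [hB0, map_one, map_one, Units.val_one, Matrix.one_mul, Matrix.nonsing_inv_mul P hPu])
      map_mul' := fun g h => hι (by
        rw [map_mul, hB0, hB0, hB0, map_mul, Units.val_mul]
        have h1 : P * P⁻¹ = 1 := Matrix.mul_nonsing_inv P hPu
        calc P⁻¹ * ((r g : Matrix (Fin 2) (Fin 2) E) * (r h : Matrix (Fin 2) (Fin 2) E) * P)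
            = P⁻¹ * ((r g : Matrix (Fin 2) (Fin 2) E) * (1 * ((r h : Matrix (Fin 2) (Fin 2) E)
              * P))) := by rw [Matrix.one_mul, Matrix.mul_assoc]
          _ = P⁻¹ * ((r g : Matrix (Fin 2) (Fin 2) E) * P) *
              (P⁻¹ * ((r h : Matrix (Fin 2) (Fin 2) E) * P)) := by
            rw [← h1]; simp only [Matrix.mul_assoc]) }
  have hB : ∀ g, ι (B g) = P⁻¹ * ((r g : Matrix (Fin 2) (Fin 2) E) * P) := hB0
  let ρ : (AlgebraicClosure ℚ ≃ₐ[ℚ] AlgebraicClosure ℚ) →* GL (Fin 2) (ResidueField (Ob E)) :=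
    ((π.mapMatrix : Matrix (Fin 2) (Fin 2) (Ob E) →+*
      Matrix (Fin 2) (Fin 2) (ResidueField (Ob E))).toMonoidHom.comp B).toHomUnits
  have hρ : ∀ g, (ρ g : Matrix (Fin 2) (Fin 2) (ResidueField (Ob E))) = π.mapMatrix (B g) :=
    fun g => rfl
  have hone : ∀ g, ρ g = 1 ↔ ∀ i j,
      ‖(P⁻¹ * ((r g : Matrix (Fin 2) (Fin 2) E) * P)) i j - (1 : Matrix (Fin 2) (Fin 2) E) i j‖
        < 1 := by
    intro g
    have key : ∀ i j, (π.mapMatrix (B g) i j = (1 : Matrix (Fin 2) (Fin 2) _) i j ↔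
        ‖(P⁻¹ * ((r g : Matrix (Fin 2) (Fin 2) E) * P)) i j
          - (1 : Matrix (Fin 2) (Fin 2) E) i j‖ < 1) := by
      intro i j
      have h1 : (1 : Matrix (Fin 2) (Fin 2) (ResidueField (Ob E))) i j
          = π ((1 : Matrix (Fin 2) (Fin 2) (Ob E)) i j) := by
        have := congrFun (congrFun (map_one π.mapMatrix) i) j
        exact this.symm
      have h2 : π.mapMatrix (B g) i j = π (B g i j) := rfl
      have h3 : ((B g i j - (1 : Matrix (Fin 2) (Fin 2) (Ob E)) i j : Ob E) : E) =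
          (P⁻¹ * ((r g : Matrix (Fin 2) (Fin 2) E) * P)) i j
            - (1 : Matrix (Fin 2) (Fin 2) E) i j := by
        have h4 := congrFun (congrFun (hB g) i) j
        have h5 := congrFun (congrFun (map_one ι) i) j
        rw [← h4, ← h5]
        rfl
      rw [h1, h2, ← sub_eq_zero, ← map_sub, ← h3]
      exact res_Ob
    constructor
    · intro h i j
      refine (key i j).1 ?_
      rw [← hρ, h]
      rfl
    · intro h
      refine Units.ext ?_
      rw [hρ]
      ext i j
      exact (key i j).2 (h i j)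
  refine ⟨ResidueField (Ob E), inferInstance, char_Ob, fin_Ob, ρ, ⟨Ob E, π, fun x => mem_Ob,
    fun g => ⟨(B g).trace, (B g).det, ?_, ?_, ?_, ?_⟩⟩, ?_, ?_⟩
  · have h1 : (((B g).trace : Ob E) : E) = (ι (B g)).trace := by
      simp [Matrix.trace, ι]
    rw [h1, hB, Matrix.trace_mul_comm, Matrix.mul_assoc, Matrix.mul_nonsing_inv P hPu,
      Matrix.mul_one]
  · have h1 : (((B g).det : Ob E) : E) = (ι (B g)).det :=
      RingHom.map_det (Ob E).subtype (B g)
    rw [h1, hB, Matrix.det_mul, Matrix.det_mul, mul_comm, mul_assoc, ← Matrix.det_mul,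
      Matrix.mul_nonsing_inv P hPu, Matrix.det_one, mul_one]
  · rw [hρ]
    simp [Matrix.trace]
  · rw [hρ]
    exact RingHom.map_det π (B g)
  · have h1 : {g | ρ g = 1} = ⋂ i, ⋂ j,
        {g | ‖(P⁻¹ * ((r g : Matrix (Fin 2) (Fin 2) E) * P)) i j
          - (1 : Matrix (Fin 2) (Fin 2) E) i j‖ < 1} := by
      ext g
      simp only [Set.mem_setOf_eq, Set.mem_iInter]
      exact hone g
    rw [h1]
    refine isOpen_iInter_of_finite fun i => isOpen_iInter_of_finite fun j => ?_
    refine isOpen_lt (Continuous.norm (Continuous.sub ?_ continuous_const)) continuous_const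
    exact (continuous_const.matrix_mul
      ((Units.continuous_val.comp hc).matrix_mul continuous_const)).matrix_elem i j
  · intro g hg
    refine (hone g).2 fun i j => ?_
    rw [hg, Units.val_one, Matrix.one_mul, Matrix.nonsing_inv_mul P hPu, sub_self, norm_zero]
    exact zero_lt_one

end Vale.Agent.P022T
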