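import Vale.Agent.P022T.Defs

/-!
# P022T: the theorem for a finite extension from the rows
-/

set_option linter.all false

open NumberField Polynomial

noncomputable section

namespace Vale.Agent.P022T.H20

open Vale.Agent.P022T

/-- the inertia group -/
def Sg {K : Type} [Field K] [NumberField K] (P : Ideal (𝓞 K)) : Subgroup (Ga K) where
  carrier := {s | In P s}
  one_mem' := fun x => by simp
  mul_mem' := fun {s t} hs ht x => by
    have h := P.add_mem (hs (t • x)) (ht x)
    rw [sub_add_sub_cancel, ← mul_smul] at h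
    exact h
  inv_mem' := fun {s} hs x => by
    have h := P.neg_mem (hs (s⁻¹ • x))
    rw [smul_inv_smul, neg_sub] at h
    exact h

theorem card_Sg {K : Type} [Field K] [NumberField K] (P : Ideal (𝓞 K)) :
    Nat.card (Sg P) = (I1 P).card + 1 := by
  classical
  have h1 : (1 : Ga K) ∉ I1 P := by simp [I1]
  rw [← Finset.card_insert_of_notMem h1, ← Fintype.card_coe, ← Nat.card_eq_fintype_card]
  refine Nat.card_congr (Equiv.subtypeEquivRight fun s => ?_)
  simp only [I1, Finset.mem_insert, Finset.mem_filter, Finset.mem_univ, true_and]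
  constructor
  · intro h
    by_cases h' : s = 1
    · exact Or.inl h'
    · exact Or.inr ⟨h, h'⟩
  · rintro (rfl | h)
    · exact (Sg P).one_mem
    · exact h.1

theorem ex_t (n : ℕ) (h : 6 ≤ n) : ∃ t, 2 ≤ t ∧ t * (t + 1) ≤ n ∧ n < (t + 1) * (t + 2) := by
  induction n, h using Nat.le_induction with
  | base => exact ⟨2, by norm_num, by norm_num, by norm_num⟩
  | succ n _ ih =>
    obtain ⟨t, a, b, c⟩ := ih
    by_cases h : n + 1 < (t + 1) * (t + 2)
    · exact ⟨t, a, by omega, h⟩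
    · exact ⟨t + 1, by omega, by nlinarith, by nlinarith⟩

theorem num (t c S v n : ℕ) (ht : 2 ≤ t) (h1 : (c + 1) * (c + 1 + 1) ≤ n)
    (h2 : n < (t + 1) * (t + 2)) (h : 2 * (c + 1) * S ≤ (5 * c + 1) * v) :
    2 * t * S ≤ (5 * t - 4) * v := by
  have hc : c + 1 ≤ t := by
    by_contra hh
    have : t + 1 ≤ c + 1 := by omega
    have := Nat.mul_le_mul this (show t + 2 ≤ c + 1 + 1 by omega)
    omega
  obtain ⟨d, rfl⟩ := Nat.exists_eq_add_of_le hc
  have e : 5 * (c + 1 + d) - 4 = 5 * c + 1 + 5 * d := by omega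
  rw [e]
  refine Nat.le_of_mul_le_mul_left ?_ (Nat.succ_pos c)
  have h3 := Nat.mul_le_mul_left (c + 1 + d) h
  have h4 : (c + 1 + d) * ((5 * c + 1) * v) + 4 * d * v =
      (c + 1) * ((5 * c + 1 + 5 * d) * v) := by ring
  have h5 : (c + 1 + d) * (2 * (c + 1) * S) = (c + 1) * (2 * (c + 1 + d) * S) := by ring
  show (c + 1) * _ ≤ (c + 1) * _
  omega

theorem t0C (hTH : TH) (hDF : DF) (hWL : WL) (hTM : TM) (hCE : CE) (hGT : GT) (hMK : MK)
    (hGB : GB) : T0 := by
  intro K _ _ _ k _ _ ι hι hu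
  by_contra hs
  obtain ⟨h6, hS⟩ := hGT (Ga K) k ι hι hs
  have hn : Nat.card (Ga K) = Module.finrank ℚ K := IsGalois.card_aut_eq_finrank ℚ K
  rw [hn] at h6 hS
  obtain ⟨t, t2, ta, tb⟩ := ex_t _ h6
  refine absurd (hGB K (5 * t - 4) (2 * t) fun P hP h0 => ?_) (not_le.2 (hMK K t t2 ta tb))
  obtain ⟨θ, hA, hθ⟩ := hTH K P hP h0
  obtain ⟨hne, hm⟩ := hDF K P hP h0 θ hA hθ
  refine (Nat.mul_le_mul_left _ hm).trans ?_
  by_cases h2 : (2 : 𝓞 K) ∈ P
  · rcases hTM K P hP h0 h2 k ι hι θ hA hne with hw | hw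
    · have h1 := hS (Sg P) fun s hs => hw s hs
      rw [card_Sg] at h1
      exact num t _ _ _ _ t2 h1 tb (hWL K P hP h0 h2 θ hA hne hw)
    · have h1 := Finset.sum_le_card_nsmul _ _ _ hw
      rw [smul_eq_mul, mul_one] at h1
      exact Nat.mul_le_mul (by omega) (h1.trans (hCE K P hP h0 h2))
  · have : I1 P = ∅ := by
      rw [Finset.eq_empty_iff_forall_notMem]
      intro s hs
      simp only [I1, Finset.mem_filter] at hs
      exact hs.2.2 (hu P hP h0 h2 s hs.2.1)
    simp [this]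

end Vale.Agent.P022T.H20
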