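import Vale.Agent.P022T.Defs

/-!
# P022T: the theorem for a finite extension from the rows
-/

set_option linter.all false

open NumberField

noncomputable section

namespace Vale.Agent.P022T.H57

/-- the inertia group -/
def IG {K : Type} [Field K] [NumberField K] (P : Ideal (𝓞 K)) : Subgroup (Ga K) where
  carrier := {s | In P s}
  one_mem' := fun x => by rw [one_smul, sub_self]; exact P.zero_mem
  mul_mem' := fun {s t} hs ht x => by
    have e : (s * t) • x - x = (s • (t • x) - t • x) + (t • x - x) := by rw [mul_smul]; ring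
    rw [e]
    exact P.add_mem (hs _) (ht _)
  inv_mem' := fun {s} hs x => by
    have e : s⁻¹ • x - x = -(s • (s⁻¹ • x) - s⁻¹ • x) := by rw [smul_inv_smul]; ring
    rw [e]
    exact P.neg_mem (hs _)

theorem card_IG {K : Type} [Field K] [NumberField K] (P : Ideal (𝓞 K)) :
    Nat.card (IG P) = (I1 P).card + 1 := by
  classical
  have h1 : (1 : Ga K) ∉ I1 P := by simp [I1]
  rw [← Finset.card_insert_of_notMem h1, ← Nat.card_eq_finsetCard]
  refine Nat.card_congr (Equiv.subtypeEquivRight fun s => ?_)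
  rw [Finset.mem_insert]
  simp only [I1, Finset.mem_filter, Finset.mem_univ, true_and]
  constructor
  · intro h
    by_cases e : s = 1
    · exact Or.inl e
    · exact Or.inr ⟨h, e⟩
  · rintro (rfl | h)
    · exact (IG P).one_mem
    · exact h.1

theorem ex_t (n : ℕ) (h : 6 ≤ n) : ∃ t, 2 ≤ t ∧ t * (t + 1) ≤ n ∧ n < (t + 1) * (t + 2) := by
  induction n, h using Nat.le_induction with
  | base => exact ⟨2, le_rfl, by norm_num, by norm_num⟩
  | succ n _ ih =>
    obtain ⟨t, a, b, c⟩ := ih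
    by_cases e : n + 1 < (t + 1) * (t + 2)
    · exact ⟨t, a, by omega, e⟩
    · exact ⟨t + 1, by omega, by nlinarith, by nlinarith⟩

theorem ar (m u s v : ℕ) (h : m + 1 ≤ u + 2) (k : 2 * (m + 1) * s ≤ (5 * m + 1) * v) :
    2 * (u + 2) * s ≤ (5 * u + 6) * v := by
  refine Nat.le_of_mul_le_mul_left (c := m + 1) ?_ (by omega)
  have a : (u + 2) * (5 * m + 1) ≤ (m + 1) * (5 * u + 6) := by nlinarith
  calc (m + 1) * (2 * (u + 2) * s) = (u + 2) * (2 * (m + 1) * s) := by ring
    _ ≤ (u + 2) * ((5 * m + 1) * v) := Nat.mul_le_mul_left _ k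
    _ = (u + 2) * (5 * m + 1) * v := by ring
    _ ≤ (m + 1) * (5 * u + 6) * v := Nat.mul_le_mul_right _ a
    _ = (m + 1) * ((5 * u + 6) * v) := by ring

theorem t0C (hTH : TH) (hDF : DF) (hWL : WL) (hTM : TM) (hCE : CE) (hGT : GT) (hMK : MK)
    (hGB : GB) : T0 := by
  intro K _ _ _ k _ _ ι hι hu
  by_contra hs
  obtain ⟨h6, hS⟩ := hGT (Ga K) k ι hι hs
  have en : Nat.card (Ga K) = Module.finrank ℚ K := IsGalois.card_aut_eq_finrank ℚ K
  rw [en] at h6 hS
  obtain ⟨t, t2, t3, t4⟩ := ex_t _ h6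
  refine absurd (hMK K t t2 t3 t4) (not_lt.2 (hGB K (5 * t - 4) (2 * t) fun P hP h0 => ?_))
  obtain ⟨u, rfl⟩ := Nat.exists_eq_add_of_le' t2
  rw [show 5 * (u + 2) - 4 = 5 * u + 6 by omega]
  obtain ⟨θ, a1, a2⟩ := hTH K P hP h0
  obtain ⟨b1, b2⟩ := hDF K P hP h0 θ a1 a2
  refine (Nat.mul_le_mul_left _ b2).trans ?_
  by_cases h2 : (2 : 𝓞 K) ∈ P
  · rcases hTM K P hP h0 h2 k ι hι θ a1 b1 with h | h
    · refine ar (I1 P).card u _ _ ?_ (hWL K P hP h0 h2 θ a1 b1 h)
      have c := hS (IG P) h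
      rw [card_IG] at c
      by_contra d
      nlinarith
    · have c : ∑ s ∈ I1 P, w P (s • θ - θ) ≤ (I1 P).card := by
        simpa using Finset.sum_le_card_nsmul _ _ 1 h
      have d := c.trans (hCE K P hP h0 h2)
      exact Nat.mul_le_mul (by omega) d
  · have e : I1 P = ∅ := by
      refine Finset.eq_empty_of_forall_notMem fun s hs => ?_
      simp only [I1, Finset.mem_filter, Finset.mem_univ, true_and] at hs
      exact hs.2 (hu P hP h0 h2 s hs.1)
    simp [e]

end Vale.Agent.P022T.H57
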