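import Vale.Agent.P022T.Defs

/-!
# P022T: the wild case
-/

set_option linter.all false

open NumberField

noncomputable section

namespace Vale.Agent.P022T.H83

section abs
variable {R G : Type} [CommRing R] [IsDomain R] [Group G] [Fintype G] [MulSemiringAction G R]

/-- eigenvectors -/
def Eig (χ : G →* Rˣ) (y : R) : Prop := y ≠ 0 ∧ ∀ s : G, s • y = χ s * y

theorem Eig.mul {χ ψ : G →* Rˣ} {y z : R} (a : Eig χ y) (b : Eig ψ z) : Eig (χ * ψ) (y * z) :=
  ⟨mul_ne_zero a.1 b.1, fun s => by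
    rw [smul_mul', a.2, b.2, MonoidHom.mul_apply, Units.val_mul]; ring⟩

theorem pm (h2 : ∀ s : G, s * s = 1) (χ : G →* Rˣ) (s : G) : (χ s : R) = 1 ∨ (χ s : R) = -1 :=
  mul_self_eq_one_iff.1 (by rw [← Units.val_mul, ← map_mul, h2, map_one, Units.val_one])

theorem sq1 (h2 : ∀ s : G, s * s = 1) (χ : G →* Rˣ) : χ * χ = 1 :=
  MonoidHom.ext fun s => by rw [MonoidHom.mul_apply, ← map_mul, h2, map_one]; rfl

theorem ex_eig [FaithfulSMul G R] (h2 : ∀ s : G, s * s = 1) (χ : G →* Rˣ) : ∃ y, Eig χ y := by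
  classical
  have inj : Function.Injective fun s : G => (MulSemiringAction.toRingHom G R s : R →* R) :=
    fun s t e => eq_of_smul_eq_smul (α := R) fun x => DFunLike.congr_fun e x
  have li := (linearIndependent_monoidHom R R).comp _ inj
  have : ∃ x : R, ∑ s : G, (χ s : R) * s • x ≠ 0 := by
    by_contra c
    push Not at c
    have := Fintype.linearIndependent_iff.1 li (fun s => (χ s : R)) (funext fun x => by
      rw [Finset.sum_apply]
      exact c x) 1
    exact (χ 1).ne_zero this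
  obtain ⟨x, hx⟩ := this
  refine ⟨_, hx, fun t => ?_⟩
  rw [Finset.smul_sum, Finset.mul_sum]
  refine Fintype.sum_equiv (Equiv.mulLeft t) _ _ fun s => ?_
  have f : t • (χ s : R) = χ s := by
    rcases pm h2 χ s with e | e <;> rw [e]
    · exact smul_one t
    · rw [smul_neg, smul_one]
  rw [Equiv.coe_mulLeft, smul_mul', f, ← mul_smul, ← mul_assoc, ← Units.val_mul, ← map_mul,
    ← mul_assoc, h2, one_mul]

variable {v : R → ℕ} (vm : ∀ x y, x ≠ 0 → y ≠ 0 → v (x * y) = v x + v y)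
  (vs : ∀ (s : G) x, v (s • x) = v x)
  (vd : ∀ x a, x ≠ 0 → a ≠ 0 → v a ≤ v x → ∃ c z, c ≠ 0 ∧ v c = 0 ∧ c * x = a * z)

include vm vs vd in
theorem lower {χ : G →* Rˣ} {y a : R} (hy : Eig χ y) (ha : Eig (1 : G →* Rˣ) a) (h : v a ≤ v y) :
    ∃ z, Eig χ z ∧ v z + v a = v y := by
  classical
  obtain ⟨c, z, c0, vc, e⟩ := vd y a hy.1 ha.1 h
  have v1 : v 1 = 0 := by
    have := vm 1 1 one_ne_zero one_ne_zero
    rw [mul_one] at this
    omega
  have pr : ∀ T : Finset G, ∏ s ∈ T, s • c ≠ 0 ∧ v (∏ s ∈ T, s • c) = 0 := fun T => by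
    induction T using Finset.induction_on with
    | empty => simpa using v1
    | insert s T hs ih =>
      have s0 : s • c ≠ 0 := fun k => c0 ((smul_eq_zero_iff_eq s).1 k)
      rw [Finset.prod_insert hs]
      exact ⟨mul_ne_zero s0 ih.1, by rw [vm _ _ s0 ih.1, vs, vc, ih.2]⟩
  have e1 : a * ((∏ s ∈ Finset.univ.erase (1 : G), s • c) * z) = (∏ s : G, s • c) * y := by
    rw [← Finset.mul_prod_erase _ _ (Finset.mem_univ (1 : G)), one_smul]
    linear_combination -(∏ s ∈ Finset.univ.erase (1 : G), s • c) * e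
  have n0 := mul_ne_zero (pr Finset.univ).1 hy.1
  have z0 : (∏ s ∈ Finset.univ.erase (1 : G), s • c) * z ≠ 0 := fun k => n0 (by
    rw [← e1, k, mul_zero])
  refine ⟨_, ⟨z0, fun t => mul_left_cancel₀ ha.1 ?_⟩, ?_⟩
  · have := congrArg (t • ·) e1
    simp only [smul_mul' t a, smul_mul' t _ y, ha.2 t, hy.2 t, Finset.smul_prod_perm] at this
    rw [MonoidHom.one_apply, Units.val_one, one_mul] at this
    rw [this, mul_left_comm a, e1]
    ring
  · rw [add_comm, ← vm _ _ ha.1 z0, e1, vm _ _ (pr _).1 hy.1, (pr _).2, zero_add]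

theorem half {X : Type} [Group X] [Fintype X] (p : X → Prop) [DecidablePred p] (x : X)
    (h : ∀ y, p y → ¬ p (x * y)) : 2 * (Finset.univ.filter p).card ≤ Fintype.card X := by
  have := Finset.card_filter_add_card_filter_not (s := Finset.univ) p
  have k : (Finset.univ.filter p).card ≤ (Finset.univ.filter fun y => ¬ p y).card :=
    Finset.card_le_card_of_injOn (x * ·) (fun y hy => by
      simpa using h y (by simpa using hy)) fun a _ b _ e => mul_left_cancel e
  rw [Finset.card_univ] at this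
  omega

include vm vs vd in
theorem small [FaithfulSMul G R] [Fintype (G →* Rˣ)] (h2 : ∀ s : G, s * s = 1) (t0 : (2 : R) ≠ 0)
    (t1 : 0 < v 2) : ∃ y : (G →* Rˣ) → R, (∀ χ, Eig χ (y χ)) ∧
      4 * ∑ χ, v (y χ) ≤ Fintype.card (G →* Rˣ) * v 2 := by
  classical
  have mn : ∀ p : R → Prop, (∃ y, p y) → ∃ y, p y ∧ ∀ z, p z → v y ≤ v z := fun p ⟨y, hy⟩ => by
    obtain ⟨z, hz, k⟩ := (measure v).wf.has_min {y | p y} ⟨y, hy⟩
    exact ⟨z, hz, fun u hu => not_lt.1 (k u hu)⟩
  choose y hy ym using fun χ : G →* Rˣ => mn _ (ex_eig h2 χ)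
  have e2 : Eig (1 : G →* Rˣ) (2 : R) := ⟨t0, fun s => by
    rw [MonoidHom.one_apply, Units.val_one, one_mul, ← one_add_one_eq_two, smul_add, smul_one]⟩
  obtain ⟨a, ⟨ha, a0⟩, am⟩ := mn (fun a => Eig (1 : G →* Rˣ) a ∧ 0 < v a) ⟨2, e2, t1⟩
  have a2 := am 2 ⟨e2, t1⟩
  have k1 : ∀ χ, 0 < v (y χ) → 2 * v (y χ) = v a := fun χ h => by
    have l1 : v (y χ) < v a := by
      by_contra c
      obtain ⟨z, hz, e⟩ := lower vm vs vd (hy χ) ha (not_lt.1 c)
      have := ym χ z hz
      omega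
    have s := (hy χ).mul (hy χ)
    rw [sq1 h2] at s
    have sv := vm _ _ (hy χ).1 (hy χ).1
    have l2 := am _ ⟨s, by omega⟩
    obtain ⟨z, hz, e⟩ := lower vm vs vd s ha l2
    by_contra c
    have := am z ⟨hz, by omega⟩
    omega
  refine ⟨y, hy, ?_⟩
  have k2 : 2 * (Finset.univ.filter fun χ => 0 < v (y χ)).card ≤ Fintype.card (G →* Rˣ) := by
    by_cases c : ∃ χ, 0 < v (y χ)
    · obtain ⟨χ, c⟩ := c
      refine half _ χ fun ψ h => ?_
      have sv := vm _ _ (hy χ).1 (hy ψ).1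
      have b1 := k1 χ c
      have b2 := k1 ψ h
      obtain ⟨z, hz, e⟩ := lower vm vs vd ((hy χ).mul (hy ψ)) ha (by omega)
      have := ym _ z hz
      omega
    · rw [Finset.filter_false_of_mem fun χ _ h => c ⟨χ, h⟩]
      exact Nat.zero_le _
  have k3 : ∑ χ, 2 * v (y χ) ≤ (Finset.univ.filter fun χ => 0 < v (y χ)).card * v 2 := by
    rw [← Finset.sum_filter_of_ne (p := fun χ => 0 < v (y χ)) fun χ _ h => by omega]
    exact (Finset.sum_le_card_nsmul _ _ (v 2) fun χ h => by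
      rw [k1 χ (Finset.mem_filter.1 h).2]; exact a2).trans_eq (smul_eq_mul _ _)
  rw [← Finset.mul_sum] at k3
  calc _ = 2 * (2 * ∑ χ, v (y χ)) := by ring
    _ ≤ 2 * ((Finset.univ.filter fun χ => 0 < v (y χ)).card * v 2) := Nat.mul_le_mul_left _ k3
    _ ≤ _ := by rw [← mul_assoc]; exact Nat.mul_le_mul_right _ k2

include vm vs vd in
theorem main [FaithfulSMul G R] [CharZero R] [DecidableEq G] (h2 : ∀ s : G, s * s = 1)
    (t1 : 0 < v 2) (f : G → ℕ)
    (co : ∀ (T : Finset G) (y : R), y ≠ 0 → (∀ s ∈ T, s • y = -y) → ∑ s ∈ T, f s ≤ v 2 + v y) :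
    2 * Fintype.card G * ∑ s ∈ Finset.univ.erase 1, f s + 4 * v 2 ≤ 5 * Fintype.card G * v 2 := by
  classical
  have ex : Nat.card (G →* Rˣ) = Nat.card G ∧ ∀ s : G, s ≠ 1 → ∃ χ : G →* Rˣ, χ s ≠ 1 := by
    letI : CommGroup G := { ‹Group G› with
      mul_comm := fun a b => by
        have i : ∀ s : G, s⁻¹ = s := fun s => inv_eq_of_mul_eq_one_right (h2 s)
        rw [← i (a * b), mul_inv_rev, i, i] }
    haveI : HasEnoughRootsOfUnity R 2 := ⟨⟨-1, IsPrimitiveRoot.neg_one 0 (by norm_num)⟩,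
      inferInstance⟩
    haveI : HasEnoughRootsOfUnity R (Monoid.exponent G) := HasEnoughRootsOfUnity.of_dvd R
      (Monoid.exponent_dvd_of_forall_pow_eq_one (n := 2) fun g => by rw [pow_two, h2])
    exact ⟨CommGroup.card_monoidHom_of_hasEnoughRootsOfUnity G R, fun s hs =>
      CommGroup.exists_apply_ne_one_of_hasEnoughRootsOfUnity G R hs⟩
  haveI : Finite (G →* Rˣ) := Nat.finite_of_card_ne_zero (by rw [ex.1]; exact Nat.card_pos.ne')
  haveI := Fintype.ofFinite (G →* Rˣ)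
  have cd : Fintype.card (G →* Rˣ) = Fintype.card G := by
    rw [← Nat.card_eq_fintype_card, ← Nat.card_eq_fintype_card, ex.1]
  obtain ⟨y, hy, k⟩ := small vm vs vd h2 two_ne_zero t1
  have a1 : ∀ s : G, s ≠ 1 →
      Fintype.card G ≤ 2 * (Finset.univ.filter fun χ : G →* Rˣ => χ s ≠ 1).card := fun s hs => by
    obtain ⟨χ, hχ⟩ := ex.2 s hs
    have b1 := half (fun ψ : G →* Rˣ => ψ s = 1) χ fun ψ h c => hχ (by
      rwa [MonoidHom.mul_apply, h, mul_one] at c)
    have b2 := Finset.card_filter_add_card_filter_not (s := Finset.univ)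
      fun ψ : G →* Rˣ => ψ s = 1
    rw [Finset.card_univ, cd] at b2
    rw [cd] at b1
    change _ ≤ 2 * (Finset.univ.filter fun χ : G →* Rˣ => ¬ χ s = 1).card
    omega
  have a2 : ∀ χ : G →* Rˣ, ∑ s ∈ Finset.univ.filter fun s => χ s ≠ 1, f s ≤ v 2 + v (y χ) :=
    fun χ => co _ _ (hy χ).1 fun s hs => by
      rw [(hy χ).2, (pm h2 χ s).resolve_left fun c => (Finset.mem_filter.1 hs).2 (Units.ext c),
        neg_one_mul]
  have a3 : ∑ χ : G →* Rˣ, ∑ s ∈ Finset.univ.filter fun s => χ s ≠ 1, f s + v 2 ≤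
      Fintype.card G * v 2 + ∑ χ, v (y χ) := by
    have := Finset.sum_le_sum (s := Finset.univ)
      (f := fun χ : G →* Rˣ => ∑ s ∈ Finset.univ.filter fun s => χ s ≠ 1, f s +
        if χ = 1 then v 2 else 0) (g := fun χ => v 2 + v (y χ)) fun χ _ => by
      split_ifs with c
      · rw [c]; simp
      · simpa using a2 χ
    rw [Finset.sum_add_distrib, Finset.sum_add_distrib, Finset.sum_ite_eq', Finset.sum_const,
      Finset.card_univ, cd] at this
    simpa using this
  have a4 : Fintype.card G * ∑ s ∈ Finset.univ.erase 1, f s ≤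
      2 * ∑ χ : G →* Rˣ, ∑ s ∈ Finset.univ.filter fun s => χ s ≠ 1, f s := by
    simp only [Finset.sum_filter]
    rw [Finset.sum_comm, Finset.mul_sum, Finset.mul_sum]
    refine (Finset.sum_le_sum fun s hs => ?_).trans
      (Finset.sum_le_sum_of_subset (Finset.erase_subset 1 _))
    rw [← Finset.sum_filter, Finset.sum_const, smul_eq_mul, ← mul_assoc]
    exact Nat.mul_le_mul_right _ (a1 s (Finset.mem_erase.1 hs).1)
  rw [cd] at k
  rw [mul_assoc, mul_assoc]
  omega

end abs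

theorem wlC (hV : VAL) (hC : CO) : WL := by
  classical
  intro K _ _ _ P hP h0 h2 θ hθ hn hs
  obtain ⟨v1, v2, v3, v4⟩ := hV K P hP h0
  let I : Subgroup (Ga K) := P.inertia (Ga K)
  have hI : ∀ s, s ∈ I ↔ In P s := fun s => Iff.rfl
  haveI : FaithfulSMul I (𝓞 K) := ⟨fun {s t} h => Subtype.ext (AlgEquiv.ext fun x => by
    obtain ⟨a, b, hb, rfl⟩ := IsFractionRing.div_surjective (A := 𝓞 K) x
    have k : ∀ u : 𝓞 K, (s : Ga K) (algebraMap (𝓞 K) K u) = (t : Ga K) (algebraMap (𝓞 K) K u) :=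
      fun u => congrArg (algebraMap (𝓞 K) K) (h u)
    rw [map_div₀, map_div₀, k, k])⟩
  have m := main (R := 𝓞 K) (G := I) (v := w P) v1 (fun s x => v3 s x s.2)
    (fun x a hx ha h => by
      obtain ⟨c, z, hc, e⟩ := v4 x a hx ha h
      have c0 : c ≠ 0 := fun k => hc (k ▸ P.zero_mem)
      refine ⟨c, z, c0, ?_, e⟩
      by_contra k
      exact hc (by simpa using (v2 c 1 c0).1 (by omega)))
    (fun s => Subtype.ext (hs s s.2)) ((v2 2 1 two_ne_zero).2 (by simpa using h2))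
    (fun s => w P ((s : Ga K) • θ - θ)) fun T y hy h => by
      have := hC K P hP h0 θ hθ hn (T.map (Function.Embedding.subtype _)) y hy fun s k => by
        obtain ⟨t, ht, rfl⟩ := Finset.mem_map.1 k
        exact ⟨t.2, h t ht⟩
      rwa [Finset.sum_map] at this
  have e : I1 P = (Finset.univ.erase (1 : I)).map (Function.Embedding.subtype _) := by
    ext s
    simp only [I1, Finset.mem_filter, Finset.mem_univ, true_and, Finset.mem_map,
      Finset.mem_erase, and_true]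
    exact ⟨fun h => ⟨⟨s, h.1⟩, fun k => h.2 (congrArg Subtype.val k), rfl⟩, by
      rintro ⟨t, ht, rfl⟩
      exact ⟨t.2, fun k => ht (Subtype.ext k)⟩⟩
  have c : (I1 P).card + 1 = Fintype.card I := by
    rw [e, Finset.card_map, Finset.card_erase_add_one (Finset.mem_univ _), Finset.card_univ]
  rw [← c] at m
  rw [e, Finset.sum_map, ← e]
  change 2 * ((I1 P).card + 1) * ∑ s ∈ Finset.univ.erase (1 : I), w P ((s : Ga K) • θ - θ) ≤ _
  nlinarith [m]

end Vale.Agent.P022T.H83
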