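import Vale.Agent.P022T.PreH92
import Vale.Agent.P022T.WlH83
import Vale.Agent.P022T.TmH65

/-!
P022T: residual representations unramified outside two have solvable image.
-/

set_option linter.all false

noncomputable section

namespace Vale.Agent.P022T.H92

open Vale.Agent.P022

theorem tate : TATE := tateOf H83.wlC fun _ => H65.tmC

theorem exOneC (E : Type) [NontriviallyNormedField E] [NormedAlgebra ℚ_[2] E]
    [FiniteDimensional ℚ_[2] E]
    (r : (AlgebraicClosure ℚ ≃ₐ[ℚ] AlgebraicClosure ℚ) →* GL (Fin 2) E) (hc : Continuous r)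
    (h1 : ∀ p : ℕ, p.Prime → p ≠ 2 → St.UnrAt r p) :
    ∃ (k : Type) (_ : Field k) (_ : CharP k 2) (_ : Finite k)
      (ρ : (AlgebraicClosure ℚ ≃ₐ[ℚ] AlgebraicClosure ℚ) →* GL (Fin 2) k),
      St.IsRes r ρ ∧ Group.IsSolvable ρ.range :=
  exOne tate E r hc h1

end Vale.Agent.P022T.H92
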