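import Vale.Agent.P022T.Defs

/-!
# P022T: a good generator at a prime
-/

set_option linter.all false

open NumberField Polynomial

noncomputable section

namespace Vale.Agent.P022T

namespace ThP

variable {A : Type} [CommRing A]

theorem pw {P : Ideal A} {π : A} (h0 : π ∈ P) (h : ∀ b ∈ P, ∃ v, b - v * π ∈ P ^ 2) (N : ℕ) :
    ∀ z ∈ P ^ N, ∃ u, z - u * π ^ N ∈ P ^ (N + 1) := by
  induction N with
  | zero => exact fun z _ => ⟨z, by simp⟩
  | succ N ih =>
    intro z hz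
    rw [pow_succ] at hz
    refine Submodule.mul_induction_on hz (fun a ha b hb => ?_) ?_
    · obtain ⟨u, hu⟩ := ih a ha
      obtain ⟨v, hv⟩ := h b hb
      refine ⟨u * v, ?_⟩
      rw [show a * b - u * v * π ^ (N + 1) =
        (a - u * π ^ N) * b + u * (π ^ N * (b - v * π)) by ring]
      refine add_mem ?_ (Ideal.mul_mem_left _ _ ?_)
      · rw [pow_succ P (N + 1)]
        exact Ideal.mul_mem_mul hu hb
      · rw [add_assoc, pow_add]
        exact Ideal.mul_mem_mul (Ideal.pow_mem_pow h0 N) hv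
    · rintro x y ⟨u, hu⟩ ⟨v, hv⟩
      refine ⟨u + v, ?_⟩
      rw [show x + y - (u + v) * π ^ (N + 1) =
        (x - u * π ^ (N + 1)) + (y - v * π ^ (N + 1)) by ring]
      exact add_mem hu hv

theorem ap {P : Ideal A} {θ : A} {f : ℤ[X]} (h0 : aeval θ f ∈ P)
    (h : ∀ b ∈ P, ∃ v, b - v * aeval θ f ∈ P ^ 2) (h1 : ∀ x, ∃ g : ℤ[X], x - aeval θ g ∈ P)
    (N : ℕ) (x : A) : ∃ g : ℤ[X], x - aeval θ g ∈ P ^ N := by
  induction N with
  | zero => exact ⟨0, by simp⟩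
  | succ N ih =>
    obtain ⟨g, hg⟩ := ih
    obtain ⟨u, hu⟩ := pw h0 h N _ hg
    obtain ⟨k, hk⟩ := h1 u
    refine ⟨g + k * f ^ N, ?_⟩
    rw [map_add, map_mul, map_pow, show x - (aeval θ g + aeval θ k * aeval θ f ^ N) =
      (x - aeval θ g - u * aeval θ f ^ N) + aeval θ f ^ N * (u - aeval θ k) by ring]
    refine add_mem hu ?_
    rw [pow_succ]
    exact Ideal.mul_mem_mul (Ideal.pow_mem_pow h0 N) hk

theorem step {P : Ideal A} {q : ℕ} (hq : (q : A) ∈ P) {a b : A} (hb : b ∈ P) :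
    (a + b) ^ q - a ^ q ∈ P ^ 2 := by
  obtain ⟨c, hc⟩ := Polynomial.binomExpansion (X ^ q : A[X]) a b
  simp only [eval_pow, eval_X, derivative_X_pow, eval_mul, eval_C, eval_natCast] at hc
  rw [hc, add_assoc, add_sub_cancel_left, pow_two P]
  refine add_mem (Ideal.mul_mem_mul (Ideal.mul_mem_right _ _ hq) hb) ?_
  rw [pow_two]
  exact Ideal.mul_mem_left _ _ (Ideal.mul_mem_mul hb hb)

end ThP

/-- **row TH** -/
theorem thC : TH := by
  intro K _ _ _ P hP h0
  classical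
  haveI hM : P.IsMaximal := hP.isMaximal h0
  letI := Ideal.Quotient.field P
  haveI : Finite (𝓞 K ⧸ P) := Ideal.finiteQuotientOfFreeOfNeBot P h0
  letI := Fintype.ofFinite (𝓞 K ⧸ P)
  obtain ⟨γ, hγ⟩ := IsCyclic.exists_monoid_generator (α := (𝓞 K ⧸ P)ˣ)
  obtain ⟨θ0, e0⟩ := Ideal.Quotient.mk_surjective (γ : 𝓞 K ⧸ P)
  obtain ⟨π, p1, p2⟩ := Ideal.exists_mem_pow_notMem_pow_succ P h0 hP.ne_top 1
  rw [pow_one] at p1
  set q := Fintype.card (𝓞 K ⧸ P) with hq
  have q0 : (q : 𝓞 K) ∈ P := by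
    rw [← Ideal.Quotient.eq_zero_iff_mem, map_natCast]
    exact FiniteField.cast_card_eq_zero _
  have le2 : P ^ 2 ≤ P := Ideal.pow_le_self two_ne_zero
  obtain ⟨θ1, e1, n1⟩ : ∃ θ1, Ideal.Quotient.mk P θ1 = γ ∧ θ1 ^ q - θ1 ∉ P ^ 2 := by
    by_cases c : θ0 ^ q - θ0 ∈ P ^ 2
    · refine ⟨θ0 + π, by rw [map_add, e0, Ideal.Quotient.eq_zero_iff_mem.2 p1, add_zero],
        fun k => p2 ?_⟩
      have := sub_mem (add_mem (ThP.step q0 (a := θ0) p1) c) k
      rwa [show (θ0 + π) ^ q - θ0 ^ q + (θ0 ^ q - θ0) - ((θ0 + π) ^ q - (θ0 + π)) = π by ring]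
        at this
    · exact ⟨θ0, e0, c⟩
  have hb : ∀ s : Ga K, ∃ b : 𝓞 K, b - 1 ∈ P ^ 2 ∧ ((∃ x ∈ P, s • x ∉ P) → s • b ∈ P) := by
    intro s
    by_cases c : ∃ x ∈ P, s • x ∉ P
    · obtain ⟨x, x1, x2⟩ := c
      obtain ⟨y, z, z1, z2⟩ := hM.exists_inv (x := (s • x) ^ 2) fun k => x2 (hP.mem_of_pow_mem _ k)
      refine ⟨s⁻¹ • z, ?_, fun _ => by rwa [smul_inv_smul]⟩
      have := congrArg (fun t => s⁻¹ • t) z2
      simp only [smul_add, smul_mul', smul_pow', inv_smul_smul, smul_one] at this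
      rw [show s⁻¹ • z - 1 = -(s⁻¹ • y) * x ^ 2 by rw [← this]; ring]
      exact Ideal.mul_mem_left _ _ (Ideal.pow_mem_pow x1 2)
    · exact ⟨1, by simp, fun k => absurd k c⟩
  choose b b1 b2 using hb
  have B1 : (∏ s, b s) - 1 ∈ P ^ 2 := by
    rw [← Ideal.Quotient.eq, map_prod, map_one]
    exact Finset.prod_eq_one fun s _ => (Ideal.Quotient.eq.2 (b1 s)).trans (map_one _)
  set θ := θ1 * ∏ s, b s with hθ
  have t1 : θ - θ1 ∈ P ^ 2 := by
    rw [hθ, ← mul_sub_one]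
    exact Ideal.mul_mem_left _ _ B1
  have e2 : Ideal.Quotient.mk P θ = γ := (Ideal.Quotient.eq.2 (le2 t1)).trans e1
  have n2 : θ ^ q - θ ∉ P ^ 2 := fun k => n1 (by
    have := Ideal.Quotient.eq.2 t1
    rw [← Ideal.Quotient.eq_zero_iff_mem, map_sub, map_pow] at k ⊢
    rwa [← this])
  have m2 : θ ^ q - θ ∈ P := by
    rw [← Ideal.Quotient.eq_zero_iff_mem, map_sub, map_pow, FiniteField.pow_card, sub_self]
  have ef : aeval θ (X ^ q - X : ℤ[X]) = θ ^ q - θ := by simp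
  have g1 : ∀ x, ∃ g : ℤ[X], x - aeval θ g ∈ P := fun x => by
    by_cases c : x ∈ P
    · exact ⟨0, by simpa using c⟩
    · obtain ⟨n, hn⟩ := hγ (Units.mk0 (Ideal.Quotient.mk P x)
        fun k => c (Ideal.Quotient.eq_zero_iff_mem.1 k))
      refine ⟨X ^ n, ?_⟩
      rw [← Ideal.Quotient.eq, map_pow, aeval_X, map_pow, e2]
      have := congrArg Units.val hn
      simpa using this.symm
  refine ⟨θ, ThP.ap (f := X ^ q - X) (ef ▸ m2) (fun c hc => ?_) g1, fun s hs k => hs ?_⟩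
  · obtain ⟨d, e, he, h⟩ := Ideal.exists_mul_add_mem_pow_succ (i := 1) h0 (θ ^ q - θ) c
      (by rwa [pow_one]) n2 (by rwa [pow_one])
    refine ⟨d, ?_⟩
    rw [ef, ← h, mul_comm d, add_sub_cancel_left]
    exact he
  · by_cases c : ∃ x ∈ P, s • x ∉ P
    · have a1 : s • θ ∈ P := by
        rw [hθ, smul_mul', ← Finset.mul_prod_erase _ b (Finset.mem_univ s), smul_mul']
        exact Ideal.mul_mem_left _ _ (Ideal.mul_mem_right _ _ (b2 s c))
      have a2 : θ ∈ P := by simpa using sub_mem a1 k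
      exact absurd ((e2.symm.trans (Ideal.Quotient.eq_zero_iff_mem.2 a2))) γ.ne_zero
    · push Not at c
      intro x
      obtain ⟨g, hg⟩ := g1 x
      have a1 := c _ hg
      have a2 : s • aeval θ g = aeval (s • θ) g :=
        (Polynomial.aeval_algHom_apply (MulSemiringAction.toRingHom _ _ s).toIntAlgHom θ g).symm
      have a3 : aeval (s • θ) g - aeval θ g ∈ P :=
        Ideal.mem_of_dvd _ (by
          rw [aeval_def, aeval_def, eval₂_eq_eval_map, eval₂_eq_eval_map]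
          exact Polynomial.sub_dvd_eval_sub _ _ _) k
      rw [smul_sub, a2] at a1
      have := sub_mem (add_mem a1 a3) hg
      rwa [show s • x - aeval (s • θ) g + (aeval (s • θ) g - aeval θ g) - (x - aeval θ g) =
        s • x - x by ring] at this

end Vale.Agent.P022T
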