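import Vale.Agent.P022T.Defs

/-!
# P022T: a good generator
-/

set_option linter.all false

open NumberField Polynomial

noncomputable section

namespace Vale.Agent.P022T.H10

variable {A : Type} [CommRing A] [IsDedekindDomain A] {P : Ideal A}

theorem gen [P.IsMaximal] [Finite (A ⧸ P)] (h0 : P ≠ ⊥) : ∃ (θ : A) (q : ℕ), θ ∉ P ∧
    (∀ x, x ∈ P ∨ ∃ n : ℕ, x - θ ^ n ∈ P) ∧ θ ^ q - θ ∈ P ∧ θ ^ q - θ ∉ P ^ 2 := by
  classical
  letI := Ideal.Quotient.field P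
  letI := Fintype.ofFinite (A ⧸ P)
  obtain ⟨u, hu⟩ := IsCyclic.exists_monoid_generator (α := (A ⧸ P)ˣ)
  have key : ∀ θ : A, Ideal.Quotient.mk P θ = u → θ ∉ P ∧
      (∀ x, x ∈ P ∨ ∃ n : ℕ, x - θ ^ n ∈ P) ∧ θ ^ Fintype.card (A ⧸ P) - θ ∈ P := fun θ h => by
    refine ⟨fun k => u.ne_zero (h ▸ Ideal.Quotient.eq_zero_iff_mem.2 k), fun x => ?_, ?_⟩
    · by_cases k : x ∈ P
      · exact Or.inl k
      · obtain ⟨n, hn⟩ := hu (Units.mk0 _ (mt Ideal.Quotient.eq_zero_iff_mem.1 k))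
        refine Or.inr ⟨n, Ideal.Quotient.eq.1 ?_⟩
        rw [map_pow, h, ← Units.val_pow_eq_pow_val, show u ^ n = _ from hn, Units.val_mk0]
    · rw [← Ideal.Quotient.eq, map_pow, FiniteField.pow_card]
  obtain ⟨θ, hθ⟩ := Ideal.Quotient.mk_surjective (u : A ⧸ P)
  by_cases c : θ ^ Fintype.card (A ⧸ P) - θ ∈ P ^ 2
  · obtain ⟨π, p1, p2⟩ := P.exists_mem_pow_notMem_pow_succ h0 (Ideal.IsMaximal.ne_top ‹_›) 1
    rw [pow_one] at p1
    obtain ⟨a, b, d⟩ := key (θ + π) (by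
      rw [map_add, hθ, Ideal.Quotient.eq_zero_iff_mem.2 p1, add_zero])
    refine ⟨θ + π, _, a, b, d, fun k => p2 ?_⟩
    obtain ⟨z, hz⟩ := sq_dvd_add_pow_sub_sub π θ (Fintype.card (A ⧸ P))
    have hq : (Fintype.card (A ⧸ P) : A) ∈ P := by
      rw [← Ideal.Quotient.eq_zero_iff_mem, map_natCast, FiniteField.cast_card_eq_zero]
    have e : π = θ ^ Fintype.card (A ⧸ P) - θ + π ^ 2 * z +
        θ ^ (Fintype.card (A ⧸ P) - 1) * (π * Fintype.card (A ⧸ P)) -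
        ((θ + π) ^ Fintype.card (A ⧸ P) - (θ + π)) := by linear_combination hz
    rw [e]
    exact sub_mem (add_mem (add_mem c (Ideal.mul_mem_right _ _ (Ideal.pow_mem_pow p1 2)))
      (Ideal.mul_mem_left _ _ (by rw [pow_two]; exact Ideal.mul_mem_mul p1 hq))) k
  · obtain ⟨a, b, d⟩ := key θ hθ
    exact ⟨θ, _, a, b, d, c⟩

theorem step [P.IsPrime] (h0 : P ≠ ⊥) {π : A} (p1 : π ∈ P) (p2 : π ∉ P ^ 2) (N : ℕ) :
    ∀ x ∈ P ^ N, ∃ y, x - π ^ N * y ∈ P ^ (N + 1) := by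
  have one : ∀ x ∈ P, ∃ y, x - π * y ∈ P ^ 2 := fun x hx => by
    have e : P ^ 2 ⊔ Ideal.span {π} = P ^ 1 := Ideal.eq_prime_pow_of_succ_lt_of_le h0
      (left_lt_sup.2 fun k => p2 (k (Ideal.mem_span_singleton_self π)))
      (sup_le (Ideal.pow_le_pow_right one_le_two)
        ((Ideal.span_singleton_le_iff_mem _).2 (by rwa [pow_one])))
    rw [← pow_one P, ← e] at hx
    obtain ⟨a, ha, b, hb, rfl⟩ := Submodule.mem_sup.1 hx
    obtain ⟨y, rfl⟩ := Ideal.mem_span_singleton.1 hb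
    exact ⟨y, by rwa [add_sub_cancel_right]⟩
  induction N with
  | zero => exact fun x _ => ⟨x, by simp⟩
  | succ N ih =>
    intro x hx
    rw [pow_succ] at hx
    refine Submodule.mul_induction_on hx (fun a ha b hb => ?_) ?_
    · obtain ⟨y, hy⟩ := ih a ha
      obtain ⟨z, hz⟩ := one b hb
      refine ⟨y * z, ?_⟩
      rw [show a * b - π ^ (N + 1) * (y * z) = (a - π ^ N * y) * b + y * (π ^ N * (b - π * z)) by
        ring]
      refine add_mem (by rw [pow_succ]; exact Ideal.mul_mem_mul hy hb) (Ideal.mul_mem_left _ _ ?_)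
      rw [add_assoc, pow_add]
      exact Ideal.mul_mem_mul (Ideal.pow_mem_pow p1 N) hz
    · rintro a b ⟨y, hy⟩ ⟨z, hz⟩
      exact ⟨y + z, by
        rw [show a + b - π ^ (N + 1) * (y + z) = (a - π ^ (N + 1) * y) + (b - π ^ (N + 1) * z) by
          ring]
        exact add_mem hy hz⟩

theorem dense [P.IsPrime] (h0 : P ≠ ⊥) {θ : A} {q : ℕ}
    (h : ∀ x, x ∈ P ∨ ∃ n : ℕ, x - θ ^ n ∈ P) (p1 : θ ^ q - θ ∈ P) (p2 : θ ^ q - θ ∉ P ^ 2)
    (N : ℕ) (x : A) : ∃ g : ℤ[X], x - aeval θ g ∈ P ^ N := by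
  induction N with
  | zero => exact ⟨0, by simp⟩
  | succ N ih =>
    obtain ⟨g, hg⟩ := ih
    obtain ⟨y, hy⟩ := step h0 p1 p2 N _ hg
    obtain ⟨k, hk⟩ : ∃ k : ℤ[X], y - aeval θ k ∈ P := (h y).elim (fun c => ⟨0, by simpa⟩)
      fun ⟨n, c⟩ => ⟨X ^ n, by simpa⟩
    refine ⟨g + (X ^ q - X) ^ N * k, ?_⟩
    rw [map_add, map_mul, map_pow, map_sub, map_pow, aeval_X,
      show x - (aeval θ g + (θ ^ q - θ) ^ N * aeval θ k) =
        x - aeval θ g - (θ ^ q - θ) ^ N * y + (θ ^ q - θ) ^ N * (y - aeval θ k) by ring]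
    exact add_mem hy (by rw [pow_succ]; exact Ideal.mul_mem_mul (Ideal.pow_mem_pow p1 N) hk)

/-- **row TH** -/
theorem thC : TH := by
  classical
  intro K _ _ _ P hP h0
  haveI : P.IsMaximal := hP.isMaximal h0
  haveI : Finite (𝓞 K ⧸ P) := Ideal.finiteQuotientOfFreeOfNeBot P h0
  obtain ⟨θ, q, a1, a2, a3, a4⟩ := gen h0
  let Q : Ga K → Ideal (𝓞 K) := fun s => P.comap (MulSemiringAction.toRingHom (Ga K) (𝓞 K) s)
  have hQ : ∀ s x, x ∈ Q s ↔ s • x ∈ P := fun _ _ => Iff.rfl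
  have mx : ∀ s, (Q s).IsMaximal := fun s => Ideal.comap_isMaximal_of_surjective _
    fun x => ⟨s⁻¹ • x, smul_inv_smul s x⟩
  have co : IsCoprime (P ^ 2) (⨅ s ∈ Finset.univ.filter fun s => Q s ≠ P, Q s) :=
    Ideal.isCoprime_biInf fun s hs => IsCoprime.pow_left (Ideal.isCoprime_iff_sup_eq.2
      (Ideal.IsMaximal.coprime_of_ne ‹_› (mx s) (Finset.mem_filter.1 hs).2.symm))
  obtain ⟨a, ha, b, hb, e⟩ := Ideal.isCoprime_iff_exists.1 co
  have c2 : b * θ - θ ∈ P ^ 2 := by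
    rw [show b * θ - θ = -(a * θ) by linear_combination θ * e]
    exact neg_mem (Ideal.mul_mem_right _ _ ha)
  have pw : ∀ {I : Ideal (𝓞 K)} {x y : 𝓞 K} (n : ℕ), x - y ∈ I → x ^ n - y ^ n ∈ I :=
    fun n h => Ideal.mem_of_dvd _ (sub_dvd_pow_sub_pow _ _ n) h
  have le : P ^ 2 ≤ P := Ideal.pow_le_self two_ne_zero
  have c3 : (b * θ) ^ q - b * θ - (θ ^ q - θ) ∈ P ^ 2 := by
    rw [show (b * θ) ^ q - b * θ - (θ ^ q - θ) = ((b * θ) ^ q - θ ^ q) - (b * θ - θ) by ring]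
    exact sub_mem (pw q c2) c2
  have b2 : ∀ x, x ∈ P ∨ ∃ n : ℕ, x - (b * θ) ^ n ∈ P := fun x => (a2 x).imp_right
    fun ⟨n, h⟩ => ⟨n, by simpa using sub_mem h (pw n (le c2))⟩
  refine ⟨b * θ, dense (q := q) h0 b2 (by simpa using add_mem (le c3) a3)
    (fun k => a4 (by simpa using sub_mem k c3)), fun s hs k => ?_⟩
  by_cases c : Q s = P
  · refine hs fun x => ?_
    have m : ∀ y ∈ P, s • y ∈ P := fun y hy => (hQ s y).1 (c ▸ hy)
    rcases b2 x with h | ⟨n, h⟩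
    · exact sub_mem (m x h) h
    · have := sub_mem (add_mem (m _ h) (pw n k)) h
      rw [smul_sub, smul_pow'] at this
      simpa using this
  · have m : s • (b * θ) ∈ P := (hQ s _).1 (Ideal.mul_mem_right _ _
      ((Submodule.mem_iInf _).1 ((Submodule.mem_iInf _).1 hb s)
        (Finset.mem_filter.2 ⟨Finset.mem_univ _, c⟩)))
    exact a1 (by simpa using sub_mem (sub_mem m k) (le c2))

end Vale.Agent.P022T.H10
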