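import Vale.Agent.P022T.Defs

/-!
# P022T: row TH
-/

set_option linter.all false

open NumberField Polynomial

noncomputable section

namespace Vale.Agent.P022T.H40

theorem pw {R : Type} [CommRing R] {P : Ideal R} {π : R} (hπ : π ∈ P)
    (h : P ≤ Ideal.span {π} ⊔ P ^ 2) (N : ℕ) : P ^ N ≤ Ideal.span {π ^ N} ⊔ P ^ (N + 1) := by
  induction N with
  | zero => simp
  | succ N ih =>
    have h1 : Ideal.span {π ^ N} ≤ P ^ N :=
      (Ideal.span_singleton_le_iff_mem _).2 (Ideal.pow_mem_pow hπ N)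
    calc P ^ (N + 1) = P ^ N * P := pow_succ _ _
      _ ≤ (Ideal.span {π ^ N} ⊔ P ^ (N + 1)) * P := Ideal.mul_mono_left ih
      _ = Ideal.span {π ^ N} * P ⊔ P ^ (N + 1 + 1) := by rw [Ideal.sup_mul, ← pow_succ]
      _ ≤ _ := by
        refine sup_le ((Ideal.mul_mono_right h).trans ?_) le_sup_right
        rw [Ideal.mul_sup, Ideal.span_singleton_mul_span_singleton, ← pow_succ]
        refine sup_le_sup_left ((Ideal.mul_mono_left h1).trans ?_) _
        rw [← pow_add]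

theorem thC : TH := by
  classical
  intro K _ _ _ P hP h0
  haveI hM : P.IsMaximal := hP.isMaximal h0
  letI : Field (𝓞 K ⧸ P) := Ideal.Quotient.field P
  haveI : Finite (𝓞 K ⧸ P) := Ideal.finiteQuotientOfFreeOfNeBot P h0
  letI : Fintype (𝓞 K ⧸ P) := Fintype.ofFinite _
  obtain ⟨u, hu⟩ := IsCyclic.exists_monoid_generator (α := (𝓞 K ⧸ P)ˣ)
  obtain ⟨θ0, e0⟩ := Ideal.Quotient.mk_surjective (u : 𝓞 K ⧸ P)
  obtain ⟨q, hq⟩ : ∃ q, q = Fintype.card (𝓞 K ⧸ P) := ⟨_, rfl⟩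
  have hqP : (q : 𝓞 K) ∈ P := by
    rw [← Ideal.Quotient.eq_zero_iff_mem, map_natCast, hq]
    exact FiniteField.cast_card_eq_zero _
  have hfr : ∀ x : 𝓞 K, x ^ q - x ∈ P := fun x => by
    rw [← Ideal.Quotient.eq, map_pow, hq]
    exact FiniteField.pow_card _
  obtain ⟨π0, p1, p2⟩ := SetLike.exists_of_lt (Ideal.pow_succ_lt_pow h0 1)
  rw [pow_one] at p1
  have h1 : ∃ θ1 : 𝓞 K, θ1 - θ0 ∈ P ∧ θ1 ^ q - θ1 ∉ P ^ 2 := by
    by_cases c : θ0 ^ q - θ0 ∈ P ^ 2
    · refine ⟨θ0 + π0, by simpa using p1, fun k => p2 ?_⟩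
      obtain ⟨z, hz⟩ := (X ^ q : (𝓞 K)[X]).binomExpansion θ0 π0
      simp only [eval_pow, eval_X, derivative_X_pow, eval_mul, eval_C] at hz
      have a1 : (q : 𝓞 K) * π0 ∈ P ^ 2 := by rw [sq]; exact Ideal.mul_mem_mul hqP p1
      have a2 : π0 ^ 2 ∈ P ^ 2 := Ideal.pow_mem_pow p1 2
      have e : π0 = θ0 ^ q - θ0 + θ0 ^ (q - 1) * (q * π0) + z * π0 ^ 2 -
          ((θ0 + π0) ^ q - (θ0 + π0)) := by rw [hz]; ring
      rw [e]
      exact sub_mem (add_mem (add_mem c (Ideal.mul_mem_left _ _ a1)) (Ideal.mul_mem_left _ _ a2)) k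
    · exact ⟨θ0, by simp, c⟩
  obtain ⟨θ1, t1, t2⟩ := h1
  let f : Ga K → Ideal (𝓞 K) := fun s => P.comap (MulSemiringAction.toRingHom _ _ s)
  have hf : ∀ s, (f s).IsMaximal := fun s =>
    Ideal.comap_isMaximal_of_surjective _ (MulAction.surjective s)
  have hc : IsCoprime (P ^ 2) (∏ s ∈ Finset.univ.filter (fun s => f s ≠ P), f s) :=
    IsCoprime.pow_left (IsCoprime.prod_right fun s hs => Ideal.isCoprime_iff_sup_eq.2
      (hM.coprime_of_ne (hf s) (Finset.mem_filter.1 hs).2.symm))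
  obtain ⟨a, ha, b, hb, hab⟩ := Ideal.isCoprime_iff_exists.1 hc
  have k1 : θ1 * b - θ1 ∈ P ^ 2 := by
    have : θ1 * b - θ1 = -θ1 * a := by linear_combination θ1 * hab
    rw [this]
    exact Ideal.mul_mem_left _ _ ha
  have k5 : ∀ s, f s ≠ P → θ1 * b ∈ f s := fun s hs => Ideal.mul_mem_left _ _
    (Ideal.prod_le_inf.trans (Finset.inf_le (Finset.mem_filter.2 ⟨Finset.mem_univ s, hs⟩)) hb)
  generalize θ1 * b = θ at k1 k5
  have k2 : Ideal.Quotient.mk P θ = u := by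
    rw [← e0, Ideal.Quotient.eq]
    have := add_mem (Ideal.pow_le_self two_ne_zero k1) t1
    rwa [sub_add_sub_cancel] at this
  have k3 : θ ^ q - θ ∉ P ^ 2 := fun k => t2 (by
    obtain ⟨c, hc⟩ := sub_dvd_pow_sub_pow θ θ1 q
    have e : θ1 ^ q - θ1 = θ ^ q - θ - (θ - θ1) * c + (θ - θ1) := by rw [← hc]; ring
    rw [e]
    exact add_mem (sub_mem k (Ideal.mul_mem_right _ _ k1)) k1)
  have k4 : ∀ x : 𝓞 K, ∃ g : ℤ[X], x - aeval θ g ∈ P := fun x => by
    by_cases c : Ideal.Quotient.mk P x = 0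
    · exact ⟨0, by simpa using Ideal.Quotient.eq_zero_iff_mem.1 c⟩
    · obtain ⟨n, hn⟩ := hu (Units.mk0 _ c)
      refine ⟨X ^ n, ?_⟩
      rw [← Ideal.Quotient.eq, map_pow, aeval_X, map_pow, k2, ← Units.val_pow_eq_pow_val]
      exact (congrArg Units.val hn).symm
  have k6 : P ≤ Ideal.span {θ ^ q - θ} ⊔ P ^ 2 := by
    have := Ideal.eq_prime_pow_of_succ_lt_of_le (I := Ideal.span {θ ^ q - θ} ⊔ P ^ 2) h0 (i := 1)
      (lt_of_le_of_ne le_sup_right fun e => k3 (by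
        rw [show P ^ 2 = _ from e]
        exact Ideal.mem_sup_left (Ideal.mem_span_singleton_self _)))
      (by
        rw [pow_one]
        exact sup_le ((Ideal.span_singleton_le_iff_mem _).2 (hfr θ)) (Ideal.pow_le_self two_ne_zero))
    rw [this, pow_one]
  refine ⟨θ, fun N x => ?_, fun s hs k => hs fun x => ?_⟩
  · induction N with
    | zero => exact ⟨0, by simp⟩
    | succ N ih =>
      obtain ⟨g, hg⟩ := ih
      obtain ⟨y, hy, z, hz, e⟩ := Submodule.mem_sup.1 (pw (hfr θ) k6 N hg)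
      obtain ⟨c, rfl⟩ := Ideal.mem_span_singleton'.1 hy
      obtain ⟨g1, h1⟩ := k4 c
      refine ⟨g + g1 * (X ^ q - X) ^ N, ?_⟩
      have e1 : x - aeval θ (g + g1 * (X ^ q - X) ^ N) = (θ ^ q - θ) ^ N * (c - aeval θ g1) + z := by
        simp only [map_add, map_mul, map_pow, map_sub, aeval_X]
        linear_combination -e
      rw [e1, pow_succ P]
      exact add_mem (Ideal.mul_mem_mul (Ideal.pow_mem_pow (hfr θ) N) h1) (pow_succ P N ▸ hz)
  · have c : f s = P := by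
      by_contra c
      have a1 : s • θ ∈ P := k5 s c
      have a2 := sub_mem a1 k
      rw [sub_sub_cancel, ← Ideal.Quotient.eq_zero_iff_mem, k2] at a2
      exact u.ne_zero a2
    obtain ⟨g, hg⟩ := k4 x
    have a1 : s • (x - aeval θ g) ∈ P := by
      have : x - aeval θ g ∈ f s := c.symm ▸ hg
      exact this
    have a2 : s • aeval θ g = aeval (s • θ) g :=
      (aeval_algHom_apply (MulSemiringAction.toRingHom _ _ s).toIntAlgHom θ g).symm
    obtain ⟨d, hd⟩ := sub_dvd_eval_sub (s • θ) θ (g.map (algebraMap ℤ (𝓞 K)))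
    rw [eval_map_algebraMap, eval_map_algebraMap] at hd
    have e : s • x - x = s • (x - aeval θ g) + (s • θ - θ) * d - (x - aeval θ g) := by
      rw [smul_sub, a2, ← hd]; ring
    rw [e]
    exact sub_mem (add_mem a1 (Ideal.mul_mem_right _ _ k)) hg

end Vale.Agent.P022T.H40
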