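import Vale.Agent.P022T.Defs

/-!
# P022T: a good generator
-/

set_option linter.all false

open NumberField Polynomial

noncomputable section

namespace Vale.Agent.P022T.H77

variable {R : Type} [CommRing R]

theorem res (P : Ideal R) [P.IsMaximal] [Finite (R ⧸ P)] :
    ∃ (a : R) (q : ℕ), a ∉ P ∧ (∀ x, x ∉ P → ∃ n : ℕ, x - a ^ n ∈ P) ∧ (q : R) ∈ P ∧
      ∀ x, x ^ q - x ∈ P := by
  letI := Ideal.Quotient.field P
  letI := Fintype.ofFinite (R ⧸ P)
  obtain ⟨g, hg⟩ := IsCyclic.exists_monoid_generator (α := (R ⧸ P)ˣ)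
  obtain ⟨a, ha⟩ := Ideal.Quotient.mk_surjective (g : R ⧸ P)
  refine ⟨a, Fintype.card (R ⧸ P), fun h => g.ne_zero (ha ▸ Ideal.Quotient.eq_zero_iff_mem.2 h),
    fun x hx => ?_, ?_, fun x => ?_⟩
  · obtain ⟨n, hn⟩ := hg (Units.mk0 (Ideal.Quotient.mk P x)
      fun h => hx (Ideal.Quotient.eq_zero_iff_mem.1 h))
    refine ⟨n, Ideal.Quotient.eq.1 ?_⟩
    rw [map_pow, ha, ← Units.val_pow_eq_pow_val]
    exact (congrArg Units.val hn).symm
  · rw [← Ideal.Quotient.eq_zero_iff_mem, map_natCast]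
    exact FiniteField.cast_card_eq_zero _
  · rw [← Ideal.Quotient.eq, map_pow]
    exact FiniteField.pow_card _

theorem unif (P : Ideal R) {a p : R} {q : ℕ} (hq : (q : R) ∈ P) (h1 : p ∈ P) (h2 : p ∉ P ^ 2) :
    ∃ b, b - a ∈ P ∧ b ^ q - b ∉ P ^ 2 := by
  by_cases h : a ^ q - a ∈ P ^ 2
  · refine ⟨a + p, by simpa using h1, fun k => h2 ?_⟩
    obtain ⟨c, hc⟩ := sq_dvd_add_pow_sub_sub p a q
    have e : p = p ^ 2 * c + a ^ (q - 1) * (p * q) + (a ^ q - a) - ((a + p) ^ q - (a + p)) := by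
      rw [← hc]; ring
    rw [e]
    refine sub_mem (add_mem (add_mem (Ideal.mul_mem_right _ _ (Ideal.pow_mem_pow h1 2))
      (Ideal.mul_mem_left _ _ ?_)) h) k
    rw [sq]
    exact Ideal.mul_mem_mul h1 hq
  · exact ⟨a, by simp, h⟩

theorem pw {P : Ideal R} {p : R} (h : P ≤ Ideal.span {p} ⊔ P ^ 2) (h1 : p ∈ P) (N : ℕ) :
    P ^ N ≤ Ideal.span {p ^ N} ⊔ P ^ (N + 1) := by
  induction N with
  | zero => simp
  | succ N ih =>
    rw [pow_succ P N]
    refine (Ideal.mul_mono ih h).trans ?_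
    have a1 : Ideal.span {p} ≤ P := (Ideal.span_singleton_le_iff_mem _).2 h1
    have a2 : Ideal.span {p ^ N} ≤ P ^ N :=
      (Ideal.span_singleton_le_iff_mem _).2 (Ideal.pow_mem_pow h1 N)
    rw [Ideal.sup_mul, Ideal.mul_sup, Ideal.mul_sup]
    refine sup_le (sup_le ?_ (le_sup_of_le_right ?_)) (sup_le (le_sup_of_le_right ?_)
      (le_sup_of_le_right ?_))
    · rw [Ideal.span_singleton_mul_span_singleton, ← pow_succ]
      exact le_sup_left
    · exact (Ideal.mul_mono_left a2).trans (pow_add P N 2).ge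
    · exact (Ideal.mul_mono_right a1).trans (pow_succ P (N + 1)).ge
    · rw [← pow_add]
      exact Ideal.pow_le_pow_right (by omega)

theorem ap {P : Ideal R} {θ : R} {f : ℤ[X]} (h : P ≤ Ideal.span {aeval θ f} ⊔ P ^ 2)
    (h1 : aeval θ f ∈ P) (h0 : ∀ x, ∃ g : ℤ[X], x - aeval θ g ∈ P) (N : ℕ) (x : R) :
    ∃ g : ℤ[X], x - aeval θ g ∈ P ^ N := by
  induction N with
  | zero => exact ⟨0, by simp⟩
  | succ N ih =>
    obtain ⟨g, hg⟩ := ih
    obtain ⟨y, hy, z, hz, e⟩ := Submodule.mem_sup.1 (pw h h1 N hg)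
    obtain ⟨c, rfl⟩ := Ideal.mem_span_singleton'.1 hy
    obtain ⟨g', hg'⟩ := h0 c
    refine ⟨g + g' * f ^ N, ?_⟩
    have e' : x - aeval θ (g + g' * f ^ N) = aeval θ f ^ N * (c - aeval θ g') + z := by
      rw [map_add, map_mul, map_pow, ← sub_sub, ← e]; ring
    rw [e']
    exact add_mem (pow_succ P N ▸ Ideal.mul_mem_mul (Ideal.pow_mem_pow h1 N) hg') hz

theorem thC : TH := by
  classical
  intro K _ _ _ P hP h0
  haveI : P.IsMaximal := hP.isMaximal h0
  obtain ⟨a, q, a1, a2, a3, a4⟩ := res P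
  obtain ⟨p, p1, p2⟩ := Ideal.exists_mem_pow_notMem_pow_succ P h0 hP.ne_top 1
  obtain ⟨b, b1, b2⟩ := unif P (a := a) a3 (pow_one P ▸ p1) p2
  let Q : Ga K → Ideal (𝓞 K) := fun s => P.comap (MulSemiringAction.toRingHom (Ga K) (𝓞 K) s)
  have hQ : ∀ s, (Q s).IsMaximal := fun s => Ideal.comap_isMaximal_of_surjective _
    fun y => ⟨s⁻¹ • y, smul_inv_smul s y⟩
  have co : IsCoprime (∏ s ∈ Finset.univ.filter (fun s => Q s ≠ P), Q s) (P ^ 2) :=
    IsCoprime.pow_right (IsCoprime.prod_left fun s hs => Ideal.isCoprime_iff_sup_eq.2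
      ((hQ s).coprime_of_ne inferInstance (Finset.mem_filter.1 hs).2))
  obtain ⟨u, hu, v, hv, e⟩ := Submodule.mem_sup.1
    ((Ideal.eq_top_iff_one _).1 (Ideal.isCoprime_iff_sup_eq.1 co))
  have c1 : u * b - b ∈ P ^ 2 := by
    rw [show u * b - b = v * -b by rw [eq_sub_of_add_eq e]; ring]
    exact Ideal.mul_mem_right _ _ hv
  have c2 : u * b - a ∈ P := by
    simpa using add_mem (Ideal.pow_le_self two_ne_zero c1) b1
  have c3 : (u * b) ^ q - u * b ∉ P ^ 2 := fun k => b2 (by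
    obtain ⟨c, hc⟩ := sub_dvd_pow_sub_pow (u * b) b q
    have : b ^ q - b = (u * b) ^ q - u * b - (u * b - b) * c + (u * b - b) := by
      rw [← hc]; ring
    rw [this]
    exact add_mem (sub_mem k (Ideal.mul_mem_right _ _ c1)) c1)
  have c4 : ∀ x, x ∉ P → ∃ n : ℕ, x - (u * b) ^ n ∈ P := fun x hx => by
    obtain ⟨n, hn⟩ := a2 x hx
    obtain ⟨c, hc⟩ := sub_dvd_pow_sub_pow (u * b) a n
    refine ⟨n, ?_⟩
    rw [show x - (u * b) ^ n = x - a ^ n - (u * b - a) * c by rw [← hc]; ring]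
    exact sub_mem hn (Ideal.mul_mem_right _ _ c2)
  have ef : aeval (u * b) (X ^ q - X : ℤ[X]) = (u * b) ^ q - u * b := by simp
  refine ⟨u * b, fun N x => ap (f := X ^ q - X) (fun y hy => ?_) (ef ▸ a4 _) (fun x => ?_) N x,
    fun s hs k => hs fun x => ?_⟩
  · obtain ⟨d, z, hz, e⟩ := Ideal.exists_mul_add_mem_pow_succ h0 (i := 1) _ y
      ((pow_one P).symm ▸ a4 (u * b)) c3 ((pow_one P).symm ▸ hy)
    rw [ef, ← e]
    exact add_mem (Ideal.mem_sup_left (Ideal.mul_mem_right _ _ (Ideal.mem_span_singleton_self _)))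
      (Ideal.mem_sup_right hz)
  · by_cases hx : x ∈ P
    · exact ⟨0, by simpa using hx⟩
    · obtain ⟨n, hn⟩ := c4 x hx
      exact ⟨X ^ n, by simpa using hn⟩
  · have e1 : Q s = P := by
      by_contra ne
      have m : u * b ∈ Q s := Ideal.mul_mem_right _ _ (Ideal.prod_le_inf.trans
        (Finset.inf_le (Finset.mem_filter.2 ⟨Finset.mem_univ s, ne⟩)) hu)
      have m' : s • (u * b) ∈ P := m
      exact a1 (by simpa using sub_mem (sub_mem m' k) c2)
    have st : ∀ y ∈ P, s • y ∈ P := fun y hy => (e1.ge hy : y ∈ Q s)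
    by_cases hx : x ∈ P
    · exact sub_mem (st x hx) hx
    · obtain ⟨n, hn⟩ := c4 x hx
      obtain ⟨c, hc⟩ := sub_dvd_pow_sub_pow (s • (u * b)) (u * b) n
      have := st _ hn
      rw [smul_sub, smul_pow'] at this
      rw [show s • x - x = s • x - (s • (u * b)) ^ n + (s • (u * b) - u * b) * c -
        (x - (u * b) ^ n) by rw [← hc]; ring]
      exact sub_mem (add_mem this (Ideal.mul_mem_right _ _ k)) hn

end Vale.Agent.P022T.H77
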