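import Vale.Agent.P022T.Defs

/-!
# P022T: the inertia group at two is tame or consists of involutions
-/

set_option linter.all false

open NumberField Polynomial Matrix

noncomputable section

namespace Vale.Agent.P022T.H62

section mat
variable {k : Type} [Field k] [CharP k 2]

theorem one_of {x : k} (h : x * x = 1) : x = 1 := by
  have h2 : (2 : k) = 0 := CharTwo.two_eq_zero
  have : (x - 1) ^ 2 = 0 := by linear_combination h + (1 - x) * h2
  exact sub_eq_zero.1 (pow_eq_zero_iff two_ne_zero |>.1 this)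

theorem sq_one {A : Matrix (Fin 2) (Fin 2) k} (h1 : A.trace = 0) (h2 : A.det = 1) : A * A = 1 := by
  have h : (2 : k) = 0 := CharTwo.two_eq_zero
  rw [trace_fin_two] at h1
  rw [det_fin_two] at h2
  ext i j
  fin_cases i <;> fin_cases j <;> simp [mul_apply, Fin.sum_univ_two]
  · linear_combination A 0 0 * h1 - h2 - h
  · linear_combination A 0 1 * h1
  · linear_combination A 1 0 * h1
  · linear_combination A 1 1 * h1 - h2 - h

theorem tr_sq (A : Matrix (Fin 2) (Fin 2) k) : (A * A).trace = A.trace * A.trace := by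
  have h : (2 : k) = 0 := CharTwo.two_eq_zero
  simp only [trace_fin_two, mul_apply, Fin.sum_univ_two]
  linear_combination (A 0 1 * A 1 0 - A 0 0 * A 1 1) * h

theorem two_pow (j : ℕ) : ∀ A : Matrix (Fin 2) (Fin 2) k, A ^ 2 ^ j = 1 →
    A.trace = 0 ∧ A.det = 1 := by
  induction j with
  | zero =>
    intro A h
    rw [pow_zero, pow_one] at h
    rw [h, det_one, trace_one]
    exact ⟨CharTwo.two_eq_zero, rfl⟩
  | succ j ih =>
    intro A h
    obtain ⟨a, b⟩ := ih (A * A) (by rw [← pow_two, ← pow_mul, ← pow_succ', h])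
    rw [tr_sq] at a
    rw [det_mul] at b
    exact ⟨mul_self_eq_zero.1 a, one_of b⟩

omit [CharP k 2] in
theorem par {M : Matrix (Fin 2) (Fin 2) k} {v u : Fin 2 → k} (hM : M ≠ 0) (hv : v ≠ 0)
    (h1 : M *ᵥ v = 0) (h2 : M *ᵥ u = 0) : ∃ c : k, u = c • v := by
  have a := fun i => congrFun h1 i
  have b := fun i => congrFun h2 i
  simp only [mulVec, dotProduct, Fin.sum_univ_two, Pi.zero_apply] at a b
  have d : v 0 * u 1 - v 1 * u 0 = 0 := by
    by_contra c
    refine hM (Matrix.ext fun i j => ?_)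
    fin_cases j
    · exact (mul_eq_zero.1 (show M i 0 * (v 0 * u 1 - v 1 * u 0) = 0 by
        linear_combination u 1 * a i - v 1 * b i)).resolve_right c
    · exact (mul_eq_zero.1 (show M i 1 * (v 0 * u 1 - v 1 * u 0) = 0 by
        linear_combination v 0 * b i - u 0 * a i)).resolve_right c
  by_cases c : v 0 = 0
  · have c' : v 1 ≠ 0 := fun e => hv (funext fun i => by fin_cases i; exacts [c, e])
    refine ⟨u 1 / v 1, funext fun i => ?_⟩
    fin_cases i
    · change u 0 = u 1 / v 1 * v 0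
      rw [c, mul_zero]
      rw [c, zero_mul, zero_sub, neg_eq_zero] at d
      exact (mul_eq_zero.1 d).resolve_left c'
    · change u 1 = u 1 / v 1 * v 1
      rw [div_mul_cancel₀ _ c']
  · refine ⟨u 0 / v 0, funext fun i => ?_⟩
    fin_cases i
    · change u 0 = u 0 / v 0 * v 0
      rw [div_mul_cancel₀ _ c]
    · change u 1 = u 0 / v 0 * v 1
      field_simp
      linear_combination d

theorem nil {A : Matrix (Fin 2) (Fin 2) k} (h : A * A = 1) : (A - 1) * (A - 1) = 0 := by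
  have h2 : (1 : Matrix (Fin 2) (Fin 2) k) + 1 = 0 := by
    rw [← two_smul k, (CharTwo.two_eq_zero : (2 : k) = 0), zero_smul]
  calc (A - 1) * (A - 1) = A * A + 1 - (1 + 1) * A := by noncomm_ring
    _ = 0 := by rw [h, h2, zero_mul, sub_zero]

/-- the group theory -/
theorem grp {G : Type} [Group G] (ρ : G →* Matrix (Fin 2) (Fin 2) k) (hρ : Function.Injective ρ)
    (N : Subgroup G) (hN : ∀ n ∈ N, n * n = 1) {s t φ : G} (hs : s ∈ N) (h1 : s ≠ 1)
    (ht : t⁻¹ * s * t ∈ N) (hφ : φ⁻¹ * s * φ ∈ N) (hn : (t * t)⁻¹ * (φ * t * φ⁻¹) ∈ N) :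
    t * t = 1 := by
  have sq : ∀ n ∈ N, ρ n * ρ n = 1 := fun n h => by rw [← map_mul, hN n h, map_one]
  have cm : ∀ a ∈ N, ∀ b ∈ N, a * b = b * a := fun a ha b hb => by
    have e := hN _ (N.mul_mem ha hb)
    calc a * b = a * (a * b * (a * b)) * b * (b * b) := by rw [e, hN b hb]; group
      _ = (a * a) * b * a * (b * b) * (b * b) := by group
      _ = b * a := by rw [hN a ha, hN b hb]; group
  have ne : ∀ n : G, n ≠ 1 → ρ n - 1 ≠ 0 := fun n h e =>
    h (hρ (by rw [map_one]; exact sub_eq_zero.1 e))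
  obtain ⟨v, hv, h0⟩ : ∃ v : Fin 2 → k, v ≠ 0 ∧ (ρ s - 1) *ᵥ v = 0 := by
    by_contra c
    push Not at c
    refine ne s h1 (Matrix.ext fun i j => ?_)
    by_contra e
    refine c ((ρ s - 1) *ᵥ Pi.single j 1) (fun z => e ?_) (by rw [mulVec_mulVec, nil (sq s hs), zero_mulVec])
    simpa using congrFun z i
  have inj : ∀ (g : G) (c : k), ρ g *ᵥ v = c • v → c ≠ 0 := fun g c h e => hv (by
    have := congrArg (ρ g⁻¹ *ᵥ ·) h
    simp only [mulVec_mulVec, ← map_mul, inv_mul_cancel, map_one, one_mulVec, e, zero_smul,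
      mulVec_zero] at this
    exact this)
  have can : ∀ a b : k, a • v = b • v → a = b := fun a b h => by
    rw [← sub_eq_zero, ← sub_smul, smul_eq_zero] at h
    exact sub_eq_zero.1 (h.resolve_right hv)
  have fx : ∀ n ∈ N, ρ n *ᵥ v = v := fun n h => by
    obtain ⟨c, hc⟩ := par (ne s h1) hv h0 (u := ρ n *ᵥ v) (by
      rw [mulVec_mulVec, sub_mul, ← map_mul, cm s hs n h, map_mul, one_mul, ← mul_sub_one,
        ← mulVec_mulVec, h0, mulVec_zero])
    have : (c * c) • v = (1 : k) • v := by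
      rw [mul_smul, ← hc, ← mulVec_smul, ← hc, mulVec_mulVec, sq n h, one_mulVec, one_smul]
    rw [hc, one_of (can _ _ this), one_smul]
  have ev : ∀ g : G, g⁻¹ * s * g ∈ N → ∃ c : k, ρ g *ᵥ v = c • v := fun g h =>
    par (ne s h1) hv h0 (by
      have := congrArg (ρ g *ᵥ ·) (fx _ h)
      simp only [mulVec_mulVec, ← map_mul] at this
      rw [sub_mulVec, one_mulVec, mulVec_mulVec, ← map_mul, ← this, sub_eq_zero]
      congr 2
      group)
  obtain ⟨a, ha⟩ := ev t ht
  obtain ⟨b, hb⟩ := ev φ hφ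
  have e : φ * t = t * (t * ((t * t)⁻¹ * (φ * t * φ⁻¹) * φ)) := by group
  have e1 : (a * b) • v = (b * a * a) • v := by
    have := congrArg (fun g => ρ g *ᵥ v) e
    simp only [map_mul ρ φ t, map_mul ρ t (t * _), map_mul ρ t (_ * φ), map_mul ρ _ φ,
      ← mulVec_mulVec, ha, hb, mulVec_smul, fx _ hn, smul_smul] at this
    exact this
  have a1 : a = 1 := by
    have := can _ _ e1
    have h2 : (a * b) * (a - 1) = 0 := by linear_combination -this
    exact sub_eq_zero.1 ((mul_eq_zero.1 h2).resolve_left (mul_ne_zero (inj t a ha) (inj φ b hb)))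
  have d1 : (ρ t).det = 1 := by
    have dn : (ρ ((t * t)⁻¹ * (φ * t * φ⁻¹))).det = 1 := one_of (by rw [← det_mul, sq _ hn, det_one])
    have := congrArg (fun g => (ρ g).det) e
    simp only [map_mul ρ φ t, map_mul ρ t (t * _), map_mul ρ t (_ * φ), map_mul ρ _ φ, det_mul,
      dn] at this
    have u : ∀ g, (ρ g).det ≠ 0 := fun g z => by
      have : (ρ g).det * (ρ g⁻¹).det = 1 := by
        rw [← det_mul, ← map_mul, mul_inv_cancel, map_one, det_one]
      rw [z, zero_mul] at this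
      exact zero_ne_one this
    have h2 : ((ρ t).det * (ρ φ).det) * ((ρ t).det - 1) = 0 := by linear_combination -this
    exact sub_eq_zero.1 ((mul_eq_zero.1 h2).resolve_left (mul_ne_zero (u t) (u φ)))
  have t0 : (ρ t).trace = 0 := by
    have z : (ρ t - 1).det = 0 := exists_mulVec_eq_zero_iff.1
      ⟨v, hv, by rw [sub_mulVec, ha, a1, one_smul, one_mulVec, sub_self]⟩
    have h2 : (2 : k) = 0 := CharTwo.two_eq_zero
    rw [det_fin_two] at z d1
    simp only [Matrix.sub_apply, one_apply_eq, ne_eq, zero_ne_one, one_ne_zero, not_false_eq_true,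
      one_apply_ne, sub_zero] at z
    rw [trace_fin_two]
    linear_combination d1 - z + h2
  exact hρ (by rw [map_mul, map_one, sq_one t0 d1])

end mat

section act
variable {G A : Type} [Group G] [CommRing A] [MulSemiringAction G A] {P : Ideal A}

theorem st_pow {s : G} (h : ∀ x ∈ P, s • x ∈ P) (n : ℕ) : ∀ x ∈ P ^ n, s • x ∈ P ^ n := by
  have : (P ^ n).map (MulSemiringAction.toRingHom G A s) ≤ P ^ n := by
    rw [Ideal.map_pow]
    exact Ideal.pow_right_mono (Ideal.map_le_iff_le_comap.2 h) n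
  exact fun x hx => this (Ideal.mem_map_of_mem _ hx)

theorem st_of {s : G} (h : ∀ x, s • x - x ∈ P) : ∀ x ∈ P, s • x ∈ P := fun x hx => by
  simpa using add_mem (h x) hx

theorem sq_le {s : G} (h : ∀ x, s • x - x ∈ P ^ 2) (x : A) : s • x - x ∈ P :=
  Ideal.pow_le_self two_ne_zero (h x)

theorem mul_sq {a b : A} (ha : a ∈ P) (hb : b ∈ P) : a * b ∈ P ^ 2 :=
  pow_two P ▸ Ideal.mul_mem_mul ha hb

theorem up {s : G} (h : ∀ x, s • x - x ∈ P ^ 2) (i : ℕ) : ∀ x ∈ P ^ i, s • x - x ∈ P ^ (i + 1) := by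
  induction i with
  | zero => exact fun x _ => by rw [zero_add, pow_one]; exact sq_le h x
  | succ i ih =>
    intro x hx
    rw [pow_succ] at hx
    refine Submodule.mul_induction_on hx (fun a ha b hb => ?_) fun a b ha hb => ?_
    · rw [show s • (a * b) - a * b = s • a * (s • b - b) + (s • a - a) * b by rw [smul_mul']; ring]
      refine add_mem ?_ ?_
      · rw [add_assoc, pow_add]
        exact Ideal.mul_mem_mul (st_pow (st_of (sq_le h)) i a ha) (h b)
      · rw [pow_succ]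
        exact Ideal.mul_mem_mul (ih a ha) hb
    · rw [show s • (a + b) - (a + b) = (s • a - a) + (s • b - b) by rw [smul_add]; ring]
      exact add_mem ha hb

theorem odd (h2 : (2 : A) ∈ P) {s : G} (h : s ∈ (P ^ 2).inertia G) {m : ℕ} (hm : Odd m)
    (e : s ^ m = 1) (x : A) (i : ℕ) : s • x - x ∈ P ^ i := by
  induction i with
  | zero => simp
  | succ i ih =>
    have k : ∀ j : ℕ, s ^ j • x - x - j * (s • x - x) ∈ P ^ (i + 1) := fun j => by
      induction j with
      | zero => simp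
      | succ j hj =>
        rw [show s ^ (j + 1) • x - x - ((j + 1 : ℕ) : A) * (s • x - x) =
          (s ^ j • (s • x - x) - (s • x - x)) + (s ^ j • x - x - j * (s • x - x)) by
            rw [pow_succ, mul_smul, smul_sub]; push_cast; ring]
        exact add_mem (up (pow_mem h j) i _ ih) hj
    obtain ⟨j, rfl⟩ := hm
    have k1 := k (2 * j + 1)
    rw [e, one_smul, sub_self, zero_sub, neg_mem_iff] at k1
    have k2 : (j : A) * ((s • x - x) * 2) ∈ P ^ (i + 1) :=
      Ideal.mul_mem_left _ _ (by rw [pow_succ]; exact Ideal.mul_mem_mul ih h2)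
    rw [show s • x - x = ((2 * j + 1 : ℕ) : A) * (s • x - x) - j * ((s • x - x) * 2) by
      push_cast; ring]
    exact sub_mem k1 k2

theorem cj {I : Ideal A} {g n : G} (hg : ∀ x ∈ I, g • x ∈ I) (h : n ∈ I.inertia G) :
    g * n * g⁻¹ ∈ I.inertia G := fun x => by
  have := hg _ (h (g⁻¹ • x))
  rwa [smul_sub, smul_inv_smul, ← mul_smul, ← mul_smul] at this

/-- the tame relation -/
theorem tame (h2 : (2 : A) ∈ P) {π : A} (hπ : π ∈ P) (hz : ∀ z ∈ P, ∃ a, z - a * π ∈ P ^ 2) {φ t : G}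
    (hφ : ∀ x, φ • x - x ^ 2 ∈ P) (f1 : ∀ x ∈ P, φ • x ∈ P) (f2 : ∀ x ∈ P, φ⁻¹ • x ∈ P)
    (ht : t ∈ P.inertia G) : (t * t)⁻¹ * (φ * t * φ⁻¹) ∈ (P ^ 2).inertia G := by
  have s1 := st_of ht
  obtain ⟨u, hu⟩ := hz _ (s1 π hπ)
  have R : ∀ z ∈ P, t • z - u * z ∈ P ^ 2 := fun z h => by
    obtain ⟨a, ha⟩ := hz z h
    rw [show t • z - u * z = t • (z - a * π) - u * (z - a * π) + t • a * (t • π - u * π) +
      u * ((t • a - a) * π) by rw [smul_sub, smul_mul']; ring]
    exact add_mem (add_mem (sub_mem (st_pow s1 2 _ ha) (Ideal.mul_mem_left _ _ ha))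
      (Ideal.mul_mem_left _ _ hu)) (Ideal.mul_mem_left _ _ (mul_sq (ht a) hπ))
  have hn : (t * t)⁻¹ * (φ * t * φ⁻¹) ∈ P.inertia G :=
    mul_mem (inv_mem (mul_mem ht ht)) (cj f1 ht)
  have k : ∀ z ∈ P, ((t * t)⁻¹ * (φ * t * φ⁻¹)) • z - z ∈ P ^ 2 := fun z h => by
    have a1 := st_pow f1 2 _ (R _ (f2 z h))
    rw [smul_sub, smul_mul', smul_inv_smul] at a1
    have a2 := st_pow s1 2 _ (R z h)
    rw [smul_sub, smul_mul'] at a2
    have a3 : (φ * t * φ⁻¹) • z - (t * t) • z ∈ P ^ 2 := by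
      rw [show (φ * t * φ⁻¹) • z - (t * t) • z = (φ • t • φ⁻¹ • z - φ • u * z) +
        (φ • u - u ^ 2) * z - (t • t • z - t • u * t • z) - t • u * (t • z - u * z) -
        u * ((t • u - u) * z) by rw [mul_smul, mul_smul, mul_smul]; ring]
      exact sub_mem (sub_mem (sub_mem (add_mem a1 (mul_sq (hφ u) h)) a2)
        (Ideal.mul_mem_left _ _ (R z h))) (Ideal.mul_mem_left _ _ (mul_sq (ht u) h))
    have a4 := st_pow (st_of (inv_mem (mul_mem ht ht))) 2 _ a3
    rwa [smul_sub, inv_smul_smul, ← mul_smul] at a4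
  intro x
  generalize (t * t)⁻¹ * (φ * t * φ⁻¹) = n at hn k
  have b := hφ (φ⁻¹ • x)
  rw [smul_inv_smul] at b
  generalize φ⁻¹ • x = y at b
  change n • x - x ∈ P ^ 2
  rw [show n • x - x = (n • (x - y ^ 2) - (x - y ^ 2)) + (n • y - y) * ((n • y - y) + y * 2) by
    rw [smul_sub, smul_pow']; ring]
  exact add_mem (k _ b) (mul_sq (hn y) (add_mem (hn y) (Ideal.mul_mem_left _ _ h2)))

end act

theorem tmC : TM := by
  classical
  intro K _ _ _ P hP h0 h2 k _ _ ι hι θ hθ hne
  by_contra c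
  push Not at c
  obtain ⟨⟨t, ht, t1⟩, s, hs, s2⟩ := c
  obtain ⟨s0, s1⟩ := (Finset.mem_filter.1 hs).2
  have m : s • θ - θ ∈ P ^ 2 :=
    Ideal.dvd_span_singleton.1 (pow_dvd_of_le_multiplicity (k := 2) s2)
  have hs2 : s ∈ (P ^ 2).inertia (Ga K) := fun x => by
    obtain ⟨g, hg⟩ := hθ 2 x
    have e : s • aeval θ g - aeval θ g ∈ P ^ 2 := by
      clear hg
      induction g using Polynomial.induction_on' with
      | add p q hp hq =>
        rw [map_add, smul_add, add_sub_add_comm]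
        exact add_mem hp hq
      | monomial n a =>
        rw [aeval_monomial, smul_mul', smul_pow', eq_intCast,
          show s • (a : 𝓞 K) = a from map_intCast (MulSemiringAction.toRingHom _ _ s) a, ← mul_sub]
        exact Ideal.mul_mem_left _ _ (Ideal.mem_of_dvd _ (sub_dvd_pow_sub_pow _ _ n) m)
    change s • x - x ∈ P ^ 2
    rw [show s • x - x = s • (x - aeval θ g) - (x - aeval θ g) + (s • aeval θ g - aeval θ g) by
      rw [smul_sub]; ring]
    exact add_mem (sub_mem (st_pow (st_of s0) 2 _ hg) hg) e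
  let ρ : Ga K →* Matrix (Fin 2) (Fin 2) k := (Units.coeHom _).comp ι
  have hρ : Function.Injective ρ := Units.val_injective.comp hι
  have hN : ∀ n ∈ (P ^ 2).inertia (Ga K), n * n = 1 := fun n hn => by
    obtain ⟨j, q, hq, e⟩ := Nat.exists_eq_two_pow_mul_odd (orderOf_pos n).ne'
    have e1 : n ^ 2 ^ j = 1 := by
      by_contra z
      refine hne _ z ?_
      rw [← Ideal.mem_bot, ← Ideal.iInf_pow_eq_bot_of_isDomain P hP.ne_top, Ideal.mem_iInf]
      exact odd h2 (pow_mem hn _) hq (by rw [← pow_mul, ← e, pow_orderOf_eq_one]) θ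
    obtain ⟨a, b⟩ := two_pow j (ρ n) (by rw [← map_pow, e1, map_one])
    exact hρ (by rw [map_mul, map_one, sq_one a b])
  haveI : Finite (𝓞 K ⧸ P) := Ideal.finiteQuotientOfFreeOfNeBot P h0
  obtain ⟨φ, hφ⟩ := IsArithFrobAt.exists_of_isInvariant ℤ (Ga K) P
  have cd : Nat.card (ℤ ⧸ P.under ℤ) = 2 := by
    have : P.under ℤ = Ideal.span {2} := by
      refine ((Ideal.span_singleton_prime two_ne_zero).2 Int.prime_two |>.isMaximal
        (by simp)).eq_of_le (Ideal.IsPrime.under ℤ P).ne_top ?_ |>.symm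
      rw [Ideal.span_singleton_le_iff_mem, Ideal.mem_comap, map_ofNat]
      exact h2
    rw [this]
    exact (Nat.card_congr (Int.quotientSpanNatEquivZMod 2).toEquiv).trans (Nat.card_zmod 2)
  have f0 : ∀ x, φ • x - x ^ 2 ∈ P := fun x => cd ▸ hφ x
  have f1 : ∀ x ∈ P, φ • x ∈ P := fun x hx => by
    simpa using add_mem (f0 x) (Ideal.pow_mem_of_mem P hx 2 two_pos)
  have f2 : ∀ x ∈ P, φ⁻¹ • x ∈ P := fun x hx => by
    have := sub_mem hx (smul_inv_smul φ x ▸ f0 (φ⁻¹ • x))
    rw [sub_sub_cancel] at this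
    exact hP.mem_of_pow_mem _ this
  obtain ⟨π, p1, p2⟩ := Ideal.exists_mem_pow_notMem_pow_succ P h0 hP.ne_top 1
  have hz : ∀ z ∈ P, ∃ a, z - a * π ∈ P ^ 2 := fun z hz => by
    have e : P ^ 2 ⊔ Ideal.span {π} = P ^ 1 := Ideal.eq_prime_pow_of_succ_lt_of_le h0
      (lt_of_le_of_ne le_sup_left fun e => p2 (by
        change π ∈ P ^ 2
        rw [e]
        exact Ideal.mem_sup_right (Ideal.mem_span_singleton_self π)))
      (sup_le (Ideal.pow_le_pow_right one_le_two) ((Ideal.span_singleton_le_iff_mem _).2 p1))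
    rw [← pow_one P, ← e] at hz
    obtain ⟨a, ha, b, hb, rfl⟩ := Submodule.mem_sup.1 hz
    obtain ⟨c, rfl⟩ := Ideal.mem_span_singleton'.1 hb
    exact ⟨c, by rwa [add_sub_cancel_right]⟩
  have ht' : t ∈ P.inertia (Ga K) := ht
  refine t1 (grp ρ hρ _ hN hs2 s1 (φ := φ) ?_ ?_ (tame h2 (pow_one P ▸ p1) hz f0 f1 f2 ht'))
  · simpa using cj (st_pow (st_of (inv_mem ht')) 2) hs2
  · simpa using cj (st_pow f2 2) hs2

end Vale.Agent.P022T.H62
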