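import Vale.Agent.P022T.Defs

/-!
# P022T, row TM: the inertia group is tame or consists of involutions
-/

set_option linter.all false

open NumberField Polynomial Matrix

noncomputable section

namespace Vale.Agent.P022T.H89

section mat
variable {k : Type} [Field k] [CharP k 2]

theorem sq_of {u : Matrix (Fin 2) (Fin 2) k} (h0 : u.det = 1) (h1 : (u - 1).det = 0) :
    u * u = 1 := by
  have two : (2 : k) = 0 := CharTwo.two_eq_zero
  rw [det_fin_two] at h0 h1
  simp only [Matrix.sub_apply, one_apply_eq, one_apply_ne (show (0 : Fin 2) ≠ 1 by decide),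
    one_apply_ne (show (1 : Fin 2) ≠ 0 by decide), sub_zero] at h1
  have t : u 0 0 + u 1 1 = 0 := by linear_combination h0 - h1 + two
  ext a b
  fin_cases a <;> fin_cases b <;> simp [mul_apply, Fin.sum_univ_two]
  · linear_combination u 0 0 * t - h0 - two
  · exact mul_comm (u 0 1) (u 0 0) ▸ (by linear_combination u 0 1 * t)
  · exact (by linear_combination u 1 0 * t)
  · linear_combination u 1 1 * t - h0 - two

theorem pow_sq {u : Matrix (Fin 2) (Fin 2) k} {j : ℕ} (h : u ^ 2 ^ j = 1) : u * u = 1 := by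
  refine sq_of ?_ ?_
  · have := congrArg det h
    rw [det_pow, det_one] at this
    have e : (u.det - 1) ^ 2 ^ j = 0 := by rw [sub_pow_char_pow, this, one_pow, sub_self]
    exact sub_eq_zero.1 (pow_eq_zero_iff' |>.1 e).1
  · have e : (u - 1) ^ 2 ^ j = 0 := by
      rw [sub_pow_char_pow_of_commute _ _ (Commute.one_right u), h, one_pow, sub_self]
    have := congrArg det e
    rw [det_pow, det_zero] at this
    exact (pow_eq_zero_iff' |>.1 this).1

omit [CharP k 2] in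
theorem par {N : Matrix (Fin 2) (Fin 2) k} (hN : N ≠ 0) {v w : Fin 2 → k} (hv : v ≠ 0)
    (h1 : N *ᵥ v = 0) (h2 : N *ᵥ w = 0) : ∃ c : k, w = c • v := by
  have e : v 0 * w 1 = v 1 * w 0 := by
    by_contra c
    refine hN ?_
    ext a b
    have a1 := congrFun h1 a
    have a2 := congrFun h2 a
    simp only [mulVec, dotProduct, Fin.sum_univ_two, Pi.zero_apply] at a1 a2
    refine mul_left_cancel₀ (sub_ne_zero.2 c) ?_
    fin_cases b
    · simp only [Fin.zero_eta, Matrix.zero_apply]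
      linear_combination w 1 * a1 - v 1 * a2
    · simp only [Fin.mk_one, Matrix.zero_apply]
      linear_combination v 0 * a2 - w 0 * a1
  by_cases h : v 0 = 0
  · have h' : v 1 ≠ 0 := fun c => hv (funext fun i => by fin_cases i <;> assumption)
    refine ⟨w 1 / v 1, funext fun i => ?_⟩
    fin_cases i
    · have : w 0 = 0 := (mul_eq_zero.1 (by rw [← e, h, zero_mul])).resolve_left h'
      simp [h, this]
    · simp [h']
  · refine ⟨w 0 / v 0, funext fun i => ?_⟩
    fin_cases i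
    · simp [h]
    · simp only [Fin.mk_one, Pi.smul_apply, smul_eq_mul]
      field_simp
      linear_combination e

theorem eig {u : Matrix (Fin 2) (Fin 2) k} (h1 : u ≠ 1) (h2 : u * u = 1) :
    ∃ v : Fin 2 → k, v ≠ 0 ∧ ∀ g g' : Matrix (Fin 2) (Fin 2) k, g * g' = 1 →
      Commute (g' * u * g) u → ∃ c : k, g *ᵥ v = c • v := by
  have hN : u - 1 ≠ 0 := sub_ne_zero.2 h1
  have sq : (u - 1) * (u - 1) = 0 := by
    rw [sub_mul, mul_sub, mul_sub, h2, mul_one, one_mul, mul_one, CharTwo.sub_eq_add,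
      CharTwo.sub_eq_add, CharTwo.sub_eq_add, add_comm u, CharTwo.add_self_eq_zero]
  obtain ⟨b, hb⟩ : ∃ b, (u - 1) *ᵥ Pi.single b 1 ≠ 0 := by
    by_contra c
    push Not at c
    exact hN (ext fun a b => by simpa [mulVec_single_one] using congrFun (c b) a)
  have hv : (u - 1) *ᵥ ((u - 1) *ᵥ Pi.single b 1) = 0 := by rw [mulVec_mulVec, sq, zero_mulVec]
  refine ⟨_, hb, fun g g' e c => par hN hb hv ?_⟩
  generalize (u - 1) *ᵥ Pi.single b 1 = v at hb hv
  have e' : g' * g = 1 := mul_eq_one_comm.1 e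
  have e1 : g' * (u - 1) * g = g' * u * g - 1 := by rw [mul_sub, sub_mul, mul_one, e']
  have c1 : Commute (g' * (u - 1) * g) (u - 1) := by
    rw [e1]
    exact (c.sub_right (Commute.one_right _)).sub_left (Commute.one_left _)
  have s1 : (g' * (u - 1) * g) * (g' * (u - 1) * g) = 0 := by
    calc _ = g' * ((u - 1) * (g * g') * (u - 1)) * g := by simp only [mul_assoc]
      _ = 0 := by rw [e, mul_one, sq, mul_zero, zero_mul]
  obtain ⟨l, hl⟩ := par hN hb hv (w := (g' * (u - 1) * g) *ᵥ v) (by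
    rw [mulVec_mulVec, ← c1.eq, ← mulVec_mulVec, hv, mulVec_zero])
  have l0 : l = 0 := by
    have : (g' * (u - 1) * g) *ᵥ ((g' * (u - 1) * g) *ᵥ v) = 0 := by
      rw [mulVec_mulVec, s1, zero_mulVec]
    rw [hl, mulVec_smul, hl, smul_smul] at this
    exact mul_self_eq_zero.1 ((smul_eq_zero.1 this).resolve_right hb)
  have := congrArg (fun w => g *ᵥ w) hl
  simp only [l0, zero_smul, mulVec_zero, mulVec_mulVec, ← mul_assoc, e, one_mul] at this
  rwa [mulVec_mulVec]

theorem cm {G : Type} [Group G] (f : G →* Matrix (Fin 2) (Fin 2) k) {v : Fin 2 → k} (hv : v ≠ 0)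
    {a b : G} (h : ∀ g, g = a ∨ g = b → (∃ c : k, f g *ᵥ v = c • v) ∧ ∃ c : k, f g⁻¹ *ᵥ v = c • v) :
    f (a * b * a⁻¹ * b⁻¹) * f (a * b * a⁻¹ * b⁻¹) = 1 := by
  have k1 : ∀ g (c c' : k), f g *ᵥ v = c • v → f g⁻¹ *ᵥ v = c' • v → c' * c = 1 := fun g c c' x y => by
    have := congrArg (fun w => f g *ᵥ w) y
    simp only [mulVec_mulVec, ← map_mul, mul_inv_cancel, map_one, one_mulVec, mulVec_smul, x,
      smul_smul] at this
    have e : (c' * c - 1) • v = 0 := by rw [sub_smul, ← this, one_smul, sub_self]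
    exact sub_eq_zero.1 ((smul_eq_zero.1 e).resolve_right hv)
  obtain ⟨⟨c1, a1⟩, c2, a2⟩ := h a (Or.inl rfl)
  obtain ⟨⟨c3, a3⟩, c4, a4⟩ := h b (Or.inr rfl)
  refine sq_of ?_ (exists_mulVec_eq_zero_iff.1 ⟨v, hv, ?_⟩)
  · have e : ∀ g, (f g).det * (f g⁻¹).det = 1 := fun g => by
      rw [← det_mul, ← map_mul, mul_inv_cancel, map_one, det_one]
    simp only [map_mul, det_mul]
    linear_combination (f b).det * (f b⁻¹).det * e a + e b
  · simp only [sub_mulVec, map_mul, ← mulVec_mulVec, a4, mulVec_smul, a2, a3, a1, smul_smul,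
      one_mulVec]
    rw [show c4 * (c2 * (c3 * c1)) = (c2 * c1) * (c4 * c3) by ring, k1 a _ _ a1 a2, k1 b _ _ a3 a4,
      one_mul, one_smul, sub_self]

end mat

variable {K : Type} [Field K] [NumberField K] {P : Ideal (𝓞 K)}

/-- `g` stabilises `P` -/
def St (P : Ideal (𝓞 K)) (g : Ga K) : Prop := ∀ x : 𝓞 K, g • x ∈ P ↔ x ∈ P

/-- `s` acts trivially modulo the square -/
def G1 (P : Ideal (𝓞 K)) (s : Ga K) : Prop := ∀ x : 𝓞 K, s • x - x ∈ P ^ 2

/-- `s` acts on `P / P ^ 2` by `c` -/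
def Rc (P : Ideal (𝓞 K)) (s : Ga K) (c : 𝓞 K) : Prop := ∀ y ∈ P, s • y - c * y ∈ P ^ 2

theorem st_of {s : Ga K} (h : In P s) : St P s := fun x =>
  ⟨fun c => by simpa using sub_mem c (h x), fun c => by simpa using add_mem (h x) c⟩

theorem St.inv {g : Ga K} (h : St P g) : St P g⁻¹ := fun x => by
  rw [← h, smul_inv_smul]

theorem St.pow {g : Ga K} (h : St P g) (n : ℕ) {x : 𝓞 K} (hx : x ∈ P ^ n) : g • x ∈ P ^ n := by
  have e : P ≤ P.comap (MulSemiringAction.toRingHom (Ga K) (𝓞 K) g) := fun y hy => (h y).2 hy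
  exact ((Ideal.pow_right_mono e n).trans (Ideal.le_comap_pow _ n)) hx

theorem sq_le : P ^ 2 ≤ P := Ideal.pow_le_self two_ne_zero

theorem G1.in {s : Ga K} (h : G1 P s) : In P s := fun x => sq_le (h x)

theorem G1.mul {s t : Ga K} (h : G1 P s) (k : G1 P t) : G1 P (s * t) := fun x => by
  have := add_mem (h (t • x)) (k x)
  rwa [sub_add_sub_cancel, ← mul_smul] at this

theorem G1.conj {s g : Ga K} (h : G1 P s) (k : St P g) : G1 P (g⁻¹ * s * g) := fun x => by
  have := k.inv.pow 2 (h (g • x))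
  rwa [smul_sub, inv_smul_smul, ← mul_smul, ← mul_smul] at this

theorem G1.step {s : Ga K} (h : G1 P s) (m : ℕ) : ∀ y ∈ P ^ m, s • y - y ∈ P ^ (m + 1) := by
  induction m with
  | zero => exact fun y _ => by simpa using h.in y
  | succ m ih =>
    intro y hy
    rw [pow_succ] at hy
    refine Submodule.mul_induction_on hy (fun a ha b hb => ?_) fun a b ha hb => ?_
    · have e : s • (a * b) - a * b = s • a * (s • b - b) + (s • a - a) * b := by
        rw [smul_mul']; ring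
      rw [e]
      refine add_mem ?_ (by rw [pow_succ]; exact Ideal.mul_mem_mul (ih a ha) hb)
      rw [add_assoc, pow_add]
      exact Ideal.mul_mem_mul ((st_of h.in).pow m ha) (h b)
    · rw [smul_add, add_sub_add_comm]
      exact add_mem ha hb

theorem G1.two (h2 : (2 : 𝓞 K) ∈ P) {s : Ga K} (h : G1 P s) (j : ℕ) (x : 𝓞 K) :
    (s ^ 2 ^ j) • x - x ∈ P ^ (j + 2) := by
  induction j generalizing x with
  | zero => simpa using h x
  | succ j ih =>
    have k : G1 P (s ^ 2 ^ j) := fun y => Ideal.pow_le_pow_right (by omega) (ih y)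
    have e : (s ^ 2 ^ (j + 1)) • x - x = ((s ^ 2 ^ j) • ((s ^ 2 ^ j) • x - x) -
        ((s ^ 2 ^ j) • x - x)) + ((s ^ 2 ^ j) • x - x) * 2 := by
      rw [pow_succ, pow_mul, sq, mul_smul, smul_sub]; ring
    rw [e]
    refine add_mem (k.step _ _ (ih x)) ?_
    rw [show j + 1 + 2 = j + 2 + 1 by omega, pow_succ]
    exact Ideal.mul_mem_mul (ih x) h2

theorem g1_of {θ : 𝓞 K} (hθ : Ap P θ) {s : Ga K} (h : In P s) (k : s • θ - θ ∈ P ^ 2) : G1 P s :=
  fun x => by
    obtain ⟨g, hg⟩ := hθ 2 x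
    have e : s • (aeval θ g : 𝓞 K) = aeval (s • θ) g :=
      (aeval_algHom_apply (MulSemiringAction.toAlgHom ℤ (𝓞 K) s) θ g).symm
    have d : s • θ - θ ∣ aeval (s • θ) g - aeval θ g := by
      rw [aeval_def, aeval_def, eval₂_eq_eval_map, eval₂_eq_eval_map]
      exact sub_dvd_eval_sub _ _ _
    have := add_mem (sub_mem ((st_of h).pow 2 hg) hg) (Ideal.mem_of_dvd _ d k)
    rwa [smul_sub, e, show s • x - aeval (s • θ) g - (x - aeval θ g) +
      (aeval (s • θ) g - aeval θ g) = s • x - x by ring] at this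

theorem Rc.mul {s t : Ga K} {c d : 𝓞 K} (h : Rc P s c) (k : Rc P t d) (i : In P t) :
    Rc P (t * s) (d * c) := fun y hy => by
  have e : (t * s) • y - d * c * y = t • (s • y - c * y) + (t • c - c) * t • y +
      c * (t • y - d * y) := by
    rw [mul_smul, smul_sub, smul_mul']; ring
  rw [e]
  refine add_mem (add_mem ((st_of i).pow 2 (h y hy)) ?_) (Ideal.mul_mem_left _ _ (k y hy))
  rw [sq]
  exact Ideal.mul_mem_mul (i c) ((st_of i y).2 hy)

theorem Rc.frob {s φ : Ga K} {c : 𝓞 K} (h : Rc P s c) (k : St P φ) (f : φ • c - c ^ 2 ∈ P) :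
    Rc P (φ * s * φ⁻¹) (c ^ 2) := fun y hy => by
  have e : (φ * s * φ⁻¹) • y - c ^ 2 * y = φ • (s • φ⁻¹ • y - c * φ⁻¹ • y) + (φ • c - c ^ 2) * y := by
    rw [mul_smul, mul_smul, smul_sub, smul_mul', smul_inv_smul]; ring
  rw [e]
  refine add_mem (k.pow 2 (h _ ((k.inv y).2 hy))) ?_
  rw [sq P]
  exact Ideal.mul_mem_mul f hy

variable [hP : P.IsPrime] (h0 : P ≠ ⊥)
include h0

theorem ex_pi : ∃ π ∈ P, (∀ c, c * π ∈ P ^ 2 → c ∈ P) ∧ ∀ y ∈ P, ∃ a, y - a * π ∈ P ^ 2 := by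
  obtain ⟨π, h1, h2⟩ := Ideal.exists_mem_pow_notMem_pow_succ P h0 hP.ne_top 1
  have e := Ideal.eq_prime_pow_of_succ_lt_of_le h0 (I := P ^ (1 + 1) ⊔ Ideal.span {π})
    (lt_of_le_of_ne le_sup_left fun c =>
      h2 (c ▸ Ideal.mem_sup_right (Ideal.mem_span_singleton_self π)))
    (sup_le (Ideal.pow_le_pow_right (by omega)) ((Ideal.span_singleton_le_iff_mem _).2 h1))
  rw [pow_one] at h1 e
  refine ⟨π, h1, fun c hc => ?_, fun y hy => ?_⟩
  · by_contra n
    obtain ⟨a, b, hb, hab⟩ := (hP.isMaximal h0).exists_inv n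
    refine h2 ?_
    rw [show π = a * (c * π) + b * π by linear_combination -π * hab]
    exact add_mem (Ideal.mul_mem_left _ _ hc) (by rw [pow_add, pow_one]; exact Ideal.mul_mem_mul hb h1)
  · rw [← e] at hy
    obtain ⟨u, hu, z, hz, rfl⟩ := Submodule.mem_sup.1 hy
    obtain ⟨a, rfl⟩ := Ideal.mem_span_singleton'.1 hz
    exact ⟨a, by simpa using hu⟩

theorem ex_rc {s : Ga K} (h : In P s) : ∃ c, Rc P s c := by
  obtain ⟨π, h1, -, h3⟩ := ex_pi h0
  obtain ⟨c, hc⟩ := h3 _ ((st_of h π).2 h1)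
  refine ⟨c, fun y hy => ?_⟩
  obtain ⟨a, ha⟩ := h3 y hy
  have e : s • y - c * y = s • (y - a * π) - c * (y - a * π) + (s • a - a) * s • π +
      a * (s • π - c * π) := by
    rw [smul_sub, smul_mul']; ring
  rw [e]
  refine add_mem (add_mem (sub_mem ((st_of h).pow 2 ha) (Ideal.mul_mem_left _ _ ha)) ?_)
    (Ideal.mul_mem_left _ _ hc)
  rw [sq]
  exact Ideal.mul_mem_mul (h a) ((st_of h π).2 h1)

theorem Rc.uniq {s : Ga K} {c d : 𝓞 K} (h : Rc P s c) (k : Rc P s d) : c - d ∈ P := by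
  obtain ⟨π, h1, h2, -⟩ := ex_pi h0
  refine h2 _ ?_
  have := sub_mem (k π h1) (h π h1)
  rwa [sub_sub_sub_cancel_left, ← sub_mul] at this

theorem g1_rc (h2 : (2 : 𝓞 K) ∈ P) {s : Ga K} (h : In P s) {c : 𝓞 K} (k : Rc P s c)
    (e : c - 1 ∈ P) : G1 P s := fun x => by
  haveI : Finite (𝓞 K ⧸ P) := Ideal.finiteQuotientOfFreeOfNeBot P h0
  have two : (2 : 𝓞 K ⧸ P) = 0 :=
    (map_ofNat (Ideal.Quotient.mk P) 2).symm.trans (Ideal.Quotient.eq_zero_iff_mem.2 h2)
  have inj : Function.Injective fun z : 𝓞 K ⧸ P => z ^ 2 := fun a b hab => by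
    have : (a - b) ^ 2 = 0 := by
      have hab : a ^ 2 = b ^ 2 := hab
      linear_combination hab + (b ^ 2 - a * b) * two
    exact sub_eq_zero.1 (pow_eq_zero_iff two_ne_zero |>.1 this)
  obtain ⟨z, hz⟩ := Finite.surjective_of_injective inj (Ideal.Quotient.mk P x)
  obtain ⟨z, rfl⟩ := Ideal.Quotient.mk_surjective z
  have y : x - z ^ 2 ∈ P := Ideal.Quotient.eq.1 (by rw [map_pow]; exact hz.symm)
  have e1 : s • x - x = (s • (x - z ^ 2) - c * (x - z ^ 2)) + (c - 1) * (x - z ^ 2) +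
      (s • z - z) * (s • z - z + z * 2) := by
    rw [smul_sub, smul_pow']; ring
  rw [e1]
  refine add_mem (add_mem (k _ y) ?_) ?_ <;> rw [sq P]
  · exact Ideal.mul_mem_mul e y
  · exact Ideal.mul_mem_mul (h z) (add_mem (h z) (Ideal.mul_mem_left _ _ h2))

theorem ex_frob [IsGalois ℚ K] (h2 : (2 : 𝓞 K) ∈ P) :
    ∃ φ : Ga K, St P φ ∧ ∀ x : 𝓞 K, φ • x - x ^ 2 ∈ P := by
  haveI : Finite (𝓞 K ⧸ P) := Ideal.finiteQuotientOfFreeOfNeBot P h0
  haveI : Algebra.IsInvariant ℤ (𝓞 K) (Ga K) := inferInstance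
  obtain ⟨φ, hφ⟩ := IsArithFrobAt.exists_of_isInvariant ℤ (Ga K) P
  have e : P.under ℤ = Ideal.span {(2 : ℤ)} :=
    ((Int.prime_two.isMaximal_span_singleton).eq_of_le (Ideal.IsPrime.under ℤ P).ne_top
      ((Ideal.span_singleton_le_iff_mem _).2 (by simpa [Ideal.mem_comap] using h2))).symm
  have c : Nat.card (ℤ ⧸ P.under ℤ) = 2 := by
    rw [e]
    exact Int.card_ideal_quot 2
  refine ⟨φ, fun x => ?_, fun x => c ▸ hφ x⟩
  exact (SetLike.ext_iff.1 hφ.comap_eq x)

end Vale.Agent.P022T.H89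

namespace Vale.Agent.P022T.H89

theorem tmC (hV : VAL) : TM := by
  classical
  intro K _ _ _ P hP h0 h2 k _ _ ι hι θ hθ hne
  obtain ⟨-, v2, -, -⟩ := hV K P hP h0
  by_cases c : ∀ s ∈ I1 P, w P (s • θ - θ) ≤ 1
  · exact Or.inr c
  refine Or.inl fun s hs => ?_
  push Not at c
  obtain ⟨u, hu, hw⟩ := c
  obtain ⟨u1, u2⟩ := (Finset.mem_filter.1 hu).2
  have g1 : G1 P u := g1_of hθ u1 ((v2 _ 2 (hne u u2)).1 hw)
  let f : Ga K →* Matrix (Fin 2) (Fin 2) k := (Units.coeHom _).comp ι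
  have inj : Function.Injective f := Units.val_injective.comp hι
  have inv : ∀ t, G1 P t → t * t = 1 := fun t ht => by
    let N := Finset.univ.sup fun t : Ga K => w P (t • θ - θ)
    have e : t ^ 2 ^ N = 1 := by
      by_contra n
      have a := (v2 _ _ (hne _ n)).2 (ht.two h2 N θ)
      have b : w P ((t ^ 2 ^ N) • θ - θ) ≤ N :=
        Finset.le_sup (f := fun t : Ga K => w P (t • θ - θ)) (Finset.mem_univ _)
      omega
    exact inj (by rw [map_mul, map_one]; exact pow_sq (j := N) (by rw [← map_pow, e, map_one]))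
  have com : ∀ a b, G1 P a → G1 P b → Commute a b := fun a b ha hb => by
    have e := inv _ (ha.mul hb)
    rw [commute_iff_eq, ← inv_eq_iff_mul_eq_one.2 e, _root_.mul_inv_rev,
      inv_eq_iff_mul_eq_one.2 (inv a ha), inv_eq_iff_mul_eq_one.2 (inv b hb)]
  obtain ⟨v, hv, he⟩ := eig (u := f u) (fun e => u2 (inj (e.trans (map_one f).symm)))
    (by rw [← map_mul, inv u g1, map_one])
  have ev : ∀ g, St P g → ∃ c : k, f g *ᵥ v = c • v := fun g hg =>
    he _ (f g⁻¹) (by rw [← map_mul, mul_inv_cancel, map_one]) (by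
      rw [← map_mul, ← map_mul]
      exact (com _ _ (g1.conj hg) g1).map f)
  obtain ⟨φ, f1, f2⟩ := ex_frob h0 h2
  have t2 : (φ * s * φ⁻¹ * s⁻¹) * (φ * s * φ⁻¹ * s⁻¹) = 1 :=
    inj (by
      rw [map_mul _ (φ * s * φ⁻¹ * s⁻¹), map_one]
      refine cm f hv fun g hg => ?_
      have : St P g := by
        rcases hg with rfl | rfl
        · exact f1
        · exact st_of hs
      exact ⟨ev _ this, ev _ this.inv⟩)
  have ti : In P (φ * s * φ⁻¹ * s⁻¹) := fun x => by
    have a1 := (f1 _).2 (hs (φ⁻¹ • s⁻¹ • x))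
    have a2 := hs (s⁻¹ • x)
    rw [smul_sub, smul_inv_smul] at a1
    rw [smul_inv_smul] at a2
    simpa [mul_smul] using sub_mem a1 a2
  obtain ⟨c, hc⟩ := ex_rc h0 hs
  obtain ⟨d, hd⟩ := ex_rc h0 ti
  have one : Rc P 1 1 := fun y _ => by simp
  have d1 : d - 1 ∈ P := by
    have := (t2 ▸ hd.mul hd ti).uniq h0 one
    refine hP.mem_of_pow_mem 2 ?_
    rw [show (d - 1) ^ 2 = d * d - 1 + (1 - d) * 2 by ring]
    exact add_mem this (Ideal.mul_mem_left _ _ h2)
  have c1 : d * c - c ^ 2 ∈ P := by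
    have a := hc.mul hd ti
    rw [inv_mul_cancel_right] at a
    exact a.uniq h0 (hc.frob f1 (f2 c))
  have c0 : c ∉ P := fun n => by
    obtain ⟨π, p1, p2, -⟩ := ex_pi h0
    have a : s • π ∈ P ^ 2 := by
      have := add_mem (hc π p1) (show c * π ∈ P ^ 2 by rw [sq]; exact Ideal.mul_mem_mul n p1)
      simpa using this
    have b := (st_of hs).inv.pow 2 a
    rw [inv_smul_smul] at b
    exact hP.ne_top ((Ideal.eq_top_iff_one _).2 (p2 1 (by rwa [one_mul])))
  refine inv s (g1_rc h0 h2 hs hc ((hP.mem_or_mem (x := c - 1) (y := c) ?_).resolve_right c0))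
  rw [show (c - 1) * c = (d - 1) * c - (d * c - c ^ 2) by ring]
  exact sub_mem (Ideal.mul_mem_right _ _ d1) c1

end Vale.Agent.P022T.H89
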