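import Vale.Agent.P022T.Defs

/-!
# P022T: the inertia group is tame or elementary abelian
-/

set_option linter.all false

open NumberField Polynomial Matrix

noncomputable section

namespace Vale.Agent.P022T.H93

section lin
variable {k : Type} [Field k]

theorem ch (X : Matrix (Fin 2) (Fin 2) k) : X * X = X.trace • X - X.det • 1 := by
  ext a b
  fin_cases a <;> fin_cases b <;>
    simp [Matrix.mul_apply, Fin.sum_univ_two, trace_fin_two, det_fin_two] <;> ring

theorem line {N : Matrix (Fin 2) (Fin 2) k} (hN : N ≠ 0) {v v' : Fin 2 → k} (h : N *ᵥ v = 0)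
    (h' : N *ᵥ v' = 0) (hv : v ≠ 0) : ∃ a : k, v' = a • v := by
  have c : v 0 * v' 1 - v 1 * v' 0 = 0 := by
    by_contra c
    refine hN (Matrix.ext fun i j => ?_)
    have e := congrFun h i
    have e' := congrFun h' i
    simp only [Matrix.mulVec, dotProduct, Fin.sum_univ_two, Pi.zero_apply] at e e'
    refine (mul_eq_zero.1 (?_ : N i j * (v 0 * v' 1 - v 1 * v' 0) = 0)).resolve_right c
    fin_cases j
    · change N i 0 * _ = 0
      linear_combination v' 1 * e - v 1 * e'
    · change N i 1 * _ = 0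
      linear_combination v 0 * e' - v' 0 * e
  by_cases h0 : v 0 = 0
  · have h1 : v 1 ≠ 0 := fun h1 => hv (funext fun i => by fin_cases i <;> assumption)
    refine ⟨v' 1 / v 1, funext fun i => ?_⟩
    fin_cases i
    · change v' 0 = v' 1 / v 1 * v 0
      field_simp
      linear_combination -c
    · change v' 1 = v' 1 / v 1 * v 1
      field_simp
  · refine ⟨v' 0 / v 0, funext fun i => ?_⟩
    fin_cases i
    · change v' 0 = v' 0 / v 0 * v 0
      field_simp
    · change v' 1 = v' 0 / v 0 * v 1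
      field_simp
      linear_combination c

variable [CharP k 2]

theorem two_pow {M : Matrix (Fin 2) (Fin 2) k} {a : ℕ} (h : M ^ 2 ^ a = 1) : M * M = 1 := by
  have h1 : (M - 1) ^ 2 ^ a = 0 := by
    rw [sub_pow_char_pow_of_commute _ _ (Commute.one_right M), h, one_pow, sub_self]
  have h2 : (M - 1).trace = 0 := (Matrix.isNilpotent_trace_of_isNilpotent ⟨_, h1⟩).eq_zero
  have h3 : (M - 1).det = 0 := by
    have := congrArg Matrix.det h1
    rw [det_pow, det_zero] at this
    exact eq_zero_of_pow_eq_zero this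
  have h4 := ch (M - 1)
  rw [h2, h3, zero_smul, zero_smul, sub_self, ← sq,
    sub_pow_char_of_commute _ (Commute.one_right M), one_pow, sub_eq_zero, sq] at h4
  exact h4

variable {G : Type} [Group G] (R : G →* Matrix (Fin 2) (Fin 2) k)

theorem eig {s g : G} (h1 : R s ≠ 1) (h2 : s * s = 1) (hc : Commute s (g⁻¹ * s * g))
    {v : Fin 2 → k} (hv : v ≠ 0) (h : (R s - 1) *ᵥ v = 0) : ∃ a : k, R g *ᵥ v = a • v := by
  have hN : R s - 1 ≠ 0 := sub_ne_zero.2 h1
  rw [sub_mulVec, one_mulVec, sub_eq_zero] at h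
  obtain ⟨a, ha⟩ := line hN (v' := R (g⁻¹ * s * g) *ᵥ v)
    (by rw [sub_mulVec, one_mulVec, h, sub_self]) (by
      rw [sub_mulVec, one_mulVec, mulVec_mulVec, ← map_mul, hc.eq, map_mul R _ s, ← mulVec_mulVec,
        h, sub_self]) hv
  have e : g⁻¹ * s * g * (g⁻¹ * s * g) = 1 := by
    rw [show g⁻¹ * s * g * (g⁻¹ * s * g) = g⁻¹ * (s * s) * g by group, h2]
    group
  have e1 : (a * a) • v = (1 : k) • v := by
    rw [mul_smul, ← ha, ← mulVec_smul, ← ha, mulVec_mulVec, ← map_mul, e, map_one, one_mulVec,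
      one_smul]
  have e2 : a = 1 := by
    have := smul_left_injective k hv e1
    have h3 : (a - 1) ^ 2 = 0 := by
      rw [sub_pow_char, one_pow, sq, this, sub_self]
    exact sub_eq_zero.1 (eq_zero_of_pow_eq_zero h3)
  refine line hN (by rw [sub_mulVec, one_mulVec, h, sub_self]) ?_ hv
  rw [e2, one_smul] at ha
  rw [sub_mulVec, one_mulVec, mulVec_mulVec, ← map_mul,
    show s * g = g * (g⁻¹ * s * g) by group, map_mul, ← mulVec_mulVec, ha, sub_self]

theorem cm_sq {s g h : G} (h1 : R s ≠ 1) (h2 : s * s = 1) (hg : Commute s (g⁻¹ * s * g))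
    (hh : Commute s (h⁻¹ * s * h)) : R (g * h * g⁻¹ * h⁻¹) * R (g * h * g⁻¹ * h⁻¹) = 1 := by
  have d : (R s - 1).det = 0 := by
    have e : (R s - 1) ^ 2 = 0 := by
      rw [sub_pow_char_of_commute _ (Commute.one_right _), one_pow, sq, ← map_mul, h2, map_one,
        sub_self]
    have := congrArg Matrix.det e
    rw [det_pow, det_zero] at this
    exact eq_zero_of_pow_eq_zero this
  obtain ⟨v, hv, e⟩ := Matrix.exists_mulVec_eq_zero_iff.2 d
  obtain ⟨a, ha⟩ := eig R h1 h2 hg hv e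
  obtain ⟨b, hb⟩ := eig R h1 h2 hh hv e
  set u := R (g * h * g⁻¹ * h⁻¹) with hu
  have d1 : u.det = 1 := by
    have k1 : ∀ x, (R x).det * (R x⁻¹).det = 1 := fun x => by
      rw [← det_mul, ← map_mul, mul_inv_cancel, map_one, det_one]
    rw [hu, map_mul, map_mul, map_mul, det_mul, det_mul, det_mul]
    linear_combination ((R h).det * (R h⁻¹).det) * k1 g + k1 h
  have d2 : (u - 1).det = 0 := by
    refine Matrix.exists_mulVec_eq_zero_iff.1 ⟨R (h * g) *ᵥ v, fun c => hv ?_, ?_⟩
    · have := congrArg (R (h * g)⁻¹ *ᵥ ·) c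
      simpa only [mulVec_mulVec, ← map_mul, inv_mul_cancel, map_one, one_mulVec, mulVec_zero]
        using this
    · rw [sub_mulVec, one_mulVec, mulVec_mulVec, hu, ← map_mul,
        show g * h * g⁻¹ * h⁻¹ * (h * g) = g * h by group, map_mul, map_mul, ← mulVec_mulVec,
        ← mulVec_mulVec, ha, hb, mulVec_smul, mulVec_smul, ha, hb, smul_comm, sub_self]
  have t : u.trace = 0 := by
    have two : (2 : k) = 0 := CharP.cast_eq_zero k 2
    rw [det_fin_two] at d1 d2
    simp only [Matrix.sub_apply, one_apply_eq, ne_eq, zero_ne_one, not_false_eq_true, one_apply_ne,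
      one_ne_zero, sub_zero] at d2
    rw [trace_fin_two]
    linear_combination d1 - d2 + two
  rw [ch, t, d1, zero_smul, one_smul, zero_sub, CharTwo.neg_eq]

end lin

section loc
variable {A G : Type} [CommRing A] [IsDedekindDomain A] [Group G] [MulSemiringAction G A]
  {P : Ideal A} [hP : P.IsPrime]

/-- the first ramification group -/
def G1 (P : Ideal A) (s : G) : Prop := ∀ x : A, s • x - x ∈ P ^ 2

theorem pw {g : G} (h : ∀ x ∈ P, g • x ∈ P) (n : ℕ) {x : A} (hx : x ∈ P ^ n) : g • x ∈ P ^ n :=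
  Ideal.le_comap_pow (MulSemiringAction.toRingHom G A g) n
    (Ideal.pow_right_mono (I := P) (fun y hy => h y hy) n hx)

theorem G1.mul {s t : G} (hs : G1 P s) (ht : G1 P t) : G1 P (s * t) := fun x => by
  have := add_mem (hs (t • x)) (ht x)
  rwa [sub_add_sub_cancel, ← mul_smul] at this

theorem G1.pow {s : G} (hs : G1 P s) (n : ℕ) : G1 P (s ^ n) := by
  induction n with
  | zero => intro x; rw [pow_zero, one_smul, sub_self]; exact zero_mem _
  | succ n ih => rw [pow_succ]; exact ih.mul hs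

theorem G1.deep {s : G} (hs : G1 P s) (j : ℕ) :
    ∀ x ∈ P ^ (j + 1), s • x - x ∈ P ^ (j + 2) := by
  induction j with
  | zero => exact fun x _ => hs x
  | succ j ih =>
    intro x hx
    rw [pow_succ] at hx
    refine Submodule.mul_induction_on hx (fun a ha b hb => ?_) fun a b ha hb => ?_
    · rw [smul_mul', show s • a * s • b - a * b = (s • a - a) * s • b + a * (s • b - b) by ring]
      refine add_mem ?_ ?_
      · rw [show j + 1 + 2 = j + 2 + 1 from rfl, pow_succ P (j + 2)]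
        refine Ideal.mul_mem_mul (ih a ha) ?_
        have := add_mem (Ideal.pow_le_self two_ne_zero (hs b)) hb
        rwa [sub_add_cancel] at this
      · rw [pow_add P (j + 1) 2]
        exact Ideal.mul_mem_mul ha (hs b)
    · rw [smul_add, add_sub_add_comm]
      exact add_mem ha hb

theorem G1.odd (h2 : (2 : A) ∈ P) {t : G} (ht : G1 P t) {m : ℕ} (hm : Odd m) (e : t ^ m = 1)
    (x : A) : t • x - x = 0 := by
  have key : ∀ j, t • x - x ∈ P ^ (j + 2) := fun j => by
    induction j with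
    | zero => exact ht x
    | succ j ih =>
      have h1 : ∀ i : ℕ, t ^ i • x - x - i * (t • x - x) ∈ P ^ (j + 1 + 2) := fun i => by
        induction i with
        | zero => simp
        | succ i k =>
          have := add_mem k ((ht.pow i).deep (j + 1) _ ih)
          rw [smul_sub, ← mul_smul, ← pow_succ] at this
          rw [show t ^ (i + 1) • x - x - ((i + 1 : ℕ) : A) * (t • x - x) =
            t ^ i • x - x - i * (t • x - x) + (t ^ (i + 1) • x - t ^ i • x - (t • x - x)) by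
              push_cast; ring]
          exact this
      have h3 := h1 m
      rw [e, one_smul, sub_self, zero_sub, neg_mem_iff] at h3
      refine (hP.mul_mem_pow P h3).resolve_left fun c => hP.ne_top ((Ideal.eq_top_iff_one _).2 ?_)
      obtain ⟨a, rfl⟩ := hm
      have := sub_mem c (P.mul_mem_right (a : A) h2)
      rwa [show ((2 * a + 1 : ℕ) : A) - 2 * a = 1 by push_cast; ring] at this
  rw [← Ideal.mem_bot, ← Ideal.iInf_pow_eq_bot_of_isDomain P hP.ne_top, Submodule.mem_iInf]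
  exact fun i => Ideal.pow_le_pow_right (Nat.le_add_right i 2) (key i)

theorem tau (h0 : P ≠ ⊥) {π : A} (h1 : π ∈ P) (h2 : π ∉ P ^ 2) {s : G}
    (hs : ∀ x : A, s • x - x ∈ P) : ∃ c : A, ∀ x ∈ P, s • x - c * x ∈ P ^ 2 := by
  have st : ∀ x ∈ P, s • x ∈ P := fun x hx => by
    have := add_mem (hs x) hx
    rwa [sub_add_cancel] at this
  have dc : ∀ x ∈ P, ∃ d, ∃ e ∈ P ^ 2, π * d + e = x := fun x hx =>
    Ideal.exists_mul_add_mem_pow_succ h0 (i := 1) π x (by rwa [pow_one]) h2 (by rwa [pow_one])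
  obtain ⟨c, e, he, k⟩ := dc _ (st π h1)
  refine ⟨c, fun x hx => ?_⟩
  obtain ⟨d, f, hf, rfl⟩ := dc x hx
  rw [smul_add, smul_mul', show s • π * s • d + s • f - c * (π * d + f) =
    s • π * (s • d - d) + (s • π - π * c) * d + s • f - c * f by ring]
  refine sub_mem (add_mem (add_mem ?_ (Ideal.mul_mem_right _ _ ?_)) (pw st 2 hf))
    (Ideal.mul_mem_left _ _ hf)
  · rw [sq]
    exact Ideal.mul_mem_mul (st π h1) (hs d)
  · rw [← k, add_sub_cancel_left]
    exact he

theorem one_of {s : G} {c : A} (hc : ∀ x ∈ P, s • x - c * x ∈ P ^ 2) (h : c - 1 ∈ P) :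
    ∀ x ∈ P, s • x - x ∈ P ^ 2 := fun x hx => by
  rw [show s • x - x = s • x - c * x + (c - 1) * x by ring]
  refine add_mem (hc x hx) ?_
  rw [sq]
  exact Ideal.mul_mem_mul h hx

theorem g1_of (h0 : P ≠ ⊥) [Finite (A ⧸ P)] (h2 : (2 : A) ∈ P) {s : G}
    (hs : ∀ x : A, s • x - x ∈ P) (h : ∀ x ∈ P, s • x - x ∈ P ^ 2) : G1 P s := fun x => by
  haveI := hP.isMaximal h0
  letI := Ideal.Quotient.field P
  cases nonempty_fintype (A ⧸ P)
  have h1 : x - x ^ Fintype.card (A ⧸ P) ∈ P :=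
    Ideal.Quotient.eq.1 (by rw [map_pow, FiniteField.pow_card])
  have h3 : ((Fintype.card (A ⧸ P) : ℕ) : A) ∈ P := Ideal.Quotient.eq_zero_iff_mem.1 (by
    rw [map_natCast]
    exact FiniteField.cast_card_eq_zero _)
  generalize Fintype.card (A ⧸ P) = q at h1 h3
  obtain ⟨c, hc⟩ := Polynomial.powAddExpansion x (s • x - x) q
  rw [add_sub_cancel] at hc
  rw [show s • x - x = s • (x - x ^ q) - (x - x ^ q) +
    (q * (x ^ (q - 1) * (s • x - x)) + c * (s • x - x) ^ 2) by
      rw [smul_sub, smul_pow', hc]; ring]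
  refine add_mem (h _ h1) (add_mem ?_ (Ideal.mul_mem_left _ _ (Ideal.pow_mem_pow (hs x) 2)))
  rw [sq]
  exact Ideal.mul_mem_mul h3 (P.mul_mem_left _ (hs x))

end loc

theorem tmC (hV : VAL) : TM := by
  intro K _ _ _ P hP h0 h2 k _ _ ι hι θ hθ hne
  by_contra hn
  rw [not_or] at hn
  obtain ⟨hn, h3⟩ := hn
  push Not at h3
  obtain ⟨s0, a1, a2⟩ := h3
  apply hn
  obtain ⟨i0, n0⟩ : In P s0 ∧ s0 ≠ 1 := by simpa [I1] using a1
  haveI := hP.isMaximal h0
  haveI : Finite (𝓞 K ⧸ P) := Ideal.finiteQuotientOfFreeOfNeBot P h0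
  set R : Ga K →* Matrix (Fin 2) (Fin 2) k := (Units.coeHom _).comp ι with hR
  have inj : ∀ g, R g = 1 → g = 1 := fun g hg => hι (by rw [map_one]; exact Units.ext hg)
  have st : ∀ s, In P s → ∀ x ∈ P, s • x ∈ P := fun s hs x hx => by
    have := add_mem (hs x) hx
    rwa [sub_add_cancel] at this
  have inv : ∀ s, In P s → In P s⁻¹ := fun s hs x => by
    have := neg_mem (hs (s⁻¹ • x))
    rwa [smul_inv_smul, neg_sub] at this
  have sq1 : ∀ s : Ga K, G1 P s → s * s = 1 := fun s hs => by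
    obtain ⟨a, m, hm, e⟩ := Nat.exists_eq_two_pow_mul_odd (orderOf_pos s).ne'
    have e1 : s ^ 2 ^ a = 1 := by
      by_contra c
      exact hne _ c ((hs.pow _).odd h2 hm (by rw [← pow_mul, ← e, pow_orderOf_eq_one]) θ)
    refine inj _ ?_
    rw [map_mul]
    exact two_pow (a := a) (by rw [← map_pow, e1, map_one])
  have g0 : G1 P s0 := fun x => by
    obtain ⟨g, hg⟩ := hθ 2 x
    have b1 : s0 • θ - θ ∈ P ^ 2 := ((hV K P hP h0).2.1 _ 2 (hne s0 n0)).1 a2
    have b2 : s0 • aeval θ g = aeval (s0 • θ) g :=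
      (aeval_algHom_apply (MulSemiringAction.toAlgHom ℤ (𝓞 K) s0) θ g).symm
    rw [show s0 • x - x = s0 • (x - aeval θ g) - (x - aeval θ g) +
      (aeval (s0 • θ) g - aeval θ g) by rw [smul_sub, b2]; ring]
    refine add_mem (sub_mem (pw (st s0 i0) 2 hg) hg) ?_
    exact Ideal.mem_of_dvd _ (by
      simpa only [aeval_def, eval₂_eq_eval_map] using sub_dvd_eval_sub (s0 • θ) θ (g.map _)) b1
  have cm : ∀ g : Ga K, (∀ x ∈ P, g⁻¹ • x ∈ P) → Commute s0 (g⁻¹ * s0 * g) := fun g hg => by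
    have b1 : G1 P (g⁻¹ * s0 * g) := fun x => by
      have := pw hg 2 (g0 (g • x))
      rwa [smul_sub, inv_smul_smul, ← mul_smul, ← mul_smul] at this
    have b2 := sq1 _ (g0.mul b1)
    have b3 := sq1 _ g0
    have b4 := sq1 _ b1
    generalize g⁻¹ * s0 * g = t at b2 b4
    change s0 * t = t * s0
    rw [← mul_one (t * s0), ← b2, show t * s0 * (s0 * t * (s0 * t)) =
      t * (s0 * s0) * t * (s0 * t) by group, b3, mul_one, b4, one_mul]
  obtain ⟨φ, hφ⟩ := IsArithFrobAt.exists_of_isInvariant ℤ (Ga K) P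
  have c2 : Nat.card (ℤ ⧸ P.under ℤ) = 2 := by
    have : P.under ℤ = Ideal.span {2} :=
      ((Ideal.span_singleton_prime two_ne_zero).2 Int.prime_two |>.isMaximal (by simp)).eq_of_le
        (Ideal.IsPrime.under ℤ P).ne_top
        ((Ideal.span_singleton_le_iff_mem _).2 (by simpa [Ideal.mem_comap] using h2)) |>.symm
    rw [this, Nat.card_congr (Int.quotientSpanEquivZMod 2).toEquiv]
    simp
  have fr : ∀ x : 𝓞 K, φ • x - x ^ 2 ∈ P := fun x => c2 ▸ hφ x
  have f1 : ∀ x ∈ P, φ • x ∈ P := fun x hx => by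
    have := add_mem (fr x) (P.pow_mem_of_mem hx 2 two_pos)
    rwa [sub_add_cancel] at this
  have f2 : ∀ x ∈ P, φ⁻¹ • x ∈ P := fun x hx => by
    have := sub_mem hx (fr (φ⁻¹ • x))
    rw [smul_inv_smul, sub_sub_cancel] at this
    exact hP.mem_of_pow_mem 2 this
  obtain ⟨π, p1, p2⟩ : ∃ π ∈ P, π ∉ P ^ 2 := SetLike.exists_of_lt (by
    simpa using Ideal.pow_succ_lt_pow h0 1)
  intro s hs
  set u := φ * s * φ⁻¹ * s⁻¹ with hu
  have u1 : u * u = 1 := inj _ (by
    rw [map_mul]
    exact cm_sq R (fun c => n0 (inj _ c)) (sq1 _ g0) (cm φ f2) (cm s (st _ (inv s hs))))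
  have u2 : In P u := fun x => by
    have := add_mem (f1 _ (hs (φ⁻¹ • s⁻¹ • x))) (inv s hs x)
    rwa [smul_sub, smul_inv_smul, sub_add_sub_cancel, ← mul_smul, ← mul_smul, ← mul_smul] at this
  obtain ⟨c, hc⟩ := tau h0 p1 p2 hs
  obtain ⟨b, hb⟩ := tau h0 p1 p2 u2
  have u3 : ∀ x ∈ P, u • x - x ∈ P ^ 2 := one_of hb (by
    have b1 := add_mem (hb _ (st u u2 π p1)) (Ideal.mul_mem_left _ b (hb π p1))
    rw [← mul_smul, u1, one_smul,
      show π - b * u • π + b * (u • π - b * π) = (1 - b * b) * π by ring] at b1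
    have b2 := sub_mem (P.mul_mem_right (1 - b) h2) ((hP.mul_mem_pow P b1).resolve_right p2)
    rw [show 2 * (1 - b) - (1 - b * b) = (b - 1) ^ 2 by ring] at b2
    exact hP.mem_of_pow_mem 2 b2)
  refine sq1 s (g1_of h0 h2 hs (one_of hc ?_))
  have p3 : φ • π ∉ P ^ 2 := fun e => p2 (by simpa using pw f2 2 e)
  have e1 : φ • s • π = u • s • φ • π := by
    rw [← mul_smul, ← mul_smul, ← mul_smul, hu]
    congr 1
    group
  have b1 := pw f1 2 (hc π p1)
  have b2 := u3 _ (st s hs _ (f1 π p1))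
  have b3 := hc _ (f1 π p1)
  have b4 : (φ • c - c ^ 2) * φ • π ∈ P ^ 2 := by
    rw [sq P]
    exact Ideal.mul_mem_mul (fr c) (f1 π p1)
  have b5 := sub_mem (sub_mem (add_mem b2 b3) b1) b4
  rw [smul_sub, smul_mul', e1, show u • s • φ • π - s • φ • π + (s • φ • π - c * φ • π) -
    (u • s • φ • π - φ • c * φ • π) - (φ • c - c ^ 2) * φ • π = c * (c - 1) * φ • π by ring] at b5
  refine (hP.mem_or_mem ((hP.mul_mem_pow P b5).resolve_right p3)).resolve_left fun e => p2 ?_
  have b6 : s • π ∈ P ^ 2 := by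
    have := add_mem (hc π p1) (sq P ▸ Ideal.mul_mem_mul e p1)
    rwa [sub_add_cancel] at this
  simpa using pw (st _ (inv s hs)) 2 b6

end Vale.Agent.P022T.H93
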