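import Vale.Agent.P022T.Defs

/-!
# P022T: the exponent of a prime ideal
-/

set_option linter.all false

open NumberField

noncomputable section

namespace Vale.Agent.P022T

variable {K : Type} [Field K] [NumberField K] {P : Ideal (𝓞 K)}

theorem Val.fin (hP : P.IsPrime) (h0 : P ≠ ⊥) {x : 𝓞 K} (hx : x ≠ 0) :
    FiniteMultiplicity P (Ideal.span {x}) :=
  FiniteMultiplicity.of_prime_left (Ideal.prime_of_isPrime h0 hP)
    (fun h => hx (Ideal.span_singleton_eq_bot.1 h))

theorem Val.le_iff (hP : P.IsPrime) (h0 : P ≠ ⊥) {x : 𝓞 K} (hx : x ≠ 0) (n : ℕ) :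
    n ≤ w P x ↔ x ∈ P ^ n := by
  rw [w, ← (Val.fin hP h0 hx).pow_dvd_iff_le_multiplicity, Ideal.dvd_span_singleton]

theorem In.inv {s : Ga K} (h : In P s) : In P s⁻¹ := fun x => by
  have k := P.neg_mem (h (s⁻¹ • x))
  rwa [smul_inv_smul, neg_sub] at k

theorem In.pow_mem {s : Ga K} (h : In P s) (n : ℕ) {x : 𝓞 K} (hx : x ∈ P ^ n) :
    s • x ∈ P ^ n := by
  have e : P.map (MulSemiringAction.toRingHom (Ga K) (𝓞 K) s) ≤ P :=
    Ideal.map_le_iff_le_comap.2 fun y hy => by
      have k := P.add_mem (h y) hy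
      rw [sub_add_cancel] at k
      exact k
  have k := Ideal.mem_map_of_mem (MulSemiringAction.toRingHom (Ga K) (𝓞 K) s) hx
  rw [Ideal.map_pow] at k
  exact Ideal.pow_right_mono e n k

theorem valC : VAL := by
  intro K _ _ _ P hP h0
  refine ⟨fun x y hx hy => ?_, fun x n hx => Val.le_iff hP h0 hx n, fun s x hs => ?_,
    fun x a hx ha h => ?_⟩
  · have f := Val.fin hP h0 (mul_ne_zero hx hy)
    rw [← Ideal.span_singleton_mul_span_singleton] at f
    rw [w, w, w, ← Ideal.span_singleton_mul_span_singleton]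
    exact multiplicity_mul (Ideal.prime_of_isPrime h0 hP) f
  · by_cases hx : x = 0
    · rw [hx, smul_zero]
    have hx' : s • x ≠ 0 := fun e => hx (by rw [← inv_smul_smul s x, e, smul_zero])
    refine le_antisymm ((Val.le_iff hP h0 hx _).2 ?_) ((Val.le_iff hP h0 hx' _).2 ?_)
    · have k := hs.inv.pow_mem _ ((Val.le_iff hP h0 hx' _).1 le_rfl)
      rwa [inv_smul_smul s x] at k
    · exact hs.pow_mem _ ((Val.le_iff hP h0 hx _).1 le_rfl)
  · obtain ⟨Q, e, hQ⟩ := (Val.fin hP h0 ha).exists_eq_pow_mul_and_not_dvd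
    rw [Ideal.dvd_iff_le] at hQ
    obtain ⟨c, c1, c2⟩ := SetLike.not_le_iff_exists.1 hQ
    have k : x * c ∈ Ideal.span {a} := by
      rw [e]
      exact Ideal.mul_mem_mul ((Val.le_iff hP h0 hx _).1 h) c1
    obtain ⟨z, hz⟩ := Ideal.mem_span_singleton.1 k
    exact ⟨c, z, c2, (mul_comm _ _).trans hz⟩

end Vale.Agent.P022T
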