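import Vale.Agent.P022T.Defs

/-!
# P022T: the wild case
-/

set_option linter.all false

open NumberField Polynomial

noncomputable section

namespace Vale.Agent.P022T.Wl

theorem ex_min {α : Type} (f : α → ℕ) (p : α → Prop) (h : ∃ y, p y) :
    ∃ y, p y ∧ ∀ z, p z → f y ≤ f z := by
  obtain ⟨y, hy, h⟩ := (measure f).wf.has_min {y | p y} h
  exact ⟨y, hy, fun z hz => not_lt.1 (h z hz)⟩

variable {K : Type} [Field K] [NumberField K] {P : Ideal (𝓞 K)}

theorem mem_I1 {s : Ga K} : s ∈ I1 P ↔ In P s ∧ s ≠ 1 := by simp [I1]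

theorem card_I (P : Ideal (𝓞 K)) : Nat.card (P.inertia (Ga K)) = (I1 P).card + 1 := by
  classical
  have h1 : (1 : Ga K) ∉ I1 P := by simp [I1]
  rw [← Finset.card_insert_of_notMem h1, ← Fintype.card_coe, ← Nat.card_eq_fintype_card]
  refine Nat.card_congr (Equiv.subtypeEquivRight fun s => ?_)
  rw [Finset.mem_insert, mem_I1]
  constructor
  · intro h
    by_cases e : s = 1
    · exact Or.inl e
    · exact Or.inr ⟨h, e⟩
  · rintro (rfl | h)
    · exact one_mem _
    · exact h.1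

/-- the sign -/
def sg (χ : P.inertia (Ga K) →* ℤˣ) (s : P.inertia (Ga K)) : 𝓞 K := ((χ s : ℤ) : 𝓞 K)

theorem sg_mul (χ ψ : P.inertia (Ga K) →* ℤˣ) (s : P.inertia (Ga K)) :
    sg (χ * ψ) s = sg χ s * sg ψ s := by simp [sg]

theorem sg_mul' (χ : P.inertia (Ga K) →* ℤˣ) (s t : P.inertia (Ga K)) :
    sg χ (s * t) = sg χ s * sg χ t := by simp [sg]

theorem sg_one (s : P.inertia (Ga K)) : sg 1 s = 1 := by simp [sg]

theorem sg_sq (χ : P.inertia (Ga K) →* ℤˣ) (s : P.inertia (Ga K)) : sg χ s * sg χ s = 1 := by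
  rcases Int.units_eq_one_or (χ s) with h | h <;> simp [sg, h]

theorem smul_sg (χ : P.inertia (Ga K) →* ℤˣ) (s : P.inertia (Ga K)) (g : Ga K) (x : 𝓞 K) :
    g • (sg χ s * x) = sg χ s * g • x := by
  rcases Int.units_eq_one_or (χ s) with h | h <;> simp [sg, h]

/-- eigenvectors -/
def Eg (χ : P.inertia (Ga K) →* ℤˣ) (y : 𝓞 K) : Prop :=
  y ≠ 0 ∧ ∀ s : P.inertia (Ga K), (s : Ga K) • y = sg χ s * y

theorem ex_eg {θ : 𝓞 K} (hθ : ∀ s : Ga K, s ≠ 1 → s • θ - θ ≠ 0)
    (χ : P.inertia (Ga K) →* ℤˣ) : ∃ y, Eg χ y := by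
  classical
  haveI := Fintype.ofFinite (P.inertia (Ga K))
  let f : P.inertia (Ga K) → (𝓞 K →* 𝓞 K) := fun s =>
    (MulSemiringAction.toRingHom (Ga K) (𝓞 K) s : 𝓞 K →* 𝓞 K)
  have fe : ∀ s x, f s x = (s : Ga K) • x := fun _ _ => rfl
  have fi : Function.Injective f := fun s t e => by
    have e1 : (s : Ga K) • θ = (t : Ga K) • θ := by rw [← fe, e, fe]
    by_contra n
    refine hθ ((t : Ga K)⁻¹ * s) (fun k => n (Subtype.ext (inv_mul_eq_one.1 k).symm)) ?_
    rw [mul_smul, e1, inv_smul_smul, sub_self]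
  have li := (linearIndependent_monoidHom (𝓞 K) (𝓞 K)).comp f fi
  rw [Fintype.linearIndependent_iff] at li
  have : ∃ x : 𝓞 K, ∑ s : P.inertia (Ga K), sg χ s * (s : Ga K) • x ≠ 0 := by
    by_contra n
    push Not at n
    have := li (sg χ) (funext fun x => by
      rw [Finset.sum_apply]
      exact n x) 1
    simp [sg] at this
  obtain ⟨x, hx⟩ := this
  refine ⟨_, hx, fun t => ?_⟩
  rw [Finset.smul_sum, Finset.mul_sum, ← Equiv.sum_comp (Equiv.mulLeft t)
    fun s => sg χ t * (sg χ s * (s : Ga K) • x)]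
  refine Finset.sum_congr rfl fun s _ => ?_
  rw [smul_sg, Equiv.coe_mulLeft, sg_mul', ← mul_assoc, ← mul_assoc, sg_sq, one_mul,
    Subgroup.coe_mul, mul_smul]

theorem div (hP : P.IsPrime) (v1 : ∀ x y, x ≠ 0 → y ≠ 0 → w P (x * y) = w P x + w P y)
    (v2 : ∀ x n, x ≠ 0 → (n ≤ w P x ↔ x ∈ P ^ n))
    (v4 : ∀ x a, x ≠ 0 → a ≠ 0 → w P a ≤ w P x → ∃ c z, c ∉ P ∧ c * x = a * z)
    {χ ψ : P.inertia (Ga K) →* ℤˣ} {x a : 𝓞 K} (hx : Eg χ x) (ha : Eg ψ a)
    (h : w P a ≤ w P x) : ∃ z, Eg (χ * ψ) z ∧ w P a + w P z = w P x := by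
  classical
  haveI := Fintype.ofFinite (P.inertia (Ga K))
  obtain ⟨c, z, c1, c2⟩ := v4 x a hx.1 ha.1 h
  have d1 : ∏ s : P.inertia (Ga K), (s : Ga K) • c ∉ P := fun k => by
    obtain ⟨s, -, hs⟩ := Ideal.IsPrime.prod_mem_iff.1 k
    have := P.sub_mem hs (s.2 c)
    rw [sub_sub_cancel] at this
    exact c1 this
  have d2 : ∀ t : P.inertia (Ga K), (t : Ga K) • ∏ s : P.inertia (Ga K), (s : Ga K) • c =
      ∏ s : P.inertia (Ga K), (s : Ga K) • c := fun t => by
    rw [Finset.smul_prod', ← Equiv.prod_comp (Equiv.mulLeft t) fun s => (s : Ga K) • c]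
    refine Finset.prod_congr rfl fun s _ => ?_
    rw [Equiv.coe_mulLeft, Subgroup.coe_mul, mul_smul]
  obtain ⟨u, hu⟩ := Finset.dvd_prod_of_mem (fun s : P.inertia (Ga K) => (s : Ga K) • c)
    (Finset.mem_univ 1)
  generalize ∏ s : P.inertia (Ga K), (s : Ga K) • c = b at d1 d2 hu
  rw [OneMemClass.coe_one, one_smul] at hu
  have b0 : b ≠ 0 := fun k => d1 (k ▸ P.zero_mem)
  have e : b * x = a * (u * z) := by rw [hu]; linear_combination u * c2
  have z0 : u * z ≠ 0 := fun k => mul_ne_zero b0 hx.1 (by rw [e, k, mul_zero])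
  have wb : w P b = 0 := by
    by_contra n
    exact d1 (by simpa using (v2 b 1 b0).1 (Nat.one_le_iff_ne_zero.2 n))
  refine ⟨u * z, ⟨z0, fun s => mul_left_cancel₀ ha.1 ?_⟩, ?_⟩
  · have k := congrArg (fun y => (s : Ga K) • y) e
    simp only [smul_mul' (s : Ga K) b, smul_mul' (s : Ga K) a, d2, hx.2, ha.2] at k
    rw [sg_mul]
    linear_combination (-sg ψ s) * k + sg χ s * sg ψ s * e - a * ((s : Ga K) • (u * z)) * sg_sq ψ s
  · rw [← v1 _ _ ha.1 z0, ← e, v1 _ _ b0 hx.1, wb, zero_add]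

theorem half {X : Type} [Fintype X] (p : X → Prop) [DecidablePred p] (f : X → X)
    (hf : Function.Injective f) (h : ∀ x, p x → ¬ p (f x)) :
    2 * (Finset.univ.filter p).card ≤ Fintype.card X := by
  have a := Finset.card_le_card_of_injOn (s := Finset.univ.filter p)
    (t := Finset.univ.filter fun x => ¬ p x) f (fun x hx => by
      simpa using h x (by simpa using hx)) hf.injOn
  have b := Finset.card_filter_add_card_filter_not (s := Finset.univ) p
  rw [Finset.card_univ] at b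
  omega

end Vale.Agent.P022T.Wl

namespace Vale.Agent.P022T

open Wl

theorem wlC (hV : VAL) (hC : CO) : WL := by
  classical
  intro K _ _ _ P hP h0 h2 θ a1 a2 a3
  obtain ⟨v1, v2, -, v4⟩ := hV K P hP h0
  have sq : ∀ s : P.inertia (Ga K), s * s = 1 := fun s => Subtype.ext (a3 s s.2)
  letI : CommGroup (P.inertia (Ga K)) :=
    { (inferInstance : Group (P.inertia (Ga K))) with
      mul_comm := fun a b => by
        rw [eq_inv_of_mul_eq_one_left (sq (a * b)), mul_inv_rev,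
          ← eq_inv_of_mul_eq_one_left (sq a), ← eq_inv_of_mul_eq_one_left (sq b)] }
  haveI : HasEnoughRootsOfUnity ℤ 2 := ⟨⟨-1, IsPrimitiveRoot.neg_one 0 (by norm_num)⟩, inferInstance⟩
  haveI : HasEnoughRootsOfUnity ℤ (Monoid.exponent (P.inertia (Ga K))) :=
    HasEnoughRootsOfUnity.of_dvd ℤ (n := 2)
      (Monoid.exponent_dvd_of_forall_pow_eq_one fun s => by rw [pow_two, sq])
  have cX := CommGroup.card_monoidHom_of_hasEnoughRootsOfUnity (P.inertia (Ga K)) ℤ
  have eX := fun s => CommGroup.exists_apply_ne_one_of_hasEnoughRootsOfUnity (P.inertia (Ga K)) ℤ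
    (a := s)
  rw [card_I] at cX
  haveI : Finite (P.inertia (Ga K) →* ℤˣ) := Nat.finite_of_card_ne_zero (by omega)
  haveI := Fintype.ofFinite (P.inertia (Ga K) →* ℤˣ)
  rw [Nat.card_eq_fintype_card] at cX
  choose y y1 y2 using fun χ : P.inertia (Ga K) →* ℤˣ => ex_min (w P) (Eg χ) (ex_eg a2 χ)
  have t0 : (2 : 𝓞 K) ≠ 0 := two_ne_zero
  have t1 : Eg (1 : P.inertia (Ga K) →* ℤˣ) (2 : 𝓞 K) ∧ 0 < w P 2 :=
    ⟨⟨t0, fun s => by
      rw [sg_one, one_mul, ← one_add_one_eq_two, smul_add, smul_one]⟩,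
      (v2 2 1 t0).2 (by rwa [pow_one])⟩
  obtain ⟨a, ⟨b1, b2⟩, b3⟩ := ex_min (w P)
    (fun a => Eg (1 : P.inertia (Ga K) →* ℤˣ) a ∧ 0 < w P a) ⟨2, t1⟩
  have cA : ∀ χ, w P (y χ) < w P a := fun χ => by
    by_contra n
    obtain ⟨z, z1, z2⟩ := div hP v1 v2 v4 (y1 χ) b1 (not_lt.1 n)
    rw [mul_one] at z1
    have := y2 χ z z1
    omega
  have cB : ∀ χ, 0 < w P (y χ) → 2 * w P (y χ) = w P a := fun χ h => by
    have e : Eg (1 : P.inertia (Ga K) →* ℤˣ) (y χ * y χ) :=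
      ⟨mul_ne_zero (y1 χ).1 (y1 χ).1, fun s => by
        rw [smul_mul', (y1 χ).2, sg_one]
        linear_combination y χ * y χ * sg_sq χ s⟩
    have e1 := v1 _ _ (y1 χ).1 (y1 χ).1
    have e2 := b3 _ ⟨e, by omega⟩
    obtain ⟨z, z1, z2⟩ := div hP v1 v2 v4 e b1 e2
    rw [mul_one] at z1
    have e3 := cA χ
    by_contra n
    have := b3 z ⟨z1, by omega⟩
    omega
  have cC : 2 * (Finset.univ.filter fun χ => 0 < w P (y χ)).card ≤ (I1 P).card + 1 := by
    by_cases h : ∃ ψ, 0 < w P (y ψ)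
    · obtain ⟨ψ, h⟩ := h
      rw [← cX]
      refine half _ (· * ψ) (mul_left_injective ψ) fun χ k => ?_
      have e1 := cB χ k
      have e2 := cB ψ h
      obtain ⟨z, z1, z2⟩ := div hP v1 v2 v4 (y1 χ) (y1 ψ) (by omega)
      have := y2 _ z z1
      omega
    · rw [Finset.filter_eq_empty_iff.2 fun χ _ k => h ⟨χ, k⟩]
      simp
  have ne : ∀ χ, y χ ≠ -y χ := fun χ k => mul_ne_zero t0 (y1 χ).1 (by linear_combination k)
  have cD : ∀ s ∈ I1 P, (I1 P).card + 1 ≤
      2 * (Finset.univ.filter fun χ => s • y χ = -y χ).card := fun s hs => by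
    obtain ⟨s1, s2⟩ := mem_I1.1 hs
    obtain ⟨ψ, hψ⟩ := eX ⟨s, s1⟩ fun k => s2 (congrArg Subtype.val k)
    have k : ∀ χ, ¬ s • y χ = -y χ ↔ χ ⟨s, s1⟩ = 1 := fun χ => by
      have := (y1 χ).2 ⟨s, s1⟩
      rcases Int.units_eq_one_or (χ ⟨s, s1⟩) with h | h
      · simp only [sg, h, Units.val_one, Int.cast_one, one_mul] at this
        rw [this]
        exact ⟨fun _ => h, fun _ => ne χ⟩
      · simp only [sg, h, Units.val_neg, Units.val_one, Int.cast_neg, Int.cast_one, neg_mul,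
          one_mul] at this
        rw [h]
        exact ⟨fun n => absurd this n, fun n => absurd n (by decide)⟩
    have a := half (fun χ => ¬ s • y χ = -y χ) (· * ψ) (mul_left_injective ψ) fun χ e => by
      rw [k, MonoidHom.mul_apply, (k χ).1 e, one_mul]
      exact hψ
    have b := Finset.card_filter_add_card_filter_not (s := Finset.univ)
      fun χ => s • y χ = -y χ
    rw [Finset.card_univ] at b
    omega
  have cE : ∀ χ, 2 * ∑ s ∈ (I1 P).filter fun s => s • y χ = -y χ, w P (s • θ - θ) ≤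
      (if χ = 1 then 0 else 2 * w P 2) + if 0 < w P (y χ) then w P a else 0 := fun χ => by
    by_cases h : χ = 1
    · rw [Finset.filter_eq_empty_iff.2 fun s hs k => ne χ ?_]
      · simp
      · rw [← k, (y1 χ).2 ⟨s, (mem_I1.1 hs).1⟩, h, sg_one, one_mul]
    · have := hC K P hP h0 θ a1 a2 ((I1 P).filter fun s => s • y χ = -y χ) (y χ) (y1 χ).1
        fun s hs => ⟨(mem_I1.1 (Finset.mem_filter.1 hs).1).1, (Finset.mem_filter.1 hs).2⟩
      rw [if_neg h]
      split_ifs with k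
      · have := cB χ k
        omega
      · omega
  have s1 := Finset.sum_le_sum fun χ (_ : χ ∈ Finset.univ) => cE χ
  have s2 : ∑ χ, 2 * ∑ s ∈ (I1 P).filter fun s => s • y χ = -y χ, w P (s • θ - θ) =
      ∑ s ∈ I1 P, 2 * (Finset.univ.filter fun χ => s • y χ = -y χ).card * w P (s • θ - θ) := by
    simp only [Finset.sum_filter, Finset.mul_sum]
    rw [Finset.sum_comm]
    refine Finset.sum_congr rfl fun s _ => ?_
    rw [← Finset.mul_sum, ← Finset.sum_filter, Finset.sum_const, smul_eq_mul, mul_assoc]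
  have s3 : ((I1 P).card + 1) * ∑ s ∈ I1 P, w P (s • θ - θ) ≤
      ∑ s ∈ I1 P, 2 * (Finset.univ.filter fun χ => s • y χ = -y χ).card * w P (s • θ - θ) := by
    rw [Finset.mul_sum]
    exact Finset.sum_le_sum fun s hs => Nat.mul_le_mul_right _ (cD s hs)
  have s4 : ∑ χ : P.inertia (Ga K) →* ℤˣ, (if χ = 1 then 0 else 2 * w P 2) =
      (I1 P).card * (2 * w P 2) := by
    rw [Finset.sum_ite, Finset.sum_const_zero, zero_add, Finset.sum_const, smul_eq_mul,
      Finset.filter_ne', Finset.card_erase_of_mem (Finset.mem_univ _), Finset.card_univ, cX,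
      Nat.add_sub_cancel]
  rw [s2, Finset.sum_add_distrib, s4, ← Finset.sum_filter, Finset.sum_const, smul_eq_mul] at s1
  have s5 := Nat.mul_le_mul cC (b3 2 t1)
  have s6 := s3.trans s1
  linarith

end Vale.Agent.P022T
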