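import Vale.Agent.P022T.Defs

/-!
# P022T: the wild bound for the different
-/

set_option linter.all false

open NumberField Polynomial

noncomputable section

namespace Vale.Agent.P022T.H25

section core
variable {R G : Type} [CommRing R] [IsDomain R] [CommGroup G] [Fintype G]
  [MulSemiringAction G R]

/-- eigenvectors -/
def V (χ : G →* ℤˣ) (y : R) : Prop := ∀ s : G, s • y = (((χ s : ℤˣ) : ℤ) : R) * y

theorem V_mul {χ ψ : G →* ℤˣ} {x y : R} (hx : V χ x) (hy : V ψ y) : V (χ * ψ) (x * y) := by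
  intro s
  rw [smul_mul', hx s, hy s, MonoidHom.mul_apply, Units.val_mul, Int.cast_mul]
  ring

theorem V_ex (hf : ∀ s t : G, (∀ x : R, s • x = t • x) → s = t) (χ : G →* ℤˣ) :
    ∃ y : R, y ≠ 0 ∧ V χ y := by
  classical
  have hli := (linearIndependent_monoidHom R R).comp
    (fun s : G => ((MulSemiringAction.toRingHom G R s : R →+* R) : R →* R))
    (fun s t h => hf s t fun x => DFunLike.congr_fun h x)
  by_contra hc
  push Not at hc
  have h0 : ∀ x : R, ∑ s : G, (((χ s⁻¹ : ℤˣ) : ℤ) : R) * s • x = 0 := by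
    intro x
    by_contra hne
    apply hc _ hne
    intro t
    rw [Finset.smul_sum, Finset.mul_sum]
    refine Fintype.sum_equiv (Equiv.mulLeft t) _ _ fun s => ?_
    rw [smul_mul', Equiv.coe_mulLeft, mul_smul, ← mul_assoc, ← Int.cast_mul, ← Units.val_mul,
      ← map_mul, mul_inv, mul_inv_cancel_left]
    congr 1
    exact map_intCast (MulSemiringAction.toRingHom G R t) _
  have := Fintype.linearIndependent_iff.1 hli (fun s => (((χ s⁻¹ : ℤˣ) : ℤ) : R))
    (by
      funext x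
      rw [Finset.sum_apply]
      exact h0 x) 1
  simp at this

theorem dv (w : R → ℕ) (hm : ∀ x y, x ≠ 0 → y ≠ 0 → w (x * y) = w x + w y)
    (hs : ∀ (s : G) x, w (s • x) = w x)
    (hd : ∀ x a, x ≠ 0 → a ≠ 0 → w a ≤ w x → ∃ c z, c ≠ 0 ∧ w c = 0 ∧ c * x = a * z)
    {χ : G →* ℤˣ} {x a : R} (hx : V χ x) (hx0 : x ≠ 0) (ha : V (1 : G →* ℤˣ) a) (ha0 : a ≠ 0)
    (hw : w a ≤ w x) : ∃ z, z ≠ 0 ∧ V χ z ∧ w z + w a = w x := by
  classical
  obtain ⟨c, z, hc0, hc, h⟩ := hd x a hx0 ha0 hw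
  have h1 : w 1 = 0 := by
    have := hm 1 1 one_ne_zero one_ne_zero
    rw [mul_one] at this
    omega
  have hn : ∀ s : G, s • c ≠ 0 := fun s h => hc0 (by simpa using congrArg (s⁻¹ • ·) h)
  have hp : ∀ T : Finset G, w (∏ s ∈ T, s • c) = 0 := by
    intro T
    induction T using Finset.induction_on with
    | empty => simpa using h1
    | insert s T hT ih =>
      rw [Finset.prod_insert hT, hm _ _ (hn s) (Finset.prod_ne_zero_iff.2 fun s _ => hn s), hs, hc,
        ih]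
  have hN0 : ∏ s : G, s • c ≠ 0 := Finset.prod_ne_zero_iff.2 fun s _ => hn s
  have hNf : ∀ t : G, t • ∏ s : G, s • c = ∏ s : G, s • c := by
    intro t
    rw [Finset.smul_prod']
    exact Fintype.prod_equiv (Equiv.mulLeft t) _ _ fun s => by rw [Equiv.coe_mulLeft, mul_smul]
  have key : a * ((∏ s ∈ Finset.univ.erase (1 : G), s • c) * z) = (∏ s : G, s • c) * x := by
    rw [← Finset.mul_prod_erase _ _ (Finset.mem_univ (1 : G)), one_smul, mul_left_comm, ← h]
    ring
  have hz0 : (∏ s ∈ Finset.univ.erase (1 : G), s • c) * z ≠ 0 := by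
    intro h0
    rw [h0, mul_zero] at key
    exact mul_ne_zero hN0 hx0 key.symm
  refine ⟨_, hz0, fun t => ?_, ?_⟩
  · have h2 := congrArg (t • ·) key
    simp only [smul_mul' t a, smul_mul' t (∏ s : G, s • c), hNf, hx t, ha t] at h2
    apply mul_left_cancel₀ ha0
    rw [mul_left_comm, key]
    simpa [mul_left_comm] using h2
  · have h2 := congrArg w key
    rw [hm _ _ ha0 hz0, hm _ _ hN0 hx0, hp] at h2
    omega

theorem core (w : R → ℕ) (hm : ∀ x y, x ≠ 0 → y ≠ 0 → w (x * y) = w x + w y)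
    (hs : ∀ (s : G) x, w (s • x) = w x)
    (hd : ∀ x a, x ≠ 0 → a ≠ 0 → w a ≤ w x → ∃ c z, c ≠ 0 ∧ w c = 0 ∧ c * x = a * z)
    (h2 : (2 : R) ≠ 0) (he : 0 < w 2) (hsq : ∀ s : G, s * s = 1)
    (hf : ∀ s t : G, (∀ x : R, s • x = t • x) → s = t) (d : G → ℕ) (T0 : Finset G)
    (hT0 : (1 : G) ∉ T0)
    (hco : ∀ (T : Finset G) (y : R), y ≠ 0 → (∀ s ∈ T, s • y = -y) → ∑ s ∈ T, d s ≤ w 2 + w y) :
    2 * Fintype.card G * ∑ s ∈ T0, d s + 4 * w 2 ≤ 5 * Fintype.card G * w 2 := by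
  classical
  haveI : HasEnoughRootsOfUnity ℤ 2 :=
    ⟨⟨-1, IsPrimitiveRoot.neg_one 0 (by norm_num)⟩, inferInstance⟩
  haveI : HasEnoughRootsOfUnity ℤ (Monoid.exponent G) :=
    HasEnoughRootsOfUnity.of_dvd ℤ (n := 2)
      (Monoid.exponent_dvd_of_forall_pow_eq_one fun s => by rw [sq, hsq])
  obtain ⟨eq⟩ := CommGroup.monoidHom_mulEquiv_of_hasEnoughRootsOfUnity G ℤ
  letI : Fintype (G →* ℤˣ) := Fintype.ofEquiv G eq.symm.toEquiv
  have hcard : Fintype.card (G →* ℤˣ) = Fintype.card G := Fintype.card_congr eq.toEquiv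
  have hV2 : V (1 : G →* ℤˣ) (2 : R) := fun s => by
    have := map_ofNat (MulSemiringAction.toRingHom G R s) 2
    simpa using this
  have hA : ∃ n, ∃ a : R, a ≠ 0 ∧ V (1 : G →* ℤˣ) a ∧ 0 < w a ∧ w a = n := ⟨_, 2, h2, hV2, he, rfl⟩
  obtain ⟨a, ha0, ha, hap, hat⟩ := Nat.find_spec hA
  have hamin : ∀ b : R, b ≠ 0 → V (1 : G →* ℤˣ) b → 0 < w b → w a ≤ w b := fun b h0 hb hp =>
    hat ▸ Nat.find_min' hA ⟨b, h0, hb, hp, rfl⟩
  have hY : ∀ χ : G →* ℤˣ, ∃ y : R, y ≠ 0 ∧ V χ y ∧ ∀ z : R, z ≠ 0 → V χ z → w y ≤ w z := by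
    intro χ
    obtain ⟨y0, h0, hy0⟩ := V_ex (R := R) hf χ
    have hB : ∃ n, ∃ y : R, y ≠ 0 ∧ V χ y ∧ w y = n := ⟨_, y0, h0, hy0, rfl⟩
    obtain ⟨y, h1, h3, h4⟩ := Nat.find_spec hB
    exact ⟨y, h1, h3, fun z hz0 hz => h4 ▸ Nat.find_min' hB ⟨z, hz0, hz, rfl⟩⟩
  choose y hy0 hy hymin using hY
  have hχ : ∀ χ : G →* ℤˣ, χ * χ = 1 := fun χ => by
    ext s
    rw [MonoidHom.mul_apply, ← map_mul, hsq, map_one, MonoidHom.one_apply]
  have hlt : ∀ χ, w (y χ) < w a := fun χ => by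
    by_contra hc
    obtain ⟨z, hz0, hz, hw⟩ := dv w hm hs hd (hy χ) (hy0 χ) ha ha0 (not_lt.1 hc)
    have := hymin χ z hz0 hz
    omega
  have hhalf : ∀ χ, 0 < w (y χ) → 2 * w (y χ) = w a := fun χ hp => by
    have hv := V_mul (hy χ) (hy χ)
    rw [hχ] at hv
    have h0 := mul_ne_zero (hy0 χ) (hy0 χ)
    have hw := hm _ _ (hy0 χ) (hy0 χ)
    have h3 := hamin _ h0 hv (by omega)
    obtain ⟨z, hz0, hz, hwz⟩ := dv w hm hs hd hv h0 ha ha0 h3
    have h4 := hlt χ
    by_contra hc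
    have := hamin z hz0 hz (by omega)
    omega
  have hprod : ∀ χ ψ, 0 < w (y χ) → 0 < w (y ψ) → w (y (χ * ψ)) = 0 := fun χ ψ hp hq => by
    have hv := V_mul (hy χ) (hy ψ)
    have h0 := mul_ne_zero (hy0 χ) (hy0 ψ)
    have hw := hm _ _ (hy0 χ) (hy0 ψ)
    have h3 := hhalf χ hp
    have h4 := hhalf ψ hq
    obtain ⟨z, hz0, hz, hwz⟩ := dv w hm hs hd hv h0 ha ha0 (by omega)
    have := hymin _ z hz0 hz
    omega
  have hhalfc : ∀ (p : (G →* ℤˣ) → Prop) [DecidablePred p] (ψ : G →* ℤˣ),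
      (∀ χ, p χ → ¬ p (ψ * χ)) → 2 * (Finset.univ.filter p).card ≤ Fintype.card G := by
    intro p _ ψ hp
    have h3 : (Finset.univ.filter p).card ≤ (Finset.univ.filter fun χ => ¬ p χ).card :=
      Finset.card_le_card_of_injOn (fun χ => ψ * χ)
        (fun χ h => by
          simp only [Finset.coe_filter, Finset.mem_univ, true_and, Set.mem_setOf_eq] at h ⊢
          exact hp χ h)
        (fun _ _ _ _ h => mul_left_cancel h)
    have h4 := Finset.card_filter_add_card_filter_not (s := Finset.univ) p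
    rw [Finset.card_univ, hcard] at h4
    omega
  have hB : 2 * (Finset.univ.filter fun χ => 0 < w (y χ)).card ≤ Fintype.card G := by
    by_cases hx : ∃ ψ, 0 < w (y ψ)
    · obtain ⟨ψ, hψ⟩ := hx
      exact hhalfc _ ψ fun χ h => by rw [hprod ψ χ hψ h]; exact lt_irrefl 0
    · push Not at hx
      rw [Finset.filter_false_of_mem fun χ _ => not_lt.2 (hx χ)]
      simp
  have hae : w a ≤ w 2 := hamin 2 h2 hV2 he
  have hsum : 4 * ∑ χ, w (y χ) ≤ Fintype.card G * w 2 := by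
    have h3 : ∑ χ, 2 * w (y χ) ≤ ∑ χ, if 0 < w (y χ) then w 2 else 0 :=
      Finset.sum_le_sum fun χ _ => by
        split_ifs with h
        · have := hhalf χ h
          omega
        · omega
    rw [← Finset.sum_filter, Finset.sum_const, smul_eq_mul, ← Finset.mul_sum] at h3
    have := Nat.mul_le_mul_right (w 2) hB
    nlinarith
  have hcnt : ∀ s ∈ T0, Fintype.card G ≤
      2 * (Finset.univ.filter fun χ : G →* ℤˣ => ¬ χ s = 1).card := by
    intro s hs0
    obtain ⟨ψ, hψ⟩ := CommGroup.exists_apply_ne_one_of_hasEnoughRootsOfUnity G ℤ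
      (a := s) (fun h => hT0 (h ▸ hs0))
    have h3 := hhalfc (fun χ => χ s = 1) ψ fun χ h => by
      rw [MonoidHom.mul_apply, h, mul_one]; exact hψ
    have h4 := Finset.card_filter_add_card_filter_not (s := Finset.univ)
      (fun χ : G →* ℤˣ => χ s = 1)
    rw [Finset.card_univ, hcard] at h4
    omega
  have hone : ∀ χ : G →* ℤˣ, (∑ s ∈ T0, if ¬ χ s = 1 then d s else 0) ≤
      (if χ = 1 then 0 else w 2) + w (y χ) := by
    intro χ
    by_cases h1 : χ = 1
    · simp [h1]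
    · rw [if_neg h1, ← Finset.sum_filter]
      refine hco _ _ (hy0 χ) fun s hs => ?_
      rcases Int.units_eq_one_or (χ s) with h | h
      · exact absurd h (Finset.mem_filter.1 hs).2
      · rw [hy χ s, h]
        simp
  have h5 := Finset.sum_le_sum fun χ (_ : χ ∈ Finset.univ) => hone χ
  rw [Finset.sum_comm, Finset.sum_add_distrib] at h5
  have h6 : (∑ χ : G →* ℤˣ, if χ = 1 then 0 else w 2) + w 2 = Fintype.card G * w 2 := by
    have h7 : ∑ χ : G →* ℤˣ, ((if χ = 1 then 0 else w 2) + if χ = 1 then w 2 else 0) =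
        ∑ χ : G →* ℤˣ, w 2 := Finset.sum_congr rfl fun χ _ => by split_ifs <;> simp
    rw [Finset.sum_add_distrib, Finset.sum_ite_eq', Finset.sum_const, Finset.card_univ, hcard,
      smul_eq_mul] at h7
    simpa using h7
  have h8 : Fintype.card G * ∑ s ∈ T0, d s ≤
      2 * ∑ s ∈ T0, ∑ χ : G →* ℤˣ, if ¬ χ s = 1 then d s else 0 := by
    rw [Finset.mul_sum, Finset.mul_sum]
    refine Finset.sum_le_sum fun s hs0 => ?_
    rw [← Finset.sum_filter, Finset.sum_const, smul_eq_mul, ← mul_assoc]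
    exact Nat.mul_le_mul_right _ (hcnt s hs0)
  nlinarith

end core

/-- the inertia group -/
def IG {K : Type} [Field K] [NumberField K] (P : Ideal (𝓞 K)) : Subgroup (Ga K) where
  carrier := {s | In P s}
  one_mem' := fun x => by simp
  mul_mem' := fun {s t} hs ht x => by
    have := P.add_mem (hs (t • x)) (ht x)
    rwa [sub_add_sub_cancel, ← mul_smul] at this
  inv_mem' := fun {s} hs x => by
    have := P.neg_mem (hs (s⁻¹ • x))
    rwa [smul_inv_smul, neg_sub] at this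

theorem wlC (hV : VAL) (hC : CO) : WL := by
  intro K _ _ _ P hP hP0 h2 θ hθ hne hsq
  classical
  obtain ⟨v1, v2, v3, v4⟩ := hV K P hP hP0
  have hsq' : ∀ s : IG P, s * s = 1 := fun s => Subtype.ext (hsq s.1 s.2)
  letI : CommGroup (IG P) :=
    { (inferInstance : Group (IG P)) with
      mul_comm := fun a b => by
        have h1 : ∀ s : IG P, s⁻¹ = s := fun s => inv_eq_of_mul_eq_one_right (hsq' s)
        rw [← h1 (a * b), mul_inv_rev, h1, h1] }
  have h20 : (2 : 𝓞 K) ≠ 0 := two_ne_zero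
  have key := core (G := IG P) (w P) v1 (fun s x => v3 s.1 x s.2)
    (fun x a hx ha hw => by
      obtain ⟨c, z, hc, h⟩ := v4 x a hx ha hw
      have hc0 : c ≠ 0 := fun h0 => hc (h0 ▸ P.zero_mem)
      refine ⟨c, z, hc0, ?_, h⟩
      by_contra hw
      exact hc (by simpa using (v2 c 1 hc0).1 (by omega)))
    h20 ((v2 2 1 h20).2 (by simpa using h2)) hsq'
    (fun s t h => by
      by_contra hc
      apply hne (t⁻¹ * s : IG P).1 fun h1 => hc (inv_mul_eq_one.1 (Subtype.ext h1)).symm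
      have h3 : (t⁻¹ * s) • θ = θ := by rw [mul_smul, h θ, inv_smul_smul]
      exact sub_eq_zero.2 h3)
    (fun s => w P (s.1 • θ - θ)) (Finset.univ.erase 1) (Finset.notMem_erase _ _)
    (fun T y hy hT => by
      have := hC K P hP hP0 θ hθ hne (T.map (Function.Embedding.subtype _)) y hy fun s hs => by
        obtain ⟨t, ht, rfl⟩ := Finset.mem_map.1 hs
        exact ⟨t.2, hT t ht⟩
      rwa [Finset.sum_map] at this)
  have hI : I1 P = (Finset.univ.erase (1 : IG P)).map (Function.Embedding.subtype _) := by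
    ext s
    simp only [I1, Finset.mem_filter, Finset.mem_univ, true_and, Finset.mem_map, Finset.mem_erase,
      and_true, Function.Embedding.subtype_apply]
    constructor
    · rintro ⟨h1, h3⟩
      exact ⟨⟨s, h1⟩, fun h => h3 (congrArg Subtype.val h), rfl⟩
    · rintro ⟨t, h1, rfl⟩
      exact ⟨t.2, fun h => h1 (Subtype.ext h)⟩
  have hc : (I1 P).card + 1 = Fintype.card (IG P) := by
    rw [hI, Finset.card_map, Finset.card_erase_add_one (Finset.mem_univ _), Finset.card_univ]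
  have hs : ∑ s ∈ I1 P, w P (s • θ - θ) =
      ∑ s ∈ Finset.univ.erase (1 : IG P), w P (s.1 • θ - θ) := by
    rw [hI, Finset.sum_map]
    rfl
  rw [← hc, ← hs] at key
  nlinarith

end Vale.Agent.P022T.H25
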