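import Vale.Agent.P022T.Defs

/-!
# P022T: the wild case
-/

set_option linter.all false

open NumberField

noncomputable section

namespace Vale.Agent.P022T.H28

variable {K : Type} [Field K] [NumberField K] [IsGalois ℚ K] (P : Ideal (𝓞 K))

/-- the inertia group -/
abbrev H : Subgroup (Ga K) := P.toAddSubgroup.inertia (Ga K)

variable {P}

/-- elements which are fixed by the inertia group -/
theorem inv (hP : P.IsPrime) (h0 : P ≠ ⊥) {x : 𝓞 K} (hx : x ≠ 0) (h : ∀ s : H P, (s : Ga K) • x = x) :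
    Nat.card (H P) ∣ w P x := by
  let L : IntermediateField ℚ K := FixedPoints.intermediateField (H P)
  let p : Ideal (𝓞 L) := P.under (𝓞 L)
  have hp : p ≠ ⊥ := Ideal.under_ne_bot (𝓞 L) h0
  haveI : p.IsMaximal := (Ideal.IsPrime.under (𝓞 L) P).isMaximal hp
  haveI : Finite (𝓞 L ⧸ p) := Ring.HasFiniteQuotients.finiteQuotient hp
  haveI : IsGaloisGroup (H P) L K := IsGaloisGroup.subgroup (Ga K) ℚ K (H P)
  haveI : IsGaloisGroup (H P) (𝓞 L) (𝓞 K) := IsGaloisGroup.of_isFractionRing (H P) (𝓞 L) (𝓞 K) L K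
  have e1 := Ideal.card_inertia_eq_ramificationIdxIn (G := H P) p P
  rw [Ideal.ramificationIdxIn_eq_ramificationIdx p P (H P),
    ← Ideal.ramificationIdx'_eq_ramificationIdx p P hp] at e1
  have e2 : P.inertia (H P) = ⊤ := eq_top_iff.2 fun s _ => s.2
  rw [e2, Subgroup.card_top] at e1
  let y : L := ⟨x, fun s => congrArg (fun z : 𝓞 K => (z : K)) (h s)⟩
  have hy : IsIntegral ℤ y := (isIntegral_algHom_iff (L.val.restrictScalars ℤ)
    Subtype.val_injective).1 x.isIntegral_coe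
  obtain ⟨z, e3⟩ : ∃ z : 𝓞 L, algebraMap (𝓞 L) (𝓞 K) z = x := ⟨⟨y, hy⟩, Subtype.ext rfl⟩
  have n1 : Ideal.span {z} ≠ ⊥ := fun c =>
    hx (by rw [← e3, Ideal.span_singleton_eq_bot.1 c, map_zero])
  have q1 := Ideal.prime_of_isPrime hp inferInstance
  have q2 := Ideal.prime_of_isPrime h0 hP
  have e4 := Ideal.IsDedekindDomain.emultiplicity_map_eq_ramificationIdx'_mul n1 q1.irreducible
    q2.irreducible h0
  rw [Ideal.map_span, Set.image_singleton, e3, ← e1,
    (FiniteMultiplicity.of_prime_left q1 n1).emultiplicity_eq_multiplicity,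
    (FiniteMultiplicity.of_prime_left q2 (by simpa using hx)).emultiplicity_eq_multiplicity] at e4
  exact ⟨_, by exact_mod_cast e4⟩

instance : Fintype (H P) := Fintype.ofFinite _

/-- an eigenvector -/
def Eg (χ : H P →* ℤˣ) (y : 𝓞 K) : Prop :=
  y ≠ 0 ∧ ∀ s : H P, (s : Ga K) • y = ((χ s : ℤ) : 𝓞 K) * y

theorem sq (u : ℤˣ) : ((u : ℤ) : 𝓞 K) * ((u : ℤ) : 𝓞 K) = 1 := by
  rw [← Int.cast_mul, ← Units.val_mul, Int.units_mul_self]
  simp

theorem sm_int (s : Ga K) (n : ℤ) (y : 𝓞 K) : s • ((n : 𝓞 K) * y) = (n : 𝓞 K) * s • y := by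
  rw [smul_mul']
  exact congrArg (· * _) (map_intCast (MulSemiringAction.toRingHom (Ga K) (𝓞 K) s) n)

theorem ex_eg {θ : 𝓞 K} (hθ : ∀ s : Ga K, s ≠ 1 → s • θ - θ ≠ 0) (χ : H P →* ℤˣ) :
    ∃ y, Eg χ y := by
  let f : H P → (𝓞 K →* 𝓞 K) := fun t => (MulSemiringAction.toRingHom (Ga K) (𝓞 K) t : 𝓞 K →* 𝓞 K)
  have hf : Function.Injective f := fun s t e => by
    have e1 : (s : Ga K) • θ = (t : Ga K) • θ := DFunLike.congr_fun e θ
    by_contra c
    refine hθ ((t : Ga K)⁻¹ * s) (fun k => c (Subtype.ext (inv_mul_eq_one.1 k).symm)) ?_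
    rw [mul_smul, e1, inv_smul_smul, sub_self]
  have li := (linearIndependent_monoidHom (𝓞 K) (𝓞 K)).comp f hf
  by_contra hn
  have k := Fintype.linearIndependent_iff.1 li (fun t => ((χ t : ℤ) : 𝓞 K)) (funext fun x => by
    by_contra c
    refine hn ⟨∑ t : H P, ((χ t : ℤ) : 𝓞 K) * (t : Ga K) • x, fun k => c ?_, fun s => ?_⟩
    · rw [Finset.sum_apply]
      exact k
    · rw [Finset.smul_sum, Finset.mul_sum]
      refine Fintype.sum_equiv (Equiv.mulLeft s) _ _ fun t => ?_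
      rw [sm_int, Equiv.coe_mulLeft, map_mul, Units.val_mul, Int.cast_mul, ← mul_assoc,
        ← mul_assoc, sq, one_mul, Subgroup.coe_mul, mul_smul]) 1
  simp at k

/-- the norm -/
def Nm (P : Ideal (𝓞 K)) (c : 𝓞 K) : 𝓞 K := ∏ t : H P, (t : Ga K) • c

theorem nm_inv (c : 𝓞 K) (s : H P) : (s : Ga K) • Nm P c = Nm P c := by
  rw [Nm, Finset.smul_prod']
  exact Fintype.prod_equiv (Equiv.mulLeft s) _ _ fun t => by
    rw [Equiv.coe_mulLeft, Subgroup.coe_mul, mul_smul]

theorem sm_ne {c : 𝓞 K} (hc : c ≠ 0) (s : Ga K) : s • c ≠ 0 := fun k =>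
  hc (by rw [← inv_smul_smul s c, k, smul_zero])

theorem nm_ne {c : 𝓞 K} (hc : c ≠ 0) : Nm P c ≠ 0 :=
  Finset.prod_ne_zero_iff.2 fun t _ => sm_ne hc _

section
variable (hV : VAL) (hP : P.IsPrime) (h0 : P ≠ ⊥)
include hV hP h0

theorem w_one : w P (1 : 𝓞 K) = 0 := by
  have := (hV K P hP h0).1 1 1 one_ne_zero one_ne_zero
  rw [mul_one] at this
  omega

theorem w_prod {ι : Type} (s : Finset ι) (f : ι → 𝓞 K) (hf : ∀ i, f i ≠ 0) :
    w P (∏ i ∈ s, f i) = ∑ i ∈ s, w P (f i) := by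
  classical
  induction s using Finset.induction_on with
  | empty => simpa using w_one hV hP h0
  | insert a s ha ih =>
    rw [Finset.prod_insert ha, Finset.sum_insert ha, (hV K P hP h0).1 _ _ (hf a)
      (Finset.prod_ne_zero_iff.2 fun i _ => hf i), ih]

theorem w_nm {c : 𝓞 K} (hc : c ≠ 0) : w P (Nm P c) = Nat.card (H P) * w P c := by
  rw [Nm, w_prod hV hP h0 _ _ fun t => sm_ne hc _,
    Finset.sum_congr rfl fun t _ => (hV K P hP h0).2.2.1 _ c t.2, Finset.sum_const,
    Finset.card_univ, Nat.card_eq_fintype_card, smul_eq_mul]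

theorem red {χ : H P →* ℤˣ} {y : 𝓞 K} (h : Eg χ y) :
    ∃ z, Eg χ z ∧ w P z = w P y % Nat.card (H P) := by
  obtain ⟨v1, v2, v3, v4⟩ := hV K P hP h0
  obtain ⟨π, p1, p2⟩ := Ideal.exists_mem_pow_notMem_pow_succ P h0 hP.ne_top 1
  have p0 : π ≠ 0 := fun c => p2 (c ▸ zero_mem _)
  have p3 : w P π = 1 := by
    have a := (v2 π 1 p0).2 p1
    have b := mt (v2 π (1 + 1) p0).1 p2
    omega
  set j := w P y / Nat.card (H P) with hj
  have a0 : Nm P (π ^ j) ≠ 0 := nm_ne (pow_ne_zero _ p0)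
  have a1 : w P (Nm P (π ^ j)) = Nat.card (H P) * j := by
    rw [w_nm hV hP h0 (pow_ne_zero _ p0), ← Fin.prod_const, w_prod hV hP h0 _ _ fun _ => p0]
    simp [p3]
  obtain ⟨c, z, c1, c2⟩ := v4 y _ h.1 a0 (a1 ▸ Nat.mul_div_le _ _)
  have c0 : c ≠ 0 := fun k => c1 (k ▸ zero_mem _)
  have c3 : w P c = 0 := by
    have := mt (v2 c 1 c0).1 (by rwa [pow_one])
    omega
  obtain ⟨c', hc⟩ : c ∣ Nm P c := by
    have := Finset.dvd_prod_of_mem (fun t : H P => (t : Ga K) • c) (Finset.mem_univ 1)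
    rwa [Subgroup.coe_one, one_smul] at this
  have e : Nm P c * y = Nm P (π ^ j) * (z * c') := by
    rw [hc, ← mul_assoc, ← c2]; ring
  have z0 : z * c' ≠ 0 := fun k => mul_ne_zero (nm_ne c0) h.1 (by rw [e, k, mul_zero])
  refine ⟨z * c', ⟨z0, fun s => mul_left_cancel₀ a0 ?_⟩, ?_⟩
  · have := congrArg ((s : Ga K) • ·) e
    simp only [smul_mul' (s : Ga K) (Nm P _), nm_inv, h.2] at this
    rw [← this, mul_left_comm, e, mul_left_comm]
  · have := congrArg (w P) e
    rw [v1 _ _ (nm_ne c0) h.1, v1 _ _ a0 z0, a1, w_nm hV hP h0 c0, c3] at this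
    have := Nat.div_add_mod (w P y) (Nat.card (H P))
    rw [← hj] at this
    omega

end

theorem Eg.mul {χ ψ : H P →* ℤˣ} {y z : 𝓞 K} (h : Eg χ y) (k : Eg ψ z) : Eg (χ * ψ) (y * z) :=
  ⟨mul_ne_zero h.1 k.1, fun s => by
    rw [smul_mul', h.2, k.2, MonoidHom.mul_apply, Units.val_mul, Int.cast_mul]; ring⟩

theorem half {X : Type} [Group X] [Fintype X] (p : X → Prop) [DecidablePred p]
    (h : ∀ a b, p a → p b → ¬ p (a * b)) :
    2 * (Finset.univ.filter p).card ≤ Fintype.card X := by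
  by_cases c : ∃ a, p a
  · obtain ⟨a, ha⟩ := c
    have := Finset.card_le_card_of_injOn (s := Finset.univ.filter p)
      (t := Finset.univ.filter fun x => ¬ p x) (a * ·)
      (fun b hb => by simpa using h a b ha (by simpa using hb))
      fun _ _ _ _ e => mul_left_cancel e
    have k := Finset.card_filter_add_card_filter_not (s := (Finset.univ : Finset X)) p
    rw [Finset.card_univ] at k
    omega
  · rw [Finset.filter_false_of_mem fun a _ k => c ⟨a, k⟩]
    simp

theorem half' {X : Type} [Group X] [Fintype X] (p : X → Prop) [DecidablePred p] (a : X)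
    (h : ∀ b, ¬ p b → p (a * b)) : Fintype.card X ≤ 2 * (Finset.univ.filter p).card := by
  have := Finset.card_le_card_of_injOn (s := Finset.univ.filter fun x => ¬ p x)
    (t := Finset.univ.filter p) (a * ·)
    (fun b hb => by simpa using h b (by simpa using hb)) fun _ _ _ _ e => mul_left_cancel e
  have k := Finset.card_filter_add_card_filter_not (s := (Finset.univ : Finset X)) p
  rw [Finset.card_univ] at k
  omega

theorem wl (hV : VAL) (hC : CO) : WL := by
  classical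
  intro K _ _ _ P hP h0 h2 θ hA hθ hs
  have s2 : ∀ s : H P, s * s = 1 := fun s => Subtype.ext (hs s s.2)
  letI : CommGroup (H P) := { (inferInstance : Group (H P)) with
    mul_comm := fun a b => by
      rw [← inv_eq_of_mul_eq_one_right (s2 (a * b)), mul_inv_rev,
        inv_eq_of_mul_eq_one_right (s2 a), inv_eq_of_mul_eq_one_right (s2 b)] }
  haveI : HasEnoughRootsOfUnity ℤ 2 := ⟨⟨-1, IsPrimitiveRoot.neg_one 0 (by norm_num)⟩, inferInstance⟩
  haveI : HasEnoughRootsOfUnity ℤ (Monoid.exponent (H P)) := HasEnoughRootsOfUnity.of_dvd ℤ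
    (Monoid.exponent_dvd_of_forall_pow_eq_one fun s => (pow_two s).trans (s2 s) : _ ∣ 2)
  have hX := CommGroup.card_monoidHom_of_hasEnoughRootsOfUnity (H P) ℤ
  have ep : 0 < Nat.card (H P) := Nat.card_pos
  haveI : Finite (H P →* ℤˣ) := Nat.finite_of_card_ne_zero (hX ▸ ep.ne')
  letI : Fintype (H P →* ℤˣ) := Fintype.ofFinite _
  rw [Nat.card_eq_fintype_card] at hX
  set e := Nat.card (H P) with he
  have t0 : (2 : 𝓞 K) ≠ 0 := two_ne_zero
  have e2 : e ≤ w P 2 := Nat.le_of_dvd (((hV K P hP h0).2.1 2 1 t0).2 (by rwa [pow_one]))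
    (inv hP h0 t0 fun s => map_ofNat (MulSemiringAction.toRingHom (Ga K) (𝓞 K) s) 2)
  let B : (H P →* ℤˣ) → Prop := fun χ => ¬ ∃ y, Eg χ y ∧ w P y = 0
  have ex : ∀ χ : H P →* ℤˣ, ∃ y, Eg χ y ∧ 2 * w P y = if B χ then e else 0 := fun χ => by
    split_ifs with c
    · obtain ⟨y, hy⟩ := ex_eg hθ χ
      obtain ⟨z, z1, z2⟩ := red hV hP h0 hy
      have z3 : w P z < e := z2 ▸ Nat.mod_lt _ ep
      have z4 : w P z ≠ 0 := fun k => c ⟨z, z1, k⟩
      obtain ⟨m, hm⟩ := inv hP h0 (z1.mul z1).1 fun s => by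
        rw [(z1.mul z1).2, MonoidHom.mul_apply, Units.val_mul, Int.cast_mul, sq, one_mul]
      rw [(hV K P hP h0).1 _ _ z1.1 z1.1, ← he] at hm
      refine ⟨z, z1, ?_⟩
      rcases m with _ | _ | m
      · omega
      · omega
      · nlinarith
    · obtain ⟨y, y1, y2⟩ := not_not.1 c
      exact ⟨y, y1, by rw [y2]⟩
  choose y y1 y2 using ex
  have hB : 2 * (Finset.univ.filter B).card ≤ e := hX ▸ half B fun a b ha hb k => by
    obtain ⟨z, z1, z2⟩ := red hV hP h0 ((y1 a).mul (y1 b))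
    have a1 := y2 a
    have b1 := y2 b
    rw [if_pos ha] at a1
    rw [if_pos hb] at b1
    rw [(hV K P hP h0).1 _ _ (y1 a).1 (y1 b).1, show w P (y a) + w P (y b) = e by omega, ← he,
      Nat.mod_self] at z2
    exact k ⟨z, z1, z2⟩
  let i : H P → ℕ := fun t => w P ((t : Ga K) • θ - θ)
  have co : ∀ χ : H P →* ℤˣ, ∑ t ∈ Finset.univ.filter (fun t => χ t = -1), i t ≤
      (if χ ≠ 1 then w P 2 else 0) + w P (y χ) := fun χ => by
    split_ifs with c
    · have := hC K P hP h0 θ hA hθ ((Finset.univ.filter fun t : H P => χ t = -1).map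
        (Function.Embedding.subtype _)) (y χ) (y1 χ).1 fun s hs => by
          obtain ⟨t, ht, rfl⟩ := Finset.mem_map.1 hs
          refine ⟨t.2, ((y1 χ).2 t).trans ?_⟩
          rw [(Finset.mem_filter.1 ht).2]
          simp
      rwa [Finset.sum_map] at this
    · rw [not_not.1 c, Finset.filter_false_of_mem fun t _ => by simp]
      simp
  have e1 : I1 P = (Finset.univ.filter fun t : H P => t ≠ 1).map (Function.Embedding.subtype _) := by
    ext s
    simp only [I1, Finset.mem_filter, Finset.mem_univ, true_and, Finset.mem_map]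
    exact ⟨fun h => ⟨⟨s, h.1⟩, fun k => h.2 (congrArg Subtype.val k), rfl⟩, by
      rintro ⟨t, ht, rfl⟩
      exact ⟨t.2, fun k => ht (Subtype.ext k)⟩⟩
  have e3 : (I1 P).card + 1 = e := by
    rw [e1, Finset.card_map, Finset.filter_ne', Finset.card_erase_add_one (Finset.mem_univ _),
      Finset.card_univ, he, Nat.card_eq_fintype_card]
  have lo : e * ∑ s ∈ I1 P, w P (s • θ - θ) ≤
      2 * ∑ χ : H P →* ℤˣ, ∑ t ∈ Finset.univ.filter (fun t => χ t = -1), i t := by
    rw [e1, Finset.sum_map, Finset.sum_comm' (t' := Finset.univ)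
      (s' := fun t => Finset.univ.filter fun χ : H P →* ℤˣ => χ t = -1) (by simp),
      Finset.mul_sum, Finset.mul_sum]
    refine le_trans (Finset.sum_le_sum fun t ht => ?_)
      (Finset.sum_le_sum_of_subset (Finset.filter_subset _ _))
    obtain ⟨a, ha⟩ := CommGroup.exists_apply_ne_one_of_hasEnoughRootsOfUnity (H P) ℤ
      (Finset.mem_filter.1 ht).2
    rw [Finset.sum_const, smul_eq_mul, ← mul_assoc]
    refine Nat.mul_le_mul_right _ (hX ▸ half' _ a fun b hb => ?_)
    rw [MonoidHom.mul_apply, (Int.units_eq_one_or _).resolve_left ha,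
      (Int.units_eq_one_or _).resolve_right hb, mul_one]
  have hi := Finset.sum_le_sum fun χ (_ : χ ∈ Finset.univ) => co χ
  rw [Finset.sum_add_distrib, ← Finset.sum_filter, Finset.sum_const, smul_eq_mul, Finset.filter_ne',
    Finset.card_erase_of_mem (Finset.mem_univ _), Finset.card_univ, hX] at hi
  have h3 : 2 * ∑ χ : H P →* ℤˣ, w P (y χ) = (Finset.univ.filter B).card * e := by
    rw [Finset.mul_sum, Finset.sum_congr rfl fun χ _ => y2 χ, ← Finset.sum_filter,
      Finset.sum_const, smul_eq_mul]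
  rw [e3]
  have e4 : e - 1 = (I1 P).card := by omega
  rw [e4] at hi
  have h4 := Nat.mul_le_mul hB e2
  have h5 := Nat.mul_le_mul_left ((Finset.univ.filter B).card) e2
  nlinarith

end Vale.Agent.P022T.H28
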