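import Vale.Agent.P022T.Defs

/-!
# P022T: the wild case
-/

set_option linter.all false

open NumberField Finset

noncomputable section

namespace Vale.Agent.P022T.H52

theorem half {X : Type} [Group X] [Fintype X] (p : X → Prop) [DecidablePred p] (x0 : X)
    (h : ∀ x, p x → ¬ p (x * x0)) : 2 * (univ.filter p).card ≤ Fintype.card X := by
  have h1 : (univ.filter p).card ≤ (univ.filter fun x => ¬ p x).card :=
    card_le_card_of_injOn (· * x0) (fun x hx => by
      simp only [coe_filter, mem_univ, true_and, Set.mem_setOf_eq] at hx ⊢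
      exact h x hx) fun a _ b _ e => mul_right_cancel e
  have h2 := card_filter_add_card_filter_not (s := (univ : Finset X)) p
  rw [card_univ] at h2
  omega

theorem cnt {G X : Type} [Group X] [Fintype G] [Fintype X] [DecidableEq X] (A : Finset G)
    (k : X → G → Prop) [∀ x, DecidablePred (k x)] (h1 : ∀ s, k 1 s)
    (hk : ∀ s ∈ A, ∃ x0, ∀ x, k x s → ¬ k (x * x0) s) (i : G → ℕ) (m : X → ℕ) (w2 : ℕ)
    (hco : ∀ x, ∑ s ∈ A.filter (fun s => ¬ k x s), i s ≤ w2 + m x) (hB : ∀ x, 2 * m x ≤ w2)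
    (hA : ∀ x y, m x ≠ 0 → m y ≠ 0 → m (x * y) = 0) :
    2 * Fintype.card X * ∑ s ∈ A, i s + 4 * w2 ≤ 5 * Fintype.card X * w2 := by
  have e1 : Fintype.card X * ∑ s ∈ A, i s ≤ 2 * ∑ x, ∑ s ∈ A.filter (fun s => ¬ k x s), i s := by
    simp only [sum_filter]
    rw [sum_comm, mul_sum, mul_sum]
    refine sum_le_sum fun s hs => ?_
    obtain ⟨x0, h0⟩ := hk s hs
    have h2 := half (fun x => k x s) x0 h0
    have h3 := card_filter_add_card_filter_not (s := (univ : Finset X)) fun x => k x s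
    rw [card_univ] at h3
    rw [← sum_filter, sum_const, smul_eq_mul, ← mul_assoc]
    exact Nat.mul_le_mul_right _ (by omega)
  have e2 : ∑ x, ∑ s ∈ A.filter (fun s => ¬ k x s), i s + w2 ≤
      Fintype.card X * w2 + ∑ x, m x := by
    have a1 : ∑ s ∈ A.filter (fun s => ¬ k 1 s), i s = 0 :=
      sum_eq_zero fun s hs => absurd (h1 s) (mem_filter.1 hs).2
    have a2 : ∑ x, (w2 + m x) = Fintype.card X * w2 + ∑ x, m x := by
      rw [sum_add_distrib, sum_const, card_univ, smul_eq_mul]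
    rw [← a2, ← add_sum_erase _ _ (mem_univ (1 : X)), ← add_sum_erase _ _ (mem_univ (1 : X)), a1]
    have a3 : ∑ x ∈ univ.erase (1 : X), ∑ s ∈ A.filter (fun s => ¬ k x s), i s ≤
        ∑ x ∈ univ.erase (1 : X), (w2 + m x) := sum_le_sum fun x _ => hco x
    omega
  have e3 : 4 * ∑ x, m x ≤ Fintype.card X * w2 := by
    have a1 : 2 * (univ.filter fun x => m x ≠ 0).card ≤ Fintype.card X := by
      by_cases c : ∃ x0, m x0 ≠ 0
      · obtain ⟨x0, h0⟩ := c
        exact half _ x0 fun x hx e => e (hA x x0 hx h0)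
      · rw [filter_eq_empty_iff.2 fun x _ e => c ⟨x, e⟩]
        simp
    have a2 : 2 * ∑ x, m x ≤ (univ.filter fun x => m x ≠ 0).card * w2 := by
      rw [← sum_filter_ne_zero, mul_sum, ← smul_eq_mul, ← sum_const]
      exact sum_le_sum fun x _ => hB x
    have a3 := Nat.mul_le_mul_right w2 a1
    rw [mul_assoc] at a3
    omega
  rw [mul_assoc, mul_assoc]
  omega

section ev
variable {R G : Type} [CommRing R] [IsDomain R] [Group G] [Fintype G] [MulSemiringAction G R]

/-- an eigenvector -/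
def Ev (χ : G →* Rˣ) (y : R) : Prop := y ≠ 0 ∧ ∀ s : G, s • y = (χ s : R) * y

variable (h2 : ∀ s : G, s * s = 1)
include h2

theorem sq1 (χ : G →* Rˣ) (s : G) : (χ s : R) * χ s = 1 := by
  rw [← Units.val_mul, ← map_mul, h2, map_one, Units.val_one]

theorem pm (χ : G →* Rˣ) (s : G) : (χ s : R) = 1 ∨ (χ s : R) = -1 :=
  mul_self_eq_one_iff.1 (sq1 h2 χ s)

theorem fix (χ : G →* Rˣ) (s u : G) : s • (χ u : R) = χ u := by
  rcases pm h2 χ u with e | e <;> rw [e]
  · exact smul_one s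
  · rw [smul_neg, smul_one]

theorem ex_ev (hf : ∀ s u : G, (∀ x : R, s • x = u • x) → s = u) (χ : G →* Rˣ) :
    ∃ y, Ev χ y := by
  by_contra hn
  have h0 : ∀ x : R, ∑ u : G, (χ u : R) * u • x = 0 := fun x => by
    by_contra c
    refine hn ⟨_, c, fun s => ?_⟩
    rw [smul_sum, mul_sum, ← Equiv.sum_comp (Equiv.mulLeft s) fun u => (χ s : R) * ((χ u : R) * u • x)]
    refine sum_congr rfl fun u _ => ?_
    rw [smul_mul', fix h2, Equiv.coe_mulLeft, map_mul, Units.val_mul, mul_smul, ← mul_assoc,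
      ← mul_assoc, sq1 h2, one_mul]
  have li := (linearIndependent_monoidHom R R).comp
    (fun u : G => (MulSemiringAction.toRingHom G R u).toMonoidHom)
    fun s u e => hf s u fun x => DFunLike.congr_fun e x
  have := Fintype.linearIndependent_iff.1 li (fun u => (χ u : R)) (funext fun x => by
    rw [Finset.sum_apply]
    exact h0 x) 1
  exact (χ 1).ne_zero this

omit h2 in
theorem Ev.mul {χ ψ : G →* Rˣ} {x y : R} (a : Ev χ x) (b : Ev ψ y) : Ev (χ * ψ) (x * y) :=
  ⟨mul_ne_zero a.1 b.1, fun s => by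
    rw [smul_mul', a.2, b.2, MonoidHom.mul_apply, Units.val_mul]
    ring⟩

theorem Ev.div {P : Ideal R} (hP : P.IsPrime) (hI : ∀ (s : G) x, s • x - x ∈ P) {χ ψ : G →* Rˣ}
    {x a c z : R} (hx : Ev χ x) (ha : Ev ψ a) (hc : c ∉ P) (e : c * x = a * z) :
    ∃ c' z', c' ∉ P ∧ c' * x = a * z' ∧ Ev (χ * ψ) z' := by
  classical
  have c1 : ∏ u : G, u • c ∉ P := fun h => by
    obtain ⟨u, -, hu⟩ := Ideal.IsPrime.prod_mem_iff.1 h
    exact hc (by simpa using sub_mem hu (hI u c))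
  have c2 : ∀ s : G, s • ∏ u : G, u • c = ∏ u : G, u • c := fun s => by
    rw [smul_prod', ← Equiv.prod_comp (Equiv.mulLeft s) fun u => u • c]
    exact prod_congr rfl fun u _ => (mul_smul s u c).symm
  have c3 : (∏ u : G, u • c) * x = a * ((∏ u ∈ univ.erase (1 : G), u • c) * z) := by
    rw [← mul_prod_erase _ _ (mem_univ (1 : G)), one_smul]
    linear_combination (∏ u ∈ univ.erase (1 : G), u • c) * e
  refine ⟨_, _, c1, c3, fun h => ?_, fun s => mul_left_cancel₀ ha.1 ?_⟩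
  · rw [h, mul_zero] at c3
    exact (mul_eq_zero.1 c3).elim (fun k => c1 (k ▸ P.zero_mem)) hx.1
  · have c4 := congrArg (s • ·) c3
    simp only [smul_mul' s (∏ u : G, u • c), smul_mul' s a, c2, hx.2, ha.2] at c4
    rw [MonoidHom.mul_apply, Units.val_mul]
    have c5 := sq1 h2 ψ s
    generalize s • ((∏ u ∈ univ.erase (1 : G), u • c) * z) = v at c4 ⊢
    generalize (∏ u ∈ univ.erase (1 : G), u • c) * z = v' at c3 c4 ⊢
    linear_combination (-(ψ s : R)) * c4 + (χ s : R) * (ψ s : R) * c3 - a * v * c5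

end ev

theorem wlC (hV : VAL) (hC : CO) : WL := by
  intro K _ _ _ P hP h0 hp θ hθ hf hs
  classical
  obtain ⟨v1, v2, -, v4⟩ := hV K P hP h0
  let I : Subgroup (Ga K) := P.toAddSubgroup.inertia (Ga K)
  have hI : ∀ (s : I) (x : 𝓞 K), s • x - x ∈ P := fun s => s.2
  have h2 : ∀ s : I, s * s = 1 := fun s => Subtype.ext (hs s s.2)
  letI : CommGroup I := { (inferInstance : Group I) with
    mul_comm := fun a b => by
      rw [← inv_eq_of_mul_eq_one_right (h2 (a * b)), mul_inv_rev, inv_eq_of_mul_eq_one_right (h2 a),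
        inv_eq_of_mul_eq_one_right (h2 b)] }
  haveI : HasEnoughRootsOfUnity (𝓞 K) 2 :=
    ⟨⟨-1, IsPrimitiveRoot.neg_one 0 (by norm_num)⟩, inferInstance⟩
  haveI : HasEnoughRootsOfUnity (𝓞 K) (Monoid.exponent I) :=
    .of_dvd _ (Monoid.exponent_dvd_of_forall_pow_eq_one fun s => by rw [sq, h2])
  have hc := CommGroup.card_monoidHom_of_hasEnoughRootsOfUnity I (𝓞 K)
  haveI : Finite (I →* (𝓞 K)ˣ) := Nat.finite_of_card_ne_zero (hc ▸ Nat.card_pos.ne')
  letI := Fintype.ofFinite (I →* (𝓞 K)ˣ)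
  have ex : ∀ χ : I →* (𝓞 K)ˣ, ∃ y, Ev χ y ∧ ∀ z, Ev χ z → w P y ≤ w P z := fun χ => by
    obtain ⟨y, a, b⟩ := (measure (w P)).wf.has_min {y | Ev χ y} (ex_ev h2 (fun s u e => by
      by_contra c
      refine hf (u⁻¹ * s : I) (fun k => c (inv_mul_eq_one.1 (Subtype.ext k)).symm) ?_
      change (u⁻¹ * s) • θ - θ = 0
      rw [mul_smul, e, inv_smul_smul, sub_self]) χ)
    exact ⟨y, a, fun z hz => not_lt.1 (b z hz)⟩
  choose y y1 y2 using ex
  have dv : ∀ {χ ψ : I →* (𝓞 K)ˣ} {x a : 𝓞 K}, Ev χ x → Ev ψ a → w P a ≤ w P x →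
      w P (y (χ * ψ)) + w P a ≤ w P x := fun {χ ψ x a} hx ha h => by
    obtain ⟨c, z, a1, a2⟩ := v4 x a hx.1 ha.1 h
    obtain ⟨c', z', b1, b2, b3⟩ := Ev.div h2 hP hI hx ha a1 a2
    have b0 : c' ≠ 0 := fun k => b1 (k ▸ P.zero_mem)
    have b4 := congrArg (w P) b2
    rw [v1 _ _ b0 hx.1, v1 _ _ ha.1 b3.1] at b4
    have b5 : ¬ 1 ≤ w P c' := fun k => b1 (by simpa using (v2 c' 1 b0).1 k)
    have := y2 _ _ b3
    omega
  have e2 : Ev (1 : I →* (𝓞 K)ˣ) (2 : 𝓞 K) := ⟨two_ne_zero, fun s => by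
    rw [MonoidHom.one_apply, Units.val_one, one_mul, ← one_add_one_eq_two, smul_add, smul_one]⟩
  have w2 : 1 ≤ w P 2 := (v2 2 1 two_ne_zero).2 (by simpa using hp)
  have cc : ∀ χ : I →* (𝓞 K)ˣ, χ * χ = 1 := fun χ =>
    MonoidHom.ext fun s => Units.ext (sq1 h2 χ s)
  have m1 : ∀ χ : I →* (𝓞 K)ˣ, χ * 1 = χ := fun χ => MonoidHom.ext fun s => mul_one (χ s)
  have m2 : ∀ χ : I →* (𝓞 K)ˣ, 1 * χ = χ := fun χ => MonoidHom.ext fun s => one_mul (χ s)
  have le : ∀ χ ψ, w P (y χ) ≠ 0 → w P (y χ) ≤ w P (y ψ) → w P (y ψ) ≤ w P (y χ) := by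
    intro χ ψ a b
    have q := (y1 χ).mul (y1 χ)
    have q' := v1 _ _ (y1 χ).1 (y1 χ).1
    rw [cc] at q
    rcases le_total (w P (y χ * y χ)) (w P (y ψ)) with c | c
    · have := dv (y1 ψ) q c
      rw [m1] at this
      omega
    · have := dv q (y1 ψ) c
      rw [m2] at this
      omega
  have main := cnt (univ.filter fun s : I => s ≠ 1) (fun (χ : I →* (𝓞 K)ˣ) s => χ s = 1)
    (fun s => rfl) (fun s hs => by
      obtain ⟨χ, h⟩ := CommGroup.exists_apply_ne_one_of_hasEnoughRootsOfUnity I (𝓞 K)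
        (mem_filter.1 hs).2
      exact ⟨χ, fun x a b => h (by rwa [MonoidHom.mul_apply, a, one_mul] at b)⟩)
    (fun s => w P ((s : Ga K) • θ - θ)) (fun χ => w P (y χ)) (w P 2) (fun χ => by
      have := hC K P hP h0 θ hθ hf (((univ.filter fun s : I => s ≠ 1).filter
        fun s => ¬ χ s = 1).map (Function.Embedding.subtype _)) (y χ) (y1 χ).1 (fun s hs => by
          obtain ⟨u, hu, rfl⟩ := mem_map.1 hs
          refine ⟨u.2, ((y1 χ).2 u).trans ?_⟩
          rw [(pm h2 χ u).resolve_left fun k => (mem_filter.1 hu).2 (Units.ext k), neg_one_mul])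
      rwa [sum_map] at this) (fun χ => by
      rcases le_total (w P 2) (w P (y χ)) with c | c
      · have := dv (y1 χ) e2 c
        rw [m1] at this
        omega
      · have := dv e2 (y1 χ) c
        rw [m2] at this
        omega) fun χ ψ a b => by
      have c : w P (y ψ) ≤ w P (y χ) := (le_total _ _).elim id (le χ ψ a)
      have c' := le ψ χ b c
      have := dv (y1 χ) (y1 ψ) c
      omega
  have eI : I1 P = (univ.filter fun s : I => s ≠ 1).map (Function.Embedding.subtype _) := by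
    ext s
    simp only [I1, mem_filter, mem_univ, true_and, mem_map, Function.Embedding.subtype_apply]
    exact ⟨fun h => ⟨⟨s, h.1⟩, fun k => h.2 (congrArg Subtype.val k), rfl⟩,
      fun ⟨u, a, b⟩ => b ▸ ⟨u.2, fun k => a (Subtype.ext k)⟩⟩
  have eN : Fintype.card (I →* (𝓞 K)ˣ) = (I1 P).card + 1 := by
    rw [← Nat.card_eq_fintype_card, hc, eI, card_map, filter_ne', card_erase_add_one (mem_univ _),
      card_univ, Nat.card_eq_fintype_card]
  rw [eN] at main
  have eS : ∑ s ∈ I1 P, w P (s • θ - θ) =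
      ∑ s ∈ univ.filter fun s : I => s ≠ 1, w P ((s : Ga K) • θ - θ) := by
    rw [eI, sum_map]
    rfl
  rw [eS]
  have : 5 * ((I1 P).card + 1) * w P 2 = (5 * (I1 P).card + 1) * w P 2 + 4 * w P 2 := by ring
  omega

end Vale.Agent.P022T.H52
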