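import Vale.Agent.P022T.Defs

/-!
# P022T: the wild case
-/

set_option linter.all false

open NumberField Polynomial

noncomputable section

namespace Vale.Agent.P022T.H74

open Classical in
theorem core {H : Type} [CommGroup H] [Fintype H] [DecidableEq H] (h2 : ∀ s : H, s * s = 1) (i : H → ℕ)
    (e f : ℕ) (m : (H →* ℤˣ) → ℕ) (hfe : f ≤ e) (lt : ∀ χ, m χ < f) (d2 : ∀ χ, f ∣ m χ + m χ)
    (d3 : ∀ χ ψ, f ∣ m χ + m ψ + m (χ * ψ))
    (co : ∀ χ : H →* ℤˣ, ∑ s ∈ Finset.univ.filter (fun s => χ s = -1), i s ≤ e + m χ) :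
    2 * Fintype.card H * ∑ s ∈ Finset.univ.erase 1, i s + 4 * e ≤ 5 * Fintype.card H * e := by
  haveI r2 : HasEnoughRootsOfUnity ℤ 2 :=
    { prim := ⟨-1, IsPrimitiveRoot.neg_one 0 (by norm_num)⟩
      cyc := rootsOfUnity.isCyclic ℤ 2 }
  haveI r3 : HasEnoughRootsOfUnity ℤ (Monoid.exponent H) :=
    HasEnoughRootsOfUnity.of_dvd ℤ (Monoid.exponent_dvd_of_forall_pow_eq_one (n := 2) fun g => by
      rw [pow_two, h2])
  have hc := CommGroup.card_monoidHom_of_hasEnoughRootsOfUnity H ℤ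
  haveI : Finite (H →* ℤˣ) := Nat.finite_of_card_ne_zero (by rw [hc]; exact Nat.card_pos.ne')
  haveI := Fintype.ofFinite (H →* ℤˣ)
  rw [Nat.card_eq_fintype_card, Nat.card_eq_fintype_card] at hc
  have half : ∀ (p : (H →* ℤˣ) → Prop) [DecidablePred p] (c : H →* ℤˣ),
      (∀ χ, p χ → ¬ p (χ * c)) →
      2 * (Finset.univ.filter p).card ≤ Fintype.card H := fun p _ c h => by
    have k1 : (Finset.univ.filter p).card ≤ (Finset.univ.filter fun χ => ¬ p χ).card :=
      Finset.card_le_card_of_injOn (fun χ => χ * c)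
        (fun χ hχ => by simpa using h χ (by simpa using hχ))
        fun a _ b _ k => mul_right_cancel k
    have k2 := Finset.card_filter_add_card_filter_not (s := (Finset.univ : Finset (H →* ℤˣ))) p
    rw [Finset.card_univ, hc] at k2
    omega
  have lo : ∀ s ∈ (Finset.univ.erase 1 : Finset H), Fintype.card H * i s ≤
      2 * ∑ χ : H →* ℤˣ, if χ s = -1 then i s else 0 := fun s hs => by
    obtain ⟨c, h⟩ := CommGroup.exists_apply_ne_one_of_hasEnoughRootsOfUnity H ℤ
      (Finset.ne_of_mem_erase hs)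
    have k1 := half (fun χ => ¬ χ s = -1) c fun χ k k' => k' (by
      rw [MonoidHom.mul_apply, (Int.units_eq_one_or (χ s)).resolve_right k,
        (Int.units_eq_one_or (c s)).resolve_left h, one_mul])
    have k2 := Finset.card_filter_add_card_filter_not (s := (Finset.univ : Finset (H →* ℤˣ)))
      fun χ => χ s = -1
    rw [Finset.card_univ, hc] at k2
    rw [← Finset.sum_filter, Finset.sum_const, smul_eq_mul, ← mul_assoc]
    refine Nat.mul_le_mul_right _ ?_
    have k3 : (Finset.univ.filter fun χ : H →* ℤˣ => ¬ χ s = -1).card * 2 ≤ Fintype.card H := by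
      rw [mul_comm]
      exact k1
    omega
  have up : ∀ χ : H →* ℤˣ, (∑ s ∈ Finset.univ.erase 1, if χ s = -1 then i s else 0) +
      (if χ = 1 then e else 0) ≤ e + m χ := fun χ => by
    by_cases h : χ = 1
    · subst h
      simp
    · rw [if_neg h, add_zero, ← Finset.sum_filter]
      exact le_trans (Finset.sum_le_sum_of_subset
        (Finset.filter_subset_filter _ (Finset.subset_univ _))) (co χ)
  have two : ∀ χ, m χ ≠ 0 → m χ + m χ = f := fun χ h => by
    obtain ⟨k, hk⟩ := d2 χ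
    have := lt χ
    have k1 : k < 2 := by
      by_contra c
      have : f * 2 ≤ f * k := Nat.mul_le_mul_left _ (by omega)
      omega
    have k0 : k ≠ 0 := by
      rintro rfl
      omega
    have : k = 1 := by omega
    subst this
    omega
  have sm : 4 * ∑ χ, m χ ≤ Fintype.card H * e := by
    by_cases h : ∃ c, m c ≠ 0
    · obtain ⟨c, h⟩ := h
      have k1 := half (fun χ => m χ ≠ 0) c fun χ k k' => by
        have a1 := two χ k
        have a2 := two c h
        have a3 := d3 χ c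
        rw [show m χ + m c = f by omega] at a3
        exact absurd (Nat.le_of_dvd (Nat.pos_of_ne_zero k') ((Nat.dvd_add_right dvd_rfl).1 a3))
          (not_le.2 (lt _))
      have k2 : 2 * ∑ χ, m χ ≤ (Finset.univ.filter fun χ => m χ ≠ 0).card * e := by
        rw [← Finset.sum_filter_ne_zero, Finset.mul_sum, ← smul_eq_mul]
        refine Finset.sum_le_card_nsmul _ _ _ fun χ hχ => ?_
        have := two χ (Finset.mem_filter.1 hχ).2
        omega
      have k3 := Nat.mul_le_mul_right e k1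
      have k4 : 2 * (Finset.univ.filter fun χ => m χ ≠ 0).card * e ≤ Fintype.card H * e :=
        k3
      rw [mul_assoc] at k4
      omega
    · push Not at h
      simp [h]
  have s1 := Finset.sum_le_sum lo
  have s2 := Finset.sum_le_sum fun χ (_ : χ ∈ Finset.univ) => up χ
  rw [Finset.sum_add_distrib, Finset.sum_add_distrib, Finset.sum_comm, Finset.sum_const,
    Finset.card_univ, hc, smul_eq_mul, Finset.sum_ite_eq'] at s2
  rw [← Finset.mul_sum, ← Finset.mul_sum] at s1
  simp only [Finset.mem_univ, if_true] at s2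
  rw [mul_assoc, mul_assoc]
  omega

variable {K : Type} [Field K] [NumberField K]

theorem wlC (hV : VAL) (hC : CO) : WL := by
  classical
  intro K _ _ _ P hP h0 h2 θ hA hθ hI
  obtain ⟨v1, v2, v3, v4⟩ := hV K P hP h0
  let I : Subgroup (Ga K) := P.inertia (Ga K)
  have mI : ∀ s : I, In P s.1 := fun s => s.2
  have i2 : ∀ s : I, s * s = 1 := fun s => Subtype.ext (hI s (mI s))
  have iv : ∀ s : I, s⁻¹ = s := fun s => inv_eq_of_mul_eq_one_right (i2 s)
  letI : CommGroup I := { (inferInstance : Group I) with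
    mul_comm := fun a b => by rw [← iv (a * b), mul_inv_rev, iv, iv] }
  let V : (I →* ℤˣ) → 𝓞 K → Prop := fun χ y => y ≠ 0 ∧ ∀ s : I, s.1 • y = ((χ s : ℤ) : 𝓞 K) * y
  have w0 : ∀ c, c ∉ P → c ≠ 0 ∧ w P c = 0 := fun c h => by
    have k : c ≠ 0 := fun e => h (e ▸ P.zero_mem)
    refine ⟨k, ?_⟩
    by_contra a
    exact h (by simpa using (v2 c 1 k).1 (by omega))
  have mul : ∀ χ ψ y z, V χ y → V ψ z → V (χ * ψ) (y * z) := fun χ ψ y z a b =>
    ⟨mul_ne_zero a.1 b.1, fun s => by
      rw [smul_mul', a.2, b.2, MonoidHom.mul_apply, Units.val_mul, Int.cast_mul]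
      ring⟩
  have sq : ∀ χ : I →* ℤˣ, χ * χ = 1 := fun χ => MonoidHom.ext fun s => Int.units_mul_self _
  have dv : ∀ χ y a, V χ y → V 1 a → w P a ≤ w P y → ∃ z, V χ z ∧ w P z + w P a = w P y := by
    intro χ y a hy ha h
    obtain ⟨c, z, c1, c2⟩ := v4 y a hy.1 ha.1 h
    have n1 : ∏ s : I, s.1 • c ∉ P := fun k => by
      obtain ⟨s, -, k⟩ := (Ideal.IsPrime.prod_mem_iff (hp := hP)).1 k
      exact c1 (by simpa using P.sub_mem k (mI s c))
    have n2 : V 1 (∏ s : I, s.1 • c) := ⟨(w0 _ n1).1, fun u => by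
      rw [Finset.smul_prod', MonoidHom.one_apply, Units.val_one, Int.cast_one, one_mul]
      exact Fintype.prod_equiv (Equiv.mulLeft u) _ _ fun s => (mul_smul u.1 s.1 c).symm⟩
    have n3 : (∏ s : I, s.1 • c) * y = a * (z * ∏ s ∈ Finset.univ.erase (1 : I), s.1 • c) := by
      rw [← Finset.mul_prod_erase _ _ (Finset.mem_univ (1 : I)), ← mul_assoc, ← c2]
      simp only [OneMemClass.coe_one, one_smul]
      ring
    have n4 := mul _ _ _ _ n2 hy
    rw [one_mul, n3] at n4
    have n5 := right_ne_zero_of_mul n4.1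
    refine ⟨_, ⟨n5, fun s => mul_left_cancel₀ ha.1 ?_⟩, ?_⟩
    · have k := n4.2 s
      rw [smul_mul', ha.2, MonoidHom.one_apply, Units.val_one, Int.cast_one, one_mul] at k
      rw [k]
      ring
    · rw [add_comm, ← v1 _ _ ha.1 n5, ← n3, v1 _ _ n2.1 hy.1, (w0 _ n1).2, zero_add]
  have ex : ∀ χ, ∃ n y, V χ y ∧ w P y = n := fun χ => by
    have li := (linearIndependent_monoidHom (𝓞 K) (𝓞 K)).comp
      (fun s : I => (MulSemiringAction.toRingHom (Ga K) (𝓞 K) s.1).toMonoidHom) fun a b k => by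
        have k1 : a.1 • θ = b.1 • θ := DFunLike.congr_fun k θ
        by_contra c
        refine hθ (b.1⁻¹ * a.1) (fun e => c (Subtype.ext (inv_mul_eq_one.1 e).symm)) ?_
        rw [mul_smul, k1, inv_smul_smul, sub_self]
    by_contra c
    have k := Fintype.linearIndependent_iff.1 li (fun s => ((χ s : ℤ) : 𝓞 K)) (funext fun x => by
      by_contra d
      refine c ⟨_, ∑ s : I, ((χ s : ℤ) : 𝓞 K) * s.1 • x, ⟨fun e => d ?_, fun u => ?_⟩, rfl⟩
      · rw [Finset.sum_apply]
        exact e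
      · rw [Finset.smul_sum, Finset.mul_sum]
        refine Fintype.sum_equiv (Equiv.mulLeft u) _ _ fun s => ?_
        have k2 : ((χ u : ℤ) : 𝓞 K) * ((χ u : ℤ) : 𝓞 K) = 1 := by
          rw [← Int.cast_mul, ← Units.val_mul, Int.units_mul_self, Units.val_one, Int.cast_one]
        have k3 : u.1 • ((χ s : ℤ) : 𝓞 K) = ((χ s : ℤ) : 𝓞 K) :=
          map_intCast (MulSemiringAction.toRingHom (Ga K) (𝓞 K) u.1) _
        rw [smul_mul', k3, Equiv.coe_mulLeft, map_mul, Units.val_mul, Int.cast_mul,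
          Subgroup.coe_mul, mul_smul, ← mul_assoc, ← mul_assoc, k2, one_mul]) 1
    simp at k
  have t2 : V 1 2 := ⟨two_ne_zero, fun s => by
    rw [MonoidHom.one_apply, Units.val_one, Int.cast_one, one_mul]
    exact map_ofNat (MulSemiringAction.toRingHom (Ga K) (𝓞 K) s.1) 2⟩
  have e1 : 1 ≤ w P 2 := (v2 2 1 two_ne_zero).2 (by simpa using h2)
  have ef : ∃ n, 0 < n ∧ ∃ a, V 1 a ∧ w P a = n := ⟨_, e1, 2, t2, rfl⟩
  obtain ⟨f0, a, ha, hf⟩ := Nat.find_spec ef
  have fm : ∀ x, V 1 x → 0 < w P x → Nat.find ef ≤ w P x := fun x h k =>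
    Nat.find_min' ef ⟨k, x, h, rfl⟩
  have fd : ∀ n x, V 1 x → w P x = n → Nat.find ef ∣ n := fun n => by
    induction n using Nat.strong_induction_on with
    | _ n ih =>
      intro x h k
      rcases Nat.eq_zero_or_pos n with rfl | p
      · exact dvd_zero _
      · obtain ⟨z, z1, z2⟩ := dv 1 x a h ha (hf ▸ fm x h (k ▸ p))
        rw [← k, ← z2, hf]
        exact dvd_add (ih _ (by omega) z z1 rfl) dvd_rfl
  choose y y1 y2 using fun χ => Nat.find_spec (ex χ)
  have K := core i2 (fun s : I => w P (s.1 • θ - θ)) (w P 2) (Nat.find ef) (fun χ => w P (y χ))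
    (fm 2 t2 e1) (fun χ => by
      by_contra c
      obtain ⟨z, z1, z2⟩ := dv χ (y χ) a (y1 χ) ha (by omega)
      have := Nat.find_min' (ex χ) ⟨z, z1, rfl⟩
      have := y2 χ
      omega)
    (fun χ => fd _ _ (sq χ ▸ mul _ _ _ _ (y1 χ) (y1 χ)) (v1 _ _ (y1 χ).1 (y1 χ).1))
    (fun χ ψ => fd _ _ (sq (χ * ψ) ▸ mul _ _ _ _ (mul _ _ _ _ (y1 χ) (y1 ψ)) (y1 (χ * ψ))) (by
      rw [v1 _ _ (mul_ne_zero (y1 χ).1 (y1 ψ).1) (y1 _).1, v1 _ _ (y1 χ).1 (y1 ψ).1]))
    fun χ => by
      have k := hC K P hP h0 θ hA hθ ((Finset.univ.filter fun s : I => χ s = -1).map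
        (Function.Embedding.subtype _)) (y χ) (y1 χ).1 fun s hs => by
          obtain ⟨u, u1, rfl⟩ := Finset.mem_map.1 hs
          refine ⟨mI u, ((y1 χ).2 u).trans ?_⟩
          rw [(Finset.mem_filter.1 u1).2]
          simp
      rw [Finset.sum_map] at k
      exact k
  have eI : I1 P = (Finset.univ.erase (1 : I)).map (Function.Embedding.subtype _) := by
    ext s
    simp only [I1, Finset.mem_filter, Finset.mem_univ, true_and, Finset.mem_map, Finset.mem_erase,
      and_true, Function.Embedding.coe_subtype]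
    exact ⟨fun h => ⟨⟨s, h.1⟩, fun e => h.2 (congrArg Subtype.val e), rfl⟩, by
      rintro ⟨u, u1, rfl⟩
      exact ⟨mI u, fun e => u1 (Subtype.ext e)⟩⟩
  have ec : (I1 P).card + 1 = Fintype.card I := by
    rw [eI, Finset.card_map, Finset.card_erase_add_one (Finset.mem_univ _), Finset.card_univ]
  have es : ∑ s ∈ I1 P, w P (s • θ - θ) = ∑ s ∈ Finset.univ.erase (1 : I), w P (s.1 • θ - θ) := by
    rw [eI, Finset.sum_map]
    rfl
  have K2 : 2 * Fintype.card I * ∑ s ∈ Finset.univ.erase (1 : I), w P (s.1 • θ - θ) + 4 * w P 2 ≤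
      5 * Fintype.card I * w P 2 := K
  rw [es, ec]
  rw [← ec] at K2 ⊢
  nlinarith [K2]

end Vale.Agent.P022T.H74
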