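import Vale.Agent.P022T.Defs

/-!
# P022T: the wild case, by the sign characters of the inertia group
-/

set_option linter.all false

open NumberField

noncomputable section

namespace Vale.Agent.P022T.H78

theorem chars (G : Type) [Group G] [Finite G] (h : ∀ s : G, s * s = 1) :
    Nat.card (G →* ℤˣ) = Nat.card G ∧ ∀ s : G, s ≠ 1 → ∃ χ : G →* ℤˣ, χ s ≠ 1 := by
  have hi : ∀ s : G, s⁻¹ = s := fun s => inv_eq_of_mul_eq_one_left (h s)
  letI : CommGroup G := { (inferInstance : Group G) with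
    mul_comm := fun a b => by rw [← hi (a * b), mul_inv_rev, hi, hi] }
  haveI : HasEnoughRootsOfUnity ℤ 2 :=
    ⟨⟨-1, IsPrimitiveRoot.neg_one 0 (by norm_num)⟩, inferInstance⟩
  have hd : Monoid.exponent G ∣ 2 :=
    Monoid.exponent_dvd_of_forall_pow_eq_one fun g => by rw [pow_two, h]
  haveI : HasEnoughRootsOfUnity ℤ (Monoid.exponent G) := HasEnoughRootsOfUnity.of_dvd ℤ hd
  exact ⟨CommGroup.card_monoidHom_of_hasEnoughRootsOfUnity G ℤ,
    fun s hs => CommGroup.exists_apply_ne_one_of_hasEnoughRootsOfUnity G ℤ hs⟩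

open Classical in
theorem comb (G : Type) [Group G] [Fintype G] [DecidableEq G] (h : ∀ s : G, s * s = 1)
    (ws : G → ℕ) (v d : ℕ)
    (a : (G →* ℤˣ) → ℕ) (hd : d ≤ v) (h1 : ∀ χ, a χ = 0 ∨ 2 * a χ = d)
    (h2 : ∀ χ ψ, a χ ≠ 0 → a ψ ≠ 0 → a (χ * ψ) = 0)
    (h3 : ∀ χ : G →* ℤˣ, ∑ s ∈ Finset.univ.filter (fun s => χ s = -1), ws s ≤ v + a χ) :
    2 * Fintype.card G * ∑ s ∈ Finset.univ.erase 1, ws s + 4 * v ≤ 5 * Fintype.card G * v := by
  obtain ⟨hc, hs⟩ := chars G h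
  haveI : Finite (G →* ℤˣ) := Nat.finite_of_card_ne_zero (by rw [hc]; exact Nat.card_pos.ne')
  letI : Fintype (G →* ℤˣ) := Fintype.ofFinite _
  rw [Nat.card_eq_fintype_card, Nat.card_eq_fintype_card] at hc
  have pair : ∀ (f : (G →* ℤˣ) → ℕ) (ψ : G →* ℤˣ), 2 * ∑ χ, f χ = ∑ χ, (f χ + f (χ * ψ)) := by
    intro f ψ
    have := Equiv.sum_comp (Equiv.mulRight ψ) f
    simp only [Equiv.coe_mulRight] at this
    rw [Finset.sum_add_distrib, this, two_mul]
  have ha : 4 * ∑ χ, a χ ≤ Fintype.card G * d := by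
    by_cases h0 : ∀ χ, a χ = 0
    · simp [h0]
    · obtain ⟨ψ, hψ⟩ := not_forall.1 h0
      have e1 : 4 * ∑ χ, a χ = ∑ χ, 2 * (a χ + a (χ * ψ)) := by
        rw [← Finset.mul_sum, ← pair a ψ]; ring
      rw [e1, ← hc]
      have := Finset.sum_le_card_nsmul Finset.univ (fun χ => 2 * (a χ + a (χ * ψ))) d (by
        intro χ _
        have k1 := h1 χ
        have k2 := h1 (χ * ψ)
        have k3 := h2 χ ψ
        omega)
      simpa using this
  have hh : ∀ s : G, 2 * ∑ χ : G →* ℤˣ, (if χ s = -1 then ws s else 0) =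
      if s = 1 then 0 else Fintype.card G * ws s := by
    intro s
    split_ifs with e
    · subst e
      simp
    · obtain ⟨ψ, hψ⟩ := hs s e
      have hψ' : ψ s = -1 := (Int.units_eq_one_or _).resolve_left hψ
      rw [pair _ ψ, ← hc, Finset.sum_congr rfl (g := fun _ => ws s)]
      · simp
      · intro χ _
        rw [MonoidHom.mul_apply, hψ']
        rcases Int.units_eq_one_or (χ s) with k | k <;> simp [k]
  have h4 : ∀ χ : G →* ℤˣ, ∑ s, (if χ s = -1 then ws s else 0) + (if χ = 1 then v else 0) ≤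
      v + a χ := by
    intro χ
    split_ifs with e
    · subst e
      simp
    · rw [← Finset.sum_filter]
      exact h3 χ
  have h5 := Finset.sum_le_sum (s := Finset.univ) fun χ _ => h4 χ
  rw [Finset.sum_add_distrib, Finset.sum_add_distrib, Finset.sum_comm, Finset.sum_ite_eq',
    if_pos (Finset.mem_univ _), Finset.sum_const, Finset.card_univ, hc, smul_eq_mul] at h5
  have h6 : 2 * ∑ s : G, ∑ χ : G →* ℤˣ, (if χ s = -1 then ws s else 0) =
      Fintype.card G * ∑ s ∈ Finset.univ.erase 1, ws s := by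
    rw [Finset.mul_sum, Finset.sum_congr rfl fun s _ => hh s, Finset.mul_sum,
      ← Finset.add_sum_erase _ _ (Finset.mem_univ (1 : G)), if_pos rfl, zero_add]
    exact Finset.sum_congr rfl fun s k => if_neg (Finset.ne_of_mem_erase k)
  have h7 := Nat.mul_le_mul_left (Fintype.card G) hd
  rw [mul_assoc, mul_assoc, ← h6]
  omega

section
variable {K : Type} [Field K] [NumberField K]

/-- an eigenvector -/
def Eg (H : Subgroup (Ga K)) (χ : H →* ℤˣ) (y : 𝓞 K) : Prop :=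
  y ≠ 0 ∧ ∀ s : H, (s : Ga K) • y = ((χ s : ℤ) : 𝓞 K) * y

theorem Eg.mul {H : Subgroup (Ga K)} {χ ψ : H →* ℤˣ} {y z : 𝓞 K} (hy : Eg H χ y)
    (hz : Eg H ψ z) : Eg H (χ * ψ) (y * z) := by
  refine ⟨mul_ne_zero hy.1 hz.1, fun s => ?_⟩
  rw [smul_mul', hy.2, hz.2, MonoidHom.mul_apply]
  push_cast
  ring

theorem eg_ex (H : Subgroup (Ga K)) (θ : 𝓞 K) (hθ : ∀ s : Ga K, s ≠ 1 → s • θ - θ ≠ 0)
    (χ : H →* ℤˣ) : ∃ y, Eg H χ y := by
  classical
  have hz : ∀ (s : Ga K) (n : ℤ), s • (n : 𝓞 K) = n := fun s n =>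
    map_intCast (MulSemiringAction.toRingHom (Ga K) (𝓞 K) s) n
  let f : H → (𝓞 K →* 𝓞 K) := fun s => (MulSemiringAction.toRingHom (Ga K) (𝓞 K) s).toMonoidHom
  have hf : Function.Injective f := by
    intro s t e
    have e1 : (s : Ga K) • θ = (t : Ga K) • θ := DFunLike.congr_fun e θ
    by_contra k
    refine hθ ((t : Ga K)⁻¹ * s) (fun k2 => k (Subtype.ext (inv_mul_eq_one.1 k2).symm)) ?_
    rw [mul_smul, e1, inv_smul_smul, sub_self]
  have li := (linearIndependent_monoidHom (𝓞 K) (𝓞 K)).comp f hf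
  have hx : ∃ x : 𝓞 K, ∑ s : H, ((χ s⁻¹ : ℤ) : 𝓞 K) * ((s : Ga K) • x) ≠ 0 := by
    by_contra k
    simp only [not_exists, not_not] at k
    have := Fintype.linearIndependent_iff.1 li (fun s => ((χ s⁻¹ : ℤ) : 𝓞 K)) (by
      funext x
      rw [Finset.sum_apply]
      exact k x) 1
    simp at this
  obtain ⟨x, hx⟩ := hx
  refine ⟨_, hx, fun t => ?_⟩
  rw [Finset.smul_sum, Finset.mul_sum]
  refine Fintype.sum_equiv (Equiv.mulLeft t) _ _ fun s => ?_
  rw [smul_mul', hz, ← mul_smul, Equiv.coe_mulLeft, ← mul_assoc, ← Int.cast_mul, ← Units.val_mul,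
    ← map_mul]
  have hc : χ (t * (t * s)⁻¹) = χ s⁻¹ := by
    rw [map_mul, map_inv, map_inv, map_mul, mul_inv, mul_inv_cancel_left]
  rw [hc]
  rfl

end

theorem wlC (hV : VAL) (hC : CO) : WL := by
  classical
  intro K _ _ _ P hP hP0 h2 θ hA hθ hI
  obtain ⟨v1, v2, v3, v4⟩ := hV K P hP hP0
  let H : Subgroup (Ga K) := P.toAddSubgroup.inertia (Ga K)
  have hH : ∀ s, s ∈ H ↔ In P s := fun s => Iff.rfl
  have dv : ∀ (χ : H →* ℤˣ) (y z : 𝓞 K), Eg H χ y → Eg H 1 z → w P z ≤ w P y →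
      ∃ u, Eg H χ u ∧ w P u + w P z = w P y := by
    intro χ y z hy hz hw
    obtain ⟨c, u, hc, e⟩ := v4 y z hy.1 hz.1 hw
    have hN : ∏ s : H, s • c ∉ P := by
      intro k
      obtain ⟨s, -, k⟩ := (Ideal.IsPrime.prod_mem_iff (hp := hP)).1 k
      have := P.sub_mem k ((hH s).1 s.2 c)
      exact hc (by rwa [show s • c - ((s : Ga K) • c - c) = c from sub_sub_cancel _ _] at this)
    have hN0 : ∏ s : H, s • c ≠ 0 := fun k => hN (k ▸ P.zero_mem)
    have hNw : w P (∏ s : H, s • c) = 0 := by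
      by_contra k
      exact hN (by simpa using (v2 _ 1 hN0).1 (by omega))
    have e2 : (∏ s : H, s • c) * y = z * ((∏ s ∈ Finset.univ.erase (1 : H), s • c) * u) := by
      rw [← Finset.mul_prod_erase _ _ (Finset.mem_univ (1 : H)), one_smul, mul_left_comm z, ← e]
      ring
    generalize (∏ s ∈ Finset.univ.erase (1 : H), s • c) * u = u' at e2
    have hu : u' ≠ 0 := by
      rintro rfl
      exact mul_ne_zero hN0 hy.1 (by rw [e2, mul_zero])
    refine ⟨u', ⟨hu, fun s => ?_⟩, ?_⟩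
    · have e3 := congrArg (fun x => (s : Ga K) • x) e2
      have e4 : (s : Ga K) • ∏ s : H, s • c = ∏ s : H, s • c := Finset.smul_prod_perm c s
      simp only [smul_mul'] at e3
      rw [e4, hy.2, hz.2] at e3
      simp only [MonoidHom.one_apply, Units.val_one, Int.cast_one, one_mul] at e3
      apply mul_left_cancel₀ hz.1
      linear_combination (((χ s : ℤ) : 𝓞 K)) * e2 - e3
    · have e3 := v1 _ _ hN0 hy.1
      rw [e2, v1 _ _ hz.1 hu] at e3
      omega
  have h20 : (2 : 𝓞 K) ≠ 0 := two_ne_zero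
  have e2 : Eg H 1 2 := ⟨h20, fun s => by
    have : (s : Ga K) • (2 : 𝓞 K) = 2 :=
      map_ofNat (MulSemiringAction.toRingHom (Ga K) (𝓞 K) s) 2
    simp [this]⟩
  have hex : ∃ n, 0 < n ∧ ∃ z, Eg H 1 z ∧ w P z = n :=
    ⟨_, (v2 2 1 h20).2 (by simpa using h2), 2, e2, rfl⟩
  obtain ⟨hd0, z, hz, hzd⟩ := Nat.find_spec hex
  have hdm : ∀ y, Eg H 1 y → 0 < w P y → Nat.find hex ≤ w P y := fun y hy k =>
    Nat.find_min' hex ⟨k, y, hy, rfl⟩
  generalize Nat.find hex = d at hd0 hzd hdm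
  have hy : ∀ χ : H →* ℤˣ, ∃ y, Eg H χ y ∧ ∀ u, Eg H χ u → w P y ≤ w P u := by
    intro χ
    have hx : ∃ n, ∃ y, Eg H χ y ∧ w P y = n := by
      obtain ⟨y, hy⟩ := eg_ex H θ hθ χ
      exact ⟨_, y, hy, rfl⟩
    obtain ⟨y, hy, e⟩ := Nat.find_spec hx
    exact ⟨y, hy, fun u hu => e ▸ Nat.find_min' hx ⟨u, hu, rfl⟩⟩
  choose y hy hm using hy
  have hsq : ∀ χ : H →* ℤˣ, χ * χ = 1 := fun χ => by
    ext s
    rw [MonoidHom.mul_apply, Int.units_mul_self]
    rfl
  have h1 : ∀ χ, w P (y χ) = 0 ∨ 2 * w P (y χ) = d := by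
    intro χ
    have k1 : w P (y χ) < d := by
      by_contra k
      obtain ⟨u, hu, e⟩ := dv χ _ z (hy χ) hz (by omega)
      have := hm χ u hu
      omega
    have k2 : Eg H 1 (y χ * y χ) := hsq χ ▸ (hy χ).mul (hy χ)
    have k3 := v1 _ _ (hy χ).1 (hy χ).1
    by_contra k
    have k4 := hdm _ k2 (by omega)
    obtain ⟨u, hu, e⟩ := dv 1 _ z k2 hz (by omega)
    have := hdm u hu (by omega)
    omega
  have h3 : ∀ χ ψ, w P (y χ) ≠ 0 → w P (y ψ) ≠ 0 → w P (y (χ * ψ)) = 0 := by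
    intro χ ψ k1 k2
    have k3 := v1 _ _ (hy χ).1 (hy ψ).1
    have k4 := h1 χ
    have k5 := h1 ψ
    obtain ⟨u, hu, e⟩ := dv _ _ z ((hy χ).mul (hy ψ)) hz (by omega)
    have := hm _ u hu
    omega
  have main := comb H (fun s => Subtype.ext (hI s s.2)) (fun s => w P ((s : Ga K) • θ - θ))
    (w P 2) d (fun χ => w P (y χ)) (hdm 2 e2 ((v2 2 1 h20).2 (by simpa using h2))) h1 h3 (by
      intro χ
      have := hC K P hP hP0 θ hA hθ ((Finset.univ.filter fun s : H => χ s = -1).map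
        (Function.Embedding.subtype _)) (y χ) (hy χ).1 (by
          intro s hs
          obtain ⟨t, ht, rfl⟩ := Finset.mem_map.1 hs
          refine ⟨t.2, ?_⟩
          have k := (hy χ).2 t
          rw [(Finset.mem_filter.1 ht).2] at k
          simpa using k)
      rw [Finset.sum_map] at this
      exact this)
  have hI1 : I1 P = ((Finset.univ : Finset H).erase 1).map (Function.Embedding.subtype _) := by
    ext s
    simp only [I1, Finset.mem_filter, Finset.mem_univ, true_and, Finset.mem_map,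
      Finset.mem_erase, and_true]
    constructor
    · rintro ⟨k1, k2⟩
      exact ⟨⟨s, k1⟩, fun k => k2 (congrArg Subtype.val k), rfl⟩
    · rintro ⟨t, k, rfl⟩
      exact ⟨t.2, fun k2 => k (Subtype.ext k2)⟩
  have hcard : (I1 P).card + 1 = Fintype.card H := by
    rw [hI1, Finset.card_map, Finset.card_erase_add_one (Finset.mem_univ _), Finset.card_univ]
  have hsum : ∑ s ∈ I1 P, w P (s • θ - θ) =
      ∑ s ∈ (Finset.univ : Finset H).erase 1, w P ((s : Ga K) • θ - θ) := by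
    rw [hI1, Finset.sum_map]
    rfl
  rw [← hcard] at main
  have main' : 2 * ((I1 P).card + 1) * ∑ s ∈ I1 P, w P (s • θ - θ) + 4 * w P 2 ≤
      5 * ((I1 P).card + 1) * w P 2 := by
    rw [hsum]
    exact main
  nlinarith [main']

end Vale.Agent.P022T.H78
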